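import Vale.Agent.P226.Fun

/-! Consequences of criticality. -/

open MeasureTheory ProbabilityTheory Set Filter Topology Real
open scoped RealInnerProductSpace ENNReal

set_option linter.unusedSectionVars false

namespace Vale.Agent.P226

variable {E : Type*} [NormedAddCommGroup E] [InnerProductSpace ℝ E] [FiniteDimensional ℝ E]
  [MeasurableSpace E] [BorelSpace E] {ι : Type*} [DecidableEq ι]

variable {S : Finset ι} {v : ι → E} {lam : ℝ} {n : ℕ}

lemma Crit.pos (h : Crit S v lam) : 0 < lam := cc_pos.trans h.gt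

lemma Crit.nonempty (h : Crit S v lam) : S.Nonempty := by
  rcases S.eq_empty_or_nonempty with h0 | h0
  · have := h.norm; rw [h0] at this; simp at this
  · exact h0

lemma Crit.sum_zero (h : Crit S v lam) : ∑ l ∈ S, v l = 0 := by
  have h1 := sum_zz h.nonempty h.inj
  rw [Finset.sum_congr rfl h.mom, ← Finset.smul_sum, smul_eq_zero] at h1
  exact h1.resolve_left h.pos.ne'

lemma Crit.subgrad (h : Crit S v lam) (w : ι → E) {g : E → ℝ}
    (hg : Integrable g (stdGaussian E)) (hw : ∀ l ∈ S, ∀ x, ⟪w l, x⟫ ≤ g x) :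
    lam * ∑ l ∈ S, ⟪w l, v l⟫ ≤ ∫ x, g x ∂(stdGaussian E) := by
  refine le_of_eq_of_le ?_ (sum_inner_zz_le h.nonempty h.inj w hg hw)
  rw [Finset.mul_sum]
  exact Finset.sum_congr rfl fun l hl => by rw [h.mom l hl, real_inner_smul_right]

lemma Crit.obtuse (h : Crit S v lam) (H : Hyp E ι n) (hn : S.card ≤ n + 1) {i j : ι} (hi : i ∈ S)
    (hj : j ∈ S) (hij : i ≠ j) : ⟪v i, v j⟫ < 0 := by
  have hi' : i ∈ S.erase j := Finset.mem_erase.2 ⟨hij, hi⟩
  have hne : (S.erase j).Nonempty := ⟨i, hi'⟩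
  set u : ι → E := fun l => if l = i ∨ l = j then v i + v j else v l with hu
  have h1 := h.subgrad u (integrable_Mx hne u) (fun l hl x => by
    by_cases hlj : l = j
    · have : u l = u i := by simp [hu, hlj]
      rw [this]; exact le_Mx u x hi'
    · exact le_Mx u x (Finset.mem_erase.2 ⟨hlj, hl⟩))
  have h2 := H _ hne (by rw [Finset.card_erase_of_mem hj]; omega) u
  have split : ∀ F : ι → ℝ, ∑ l ∈ S, F l = F j + (F i + ∑ l ∈ (S.erase j).erase i, F l) := by
    intro F
    rw [Finset.add_sum_erase _ _ hi', Finset.add_sum_erase _ _ hj]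
  have hrest : ∀ l ∈ (S.erase j).erase i, u l = v l := by
    intro l hl
    simp only [Finset.mem_erase] at hl
    simp [hu, hl.1, hl.2.1]
  have ui : u i = v i + v j := by simp [hu]
  have uj : u j = v i + v j := by simp [hu]
  set R := ∑ l ∈ (S.erase j).erase i, ‖v l‖ ^ 2 with hR
  have e1 : ∑ l ∈ S, ⟪u l, v l⟫ = 1 + 2 * ⟪v i, v j⟫ := by
    have := h.norm
    rw [split] at this
    rw [split, ui, uj, Finset.sum_congr rfl (fun l hl => by
      rw [hrest l hl, real_inner_self_eq_norm_sq]), inner_add_left, inner_add_left,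
      real_inner_self_eq_norm_sq, real_inner_self_eq_norm_sq, real_inner_comm (v i) (v j)]
    linarith
  have e2 : ∑ l ∈ S.erase j, ‖u l‖ ^ 2 = 1 + 2 * ⟪v i, v j⟫ := by
    have := h.norm
    rw [split] at this
    rw [← Finset.add_sum_erase _ _ hi', ui, Finset.sum_congr rfl (fun l hl => by
      rw [hrest l hl]), norm_add_sq_real]
    linarith
  rw [e1] at h1
  rw [e2] at h2
  have h3 := h1.trans h2
  by_contra hcon
  have h4 : 1 ≤ 1 + 2 * ⟪v i, v j⟫ := by linarith [not_lt.1 hcon]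
  have h5 : √(1 + 2 * ⟪v i, v j⟫) ≤ 1 + 2 * ⟪v i, v j⟫ := by
    rw [Real.sqrt_le_left (by linarith)]; nlinarith
  nlinarith [h.gt, cc_pos]

lemma quad_eq (h0 : ∑ l ∈ S, v l = 0) (x : ι → ℝ) :
    2 * ‖∑ l ∈ S, x l • v l‖ ^ 2 = ∑ l ∈ S, ∑ m ∈ S, -⟪v l, v m⟫ * (x l - x m) ^ 2 := by
  have e1 : ∀ l, ∑ m ∈ S, ⟪v l, v m⟫ = 0 := fun l => by rw [← inner_sum, h0, inner_zero_right]
  have e2 : ∑ l ∈ S, ∑ m ∈ S, ⟪v l, v m⟫ * x l ^ 2 = 0 := by
    refine Finset.sum_eq_zero fun l _ => ?_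
    rw [← Finset.sum_mul, e1, zero_mul]
  have e3 : ∑ l ∈ S, ∑ m ∈ S, ⟪v l, v m⟫ * x m ^ 2 = 0 := by
    rw [Finset.sum_comm]
    simp_rw [fun l m => real_inner_comm (v l) (v m)]
    exact e2
  have e4 : ‖∑ l ∈ S, x l • v l‖ ^ 2 = ∑ l ∈ S, ∑ m ∈ S, ⟪v l, v m⟫ * (x l * x m) := by
    rw [← real_inner_self_eq_norm_sq, sum_inner]
    refine Finset.sum_congr rfl fun l _ => ?_
    rw [inner_sum]
    refine Finset.sum_congr rfl fun m _ => ?_
    rw [real_inner_smul_left, real_inner_smul_right]; ring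
  have e5 : ∑ l ∈ S, ∑ m ∈ S, -⟪v l, v m⟫ * (x l - x m) ^ 2 =
      2 * ∑ l ∈ S, ∑ m ∈ S, ⟪v l, v m⟫ * (x l * x m) - ∑ l ∈ S, ∑ m ∈ S, ⟪v l, v m⟫ * x l ^ 2
        - ∑ l ∈ S, ∑ m ∈ S, ⟪v l, v m⟫ * x m ^ 2 := by
    simp only [Finset.mul_sum, ← Finset.sum_sub_distrib]
    refine Finset.sum_congr rfl fun l _ => Finset.sum_congr rfl fun m _ => by ring
  rw [e5, e2, e3, e4]; ring

lemma quad_term_nonneg (ob : ∀ i ∈ S, ∀ j ∈ S, i ≠ j → ⟪v i, v j⟫ < 0) (x : ι → ℝ) {l m : ι}
    (hl : l ∈ S) (hm : m ∈ S) : 0 ≤ -⟪v l, v m⟫ * (x l - x m) ^ 2 := by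
  rcases eq_or_ne l m with rfl | h
  · simp
  · exact mul_nonneg (by linarith [ob l hl m hm h]) (sq_nonneg _)

lemma exists_dir (h0 : ∑ l ∈ S, v l = 0) (ob : ∀ i ∈ S, ∀ j ∈ S, i ≠ j → ⟪v i, v j⟫ < 0)
    {i j0 : ι} (hi : i ∈ S) (hj0 : j0 ∈ S.erase i) :
    ∃ y : E, ∀ j ∈ S.erase i, ⟪v i - v j, y⟫ = 1 := by
  set W := Submodule.span ℝ ((fun j => v j - v j0) '' (S.erase i : Set ι)) with hW
  obtain ⟨w, hw, z, hz, e⟩ := W.exists_add_mem_mem_orthogonal (v i - v j0)
  have hz0 : z ≠ 0 := by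
    rintro rfl
    rw [hW, Submodule.mem_span_image_finset_iff_exists_fun'] at hw
    obtain ⟨c, hc⟩ := hw
    set x : ι → ℝ := fun l => (if l = i then 1 else -c l) +
      (if l = j0 then ∑ j ∈ S.erase i, c j - 1 else 0) with hx
    have hj0S : j0 ∈ S := Finset.mem_of_mem_erase hj0
    have k1 : ∑ l ∈ S, x l • v l = 0 := by
      simp only [hx, add_smul, Finset.sum_add_distrib, ite_smul, zero_smul, Finset.sum_ite_eq',
        if_pos hj0S]
      rw [← Finset.add_sum_erase _ _ hi, if_pos rfl, Finset.sum_congr rfl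
        (fun l hl => if_neg (Finset.ne_of_mem_erase hl))]
      rw [add_zero, ← hc] at e
      simp only [smul_sub, Finset.sum_sub_distrib, ← Finset.sum_smul] at e
      simp only [neg_smul, Finset.sum_neg_distrib, sub_smul, one_smul]
      rw [sub_eq_iff_eq_add] at e
      rw [e]; abel
    have k2 : ∑ l ∈ S, x l = 0 := by
      simp only [hx, Finset.sum_add_distrib, Finset.sum_ite_eq', if_pos hj0S]
      rw [← Finset.add_sum_erase _ _ hi, if_pos rfl, Finset.sum_congr rfl
        (fun l hl => if_neg (Finset.ne_of_mem_erase hl)), Finset.sum_neg_distrib]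
      ring
    have k3 := quad_eq h0 x
    rw [k1, norm_zero] at k3
    have k4 : ∀ l ∈ S, x l = 1 := by
      intro l hl
      have xi : x i = 1 := by simp [hx, (Finset.ne_of_mem_erase hj0).symm]
      rcases eq_or_ne l i with rfl | hli
      · exact xi
      have a1 := (Finset.sum_eq_zero_iff_of_nonneg fun l hl => Finset.sum_nonneg fun m hm =>
        quad_term_nonneg ob x hl hm).1 (by rw [← k3]; ring) l hl
      have a2 := (Finset.sum_eq_zero_iff_of_nonneg fun m hm =>
        quad_term_nonneg ob x hl hm).1 a1 i hi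
      have a3 := ob l hl i hi hli
      rcases mul_eq_zero.1 a2 with a | a
      · linarith
      · rw [← xi]; exact sub_eq_zero.1 (pow_eq_zero_iff two_ne_zero |>.1 a)
    rw [Finset.sum_congr rfl k4] at k2
    simp only [Finset.sum_const, nsmul_eq_mul, mul_one, Nat.cast_eq_zero,
      Finset.card_eq_zero] at k2
    rw [k2] at hi
    simp at hi
  refine ⟨(‖z‖ ^ 2)⁻¹ • z, fun j hj => ?_⟩
  have m1 : v j - v j0 ∈ W := Submodule.subset_span ⟨j, Finset.mem_coe.2 hj, rfl⟩
  have a1 : ⟪v j - v j0, z⟫ = 0 := Submodule.inner_right_of_mem_orthogonal m1 hz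
  have a2 : ⟪w, z⟫ = 0 := Submodule.inner_right_of_mem_orthogonal hw hz
  have a3 : v i - v j = w + z - (v j - v j0) := by rw [← e]; abel
  have a4 : ‖z‖ ^ 2 ≠ 0 := pow_ne_zero _ (norm_ne_zero_iff.2 hz0)
  rw [real_inner_smul_right, a3, inner_sub_left, inner_add_left, a1, a2,
    real_inner_self_eq_norm_sq]
  field_simp
  ring

/-- normalized Ehrhard profile -/
noncomputable def jf (b : ℝ) : ℝ := phi b * (phi b - b * Q b) / cc ^ 2

/-- normalized squared isoperimetric profile -/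
noncomputable def isf (b : ℝ) : ℝ := phi b ^ 2 / cc ^ 2

lemma jf_nonneg (b : ℝ) : 0 ≤ jf b :=
  div_nonneg (mul_nonneg (phi_pos b).le (by linarith [mul_Q_le_phi b])) (sq_nonneg _)

lemma Crit.cell_data (h : Crit S v lam) (H : Hyp E ι n) (hn : S.card ≤ n + 1) (h2 : 2 ≤ S.card)
    {i : ι} (hi : i ∈ S) :
    ∃ b, 0 ≤ b ∧ (stdGaussian E).real (cell S v i) = Q b ∧ ‖v i‖ ^ 2 ≤ isf b ∧
      ∀ r, ff (S.erase i) v ≤ cc * r → ((S.card : ℝ) - 1) / S.card * (1 - r) ≤ jf b := by
  have ob : ∀ i ∈ S, ∀ j ∈ S, i ≠ j → ⟪v i, v j⟫ < 0 := fun i hi j hj hij =>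
    h.obtuse H hn hi hj hij
  have hne : (S.erase i).Nonempty := by
    rw [← Finset.card_pos, Finset.card_erase_of_mem hi]; omega
  obtain ⟨j0, hj0⟩ := id hne
  have hj0' := Finset.mem_erase.1 hj0
  have hvi : v i ≠ 0 := by
    intro h0
    have := ob i hi j0 hj0'.2 hj0'.1.symm
    rw [h0] at this; simp at this
  have hc := cc_pos
  have hl := h.pos
  have hp0 : 0 < (stdGaussian E).real (cell S v i) := by
    refine lt_of_le_of_ne measureReal_nonneg fun h0 => ?_
    have h1 : stdGaussian E (cell S v i) = 0 := (measureReal_eq_zero_iff).1 h0.symm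
    have h2 := h.mom i hi
    rw [zz, Measure.restrict_eq_zero.2 h1, integral_zero_measure] at h2
    exact (smul_ne_zero hl.ne' hvi) h2.symm
  have hp1 : (stdGaussian E).real (cell S v i) ≤ 1 / 2 := by
    rw [← measure_inner_pos (sub_ne_zero.2 (h.inj i hi j0 hj0'.2 hj0'.1.symm))]
    refine measureReal_mono fun x hx => ?_
    have := hx j0 hj0'.2 hj0'.1
    simp only [mem_ofPred_eq, inner_sub_left]
    linarith
  obtain ⟨b, hb⟩ := exists_Q_eq hp0 (by linarith)
  have hb0 : 0 ≤ b := by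
    by_contra hcon
    have := strictAnti_Q (not_le.1 hcon)
    rw [Q_zero] at this; linarith
  refine ⟨b, hb0, hb.symm, ?_, fun r hr => ?_⟩
  · have hn0 : ‖v i‖ ≠ 0 := norm_ne_zero_iff.2 hvi
    have h1 := moment_bound hb.symm (e := ‖v i‖⁻¹ • v i)
      (by rw [norm_smul, norm_inv, norm_norm, inv_mul_cancel₀ hn0])
    have h2 : (∫ x in cell S v i, x ∂(stdGaussian E)) = lam • v i := h.mom i hi
    rw [h2, real_inner_smul_left, real_inner_smul_right, real_inner_self_eq_norm_sq] at h1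
    have h3 : lam * ‖v i‖ ≤ phi b := by
      refine le_of_eq_of_le ?_ h1
      field_simp
    have h4 : cc * ‖v i‖ ≤ phi b :=
      (mul_le_mul_of_nonneg_right h.gt.le (norm_nonneg _)).trans h3
    rw [isf, le_div_iff₀ (by positivity)]
    have := pow_le_pow_left₀ (by positivity) h4 2
    linarith [mul_pow cc ‖v i‖ 2]
  · obtain ⟨y, hy⟩ := exists_dir h.sum_zero ob hi hj0
    have hk : (0 : ℝ) < S.card := by exact_mod_cast (by omega : 0 < S.card)
    have hk2 : (2 : ℝ) ≤ S.card := by exact_mod_cast h2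
    have e1 : ⟪y, v i⟫ = ((S.card : ℝ) - 1) / S.card := by
      have a1 : ∑ j ∈ S.erase i, ⟪v i - v j, y⟫ = (S.card : ℝ) - 1 := by
        rw [Finset.sum_congr rfl hy, Finset.sum_const, Finset.card_erase_of_mem hi, nsmul_eq_mul,
          Nat.cast_sub (by omega)]
        simp
      have a2 : ∑ j ∈ S, ⟪v i - v j, y⟫ = S.card * ⟪v i, y⟫ := by
        simp_rw [inner_sub_left]
        rw [Finset.sum_sub_distrib, Finset.sum_const, ← sum_inner, h.sum_zero]
        simp
      rw [← Finset.add_sum_erase _ _ hi, a1, sub_self, inner_zero_left, zero_add] at a2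
      rw [real_inner_comm, eq_div_iff hk.ne']
      linarith
    set κ := ((S.card : ℝ) - 1) / S.card with hκ
    have hκ0 : 0 < κ := div_pos (by linarith) hk
    have hG : Integrable (fun x => ⟪v i, x⟫ - Mx (S.erase i) v x) (stdGaussian E) :=
      (integrable_inner _).sub (integrable_Mx hne v)
    have h1 := gap_bound (oc_cell S v i) hb.symm y (η := lam * κ)
      (by
        have h2 : (∫ x in cell S v i, x ∂(stdGaussian E)) = lam • v i := h.mom i hi
        rw [h2, real_inner_smul_right, e1]) (by positivity) hG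
      (fun t x _ hx j hj hji => by
        have hj' : j ∈ S.erase i := Finset.mem_erase.2 ⟨hji, hj⟩
        have a1 := le_Mx v x hj'
        have a2 := hy j hj'
        rw [inner_sub_left] at a2
        rw [inner_add_right, inner_add_right, real_inner_smul_right, real_inner_smul_right]
        have : -t * ⟪v i, y⟫ = -t * ⟪v j, y⟫ - t := by linear_combination (-t) * a2
        linarith)
    have h3 : lam ≤ ff (S.erase i) v + ∫ x, max (⟪v i, x⟫ - Mx (S.erase i) v x) 0
        ∂(stdGaussian E) := by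
      rw [← h.val, ff, ff, ← integral_add (integrable_Mx hne v) hG.pos_part]
      refine integral_mono (integrable_Mx h.nonempty v) ((integrable_Mx hne v).add hG.pos_part)
        fun x => Mx_le h.nonempty fun l hl => ?_
      rcases eq_or_ne l i with rfl | hli
      · linarith [le_max_left (⟪v l, x⟫ - Mx (S.erase l) v x) 0]
      · linarith [le_max_right (⟪v i, x⟫ - Mx (S.erase i) v x) 0,
          le_Mx v x (Finset.mem_erase.2 ⟨hli, hl⟩)]
    rcases le_or_gt 1 r with hr1 | hr1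
    · exact (mul_nonpos_of_nonneg_of_nonpos hκ0.le (by linarith)).trans (jf_nonneg b)
    rw [jf, le_div_iff₀ (by positivity)]
    have h4 : lam - cc * r ≤ ∫ x, max (⟪v i, x⟫ - Mx (S.erase i) v x) 0 ∂(stdGaussian E) := by
      linarith
    have h5 := mul_le_mul_of_nonneg_left h4 (by positivity : 0 ≤ lam * κ)
    have h6 : cc ^ 2 * (1 - r) ≤ lam * (lam - cc * r) := by
      nlinarith [mul_nonneg (sub_nonneg.2 h.gt.le) (by nlinarith : 0 ≤ lam + cc - cc * r)]
    nlinarith [mul_le_mul_of_nonneg_left h6 hκ0.le]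

lemma Crit.erase_bound (h : Crit S v lam) (H : Hyp E ι n) (hn : S.card ≤ n + 1) (h2 : 2 ≤ S.card)
    {i : ι} (hi : i ∈ S) :
    ff (S.erase i) v ≤ cc * √(1 - S.card / ((S.card : ℝ) - 1) * ‖v i‖ ^ 2) := by
  have hne : (S.erase i).Nonempty := by
    rw [← Finset.card_pos, Finset.card_erase_of_mem hi]; omega
  have hk2 : (2 : ℝ) ≤ S.card := by exact_mod_cast h2
  have hk1 : (S.card : ℝ) - 1 ≠ 0 := by linarith
  have h1 := H.shift hne (by rw [Finset.card_erase_of_mem hi]; omega) v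
    (((S.card : ℝ) - 1)⁻¹ • v i)
  refine h1.trans (le_of_eq ?_)
  congr 2
  simp_rw [norm_add_sq_real]
  have a1 : ∑ l ∈ S.erase i, v l = -v i := by
    have := h.sum_zero
    rw [← Finset.add_sum_erase _ _ hi] at this
    exact eq_neg_of_add_eq_zero_right this
  have a2 : ∑ l ∈ S.erase i, ‖v l‖ ^ 2 = 1 - ‖v i‖ ^ 2 := by
    have := h.norm
    rw [← Finset.add_sum_erase _ _ hi] at this
    linarith
  rw [Finset.sum_add_distrib, Finset.sum_add_distrib, ← Finset.mul_sum, ← sum_inner, a1, a2,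
    Finset.sum_const, Finset.card_erase_of_mem hi, nsmul_eq_mul, Nat.cast_sub (by omega),
    inner_neg_left, real_inner_smul_right, real_inner_self_eq_norm_sq, norm_smul, mul_pow,
    Real.norm_eq_abs, sq_abs]
  push_cast
  field_simp
  ring

/-- linearized deletion inequality valid for every number of cells -/
lemma lin_del {k s j a : ℝ} (hk : 2 ≤ k) (ha : 0 < a)
    (h : ∀ r, √(1 - k / (k - 1) * s) ≤ r → (k - 1) / k * (1 - r) ≤ j) (hs : k / (k - 1) * s ≤ 1) :
    s - (1 - a) ^ 2 ≤ 2 * a * j := by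
  have h1 := h ((a ^ 2 + (1 - k / (k - 1) * s)) / (2 * a)) (by
    rw [le_div_iff₀ (by positivity)]
    nlinarith [sq_nonneg (a - √(1 - k / (k - 1) * s)), Real.sq_sqrt (sub_nonneg.2 hs)])
  have hk1 : k - 1 ≠ 0 := by linarith
  have hk0 : k ≠ 0 := by linarith
  have e : 2 * a * ((k - 1) / k * (1 - (a ^ 2 + (1 - k / (k - 1) * s)) / (2 * a))) =
      s - (1 - a) ^ 2 + (1 - a) ^ 2 / k := by
    field_simp; ring
  have h2 := mul_le_mul_of_nonneg_left h1 (by positivity : 0 ≤ 2 * a)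
  rw [e] at h2
  have : 0 ≤ (1 - a) ^ 2 / k := by positivity
  linarith

end Vale.Agent.P226
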