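import Vale.Agent.P226.Crit

/-! The removal lemma for small cells. -/

open MeasureTheory ProbabilityTheory Set Filter Topology Real
open scoped RealInnerProductSpace ENNReal

set_option linter.unusedSectionVars false

namespace Vale.Agent.P226

lemma lintegral_gam_affine_le {F : ℝ → ℝ≥0∞} (hF : Measurable F) {c : ℝ} (hc : 0 < c) (a : ℝ) :
    ∫⁻ g, F (a - c * g) ∂gam ≤ ENNReal.ofReal ((√(2 * π))⁻¹ * c⁻¹) * ∫⁻ t, F t := by
  rw [lintegral_gam (by fun_prop)]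
  have h1 : ∫⁻ g, ENNReal.ofReal (phi g) * F (a - c * g) ≤
      ∫⁻ g, ENNReal.ofReal (√(2 * π))⁻¹ * F (a - c * g) :=
    lintegral_mono fun g => by gcongr; exact phi_le g
  refine h1.trans (le_of_eq ?_)
  rw [lintegral_const_mul _ (by fun_prop), ENNReal.ofReal_mul (by positivity), mul_assoc]
  congr 1
  have h2 : ∫⁻ g, F (a - c * g) = ∫⁻ t, F (a - t) ∂(volume.map (fun g => c * g)) := by
    rw [lintegral_map (by fun_prop) (by fun_prop)]
  rw [h2, Real.map_volume_mul_left hc.ne', lintegral_smul_measure, lintegral_sub_left_eq_self,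
    abs_of_pos (inv_pos.2 hc), smul_eq_mul]

lemma lintegral_pospow (k : ℕ) {c : ℝ} (hc : 0 < c) (t L : ℝ) :
    ∫⁻ x in Ioi t, ENNReal.ofReal (max (L - c * x) 0 ^ (k + 1)) ≤
      ENNReal.ofReal (max (L - c * t) 0 ^ (k + 2) / ((k + 2) * c)) := by
  have e : (fun x => ENNReal.ofReal (max (L - c * x) 0 ^ (k + 1))) =
      (Iic (L / c)).indicator fun x => ENNReal.ofReal ((L - c * x) ^ (k + 1)) := by
    funext x
    by_cases hx : x ≤ L / c
    · rw [indicator_of_mem (mem_Iic.2 hx), max_eq_left]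
      rw [le_div_iff₀ hc] at hx; linarith
    · rw [indicator_of_notMem (by simpa using hx), max_eq_right]
      · simp
      · rw [not_le, div_lt_iff₀ hc] at hx; linarith
  rw [e, lintegral_indicator measurableSet_Iic, Measure.restrict_restrict measurableSet_Iic,
    Iic_inter_Ioi]
  rcases le_or_gt (L / c) t with h | h
  · rw [Ioc_eq_empty_of_le h]; simp
  have hpos : 0 < L - c * t := by rw [lt_div_iff₀ hc] at h; linarith
  rw [← ofReal_integral_eq_lintegral_ofReal, ← intervalIntegral.integral_of_le h.le,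
    intervalIntegral.integral_eq_sub_of_hasDerivAt
      (f := fun x => -((L - c * x) ^ (k + 2) / ((k + 2) * c)))]
  · rw [max_eq_left hpos.le, mul_div_cancel₀ _ hc.ne']
    simp
  · intro x _
    have h1 : HasDerivAt (fun x => L - c * x) (-c) x := by
      simpa using ((hasDerivAt_id' x).const_mul c).const_sub L
    have h2 := ((h1.fun_pow (k + 2)).div_const ((k + 2) * c)).fun_neg
    refine h2.congr_deriv ?_
    have : (k : ℝ) + 2 ≠ 0 := by positivity
    simp only [Nat.cast_add, Nat.cast_ofNat, show k + 2 - 1 = k + 1 from rfl]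
    field_simp
  · exact (by fun_prop : Continuous fun x => (L - c * x) ^ (k + 1)).intervalIntegrable _ _
  · exact (by fun_prop : Continuous fun x => (L - c * x) ^ (k + 1)).integrableOn_Ioc
  · refine (ae_restrict_iff' measurableSet_Ioc).2 (Eventually.of_forall fun x hx => ?_)
    have := hx.2
    rw [le_div_iff₀ hc] at this
    exact pow_nonneg (by linarith) _

/-- the tent function over a triangle -/
noncomputable def tent (n L a b : ℝ) : ℝ := min a (min b ((L - a - b) / n))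

lemma lintegral_tent {n : ℝ} (hn : 0 < n) (L : ℝ) :
    ∫⁻ a, ∫⁻ b, ENNReal.ofReal (tent n L a b) ≤
      ENNReal.ofReal (max L 0 ^ 3 / (6 * (n + 2))) := by
  set I : ℝ → ℝ → ℝ → ℝ≥0∞ := fun a b t =>
    {p : ℝ × ℝ × ℝ | p.2.2 < p.1 ∧ p.2.2 < p.2.1 ∧ p.2.1 < L - p.1 - n * p.2.2}.indicator 1 (a, b, t)
    with hI
  have hset : MeasurableSet
      {p : ℝ × ℝ × ℝ | p.2.2 < p.1 ∧ p.2.2 < p.2.1 ∧ p.2.1 < L - p.1 - n * p.2.2} := by
    refine IsOpen.measurableSet ?_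
    have a1 : IsOpen {p : ℝ × ℝ × ℝ | p.2.2 < p.1} := isOpen_lt (by fun_prop) (by fun_prop)
    have a2 : IsOpen {p : ℝ × ℝ × ℝ | p.2.2 < p.2.1} := isOpen_lt (by fun_prop) (by fun_prop)
    have a3 : IsOpen {p : ℝ × ℝ × ℝ | p.2.1 < L - p.1 - n * p.2.2} :=
      isOpen_lt (by fun_prop) (by fun_prop)
    exact a1.inter (a2.inter a3)
  have hm : Measurable ({p : ℝ × ℝ × ℝ | p.2.2 < p.1 ∧ p.2.2 < p.2.1 ∧
      p.2.1 < L - p.1 - n * p.2.2}.indicator (1 : ℝ × ℝ × ℝ → ℝ≥0∞)) :=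
    measurable_one.indicator hset
  have e1 : ∀ a b, ENNReal.ofReal (tent n L a b) = ∫⁻ t in Ioi 0, I a b t := by
    intro a b
    have : (fun t => I a b t) = (Iio (tent n L a b)).indicator 1 := by
      funext t
      simp only [hI, indicator, mem_ofPred_eq, mem_Iio, tent, lt_min_iff, lt_div_iff₀ hn,
        Pi.one_apply]
      refine if_congr ?_ rfl rfl
      constructor <;> rintro ⟨h1, h2, h3⟩ <;> exact ⟨h1, h2, by linarith⟩
    rw [this, lintegral_indicator_one measurableSet_Iio, Measure.restrict_apply measurableSet_Iio,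
      Iio_inter_Ioi, Real.volume_Ioo, sub_zero]
  have e2 : ∀ a t, ∫⁻ b, I a b t = (Ioi t).indicator
      (fun a => ENNReal.ofReal (max (L - (n + 1) * t - 1 * a) 0 ^ (0 + 1))) a := by
    intro a t
    by_cases h : t < a
    · have : (fun b => I a b t) = (Ioo t (L - a - n * t)).indicator 1 := by
        funext b
        simp only [hI, indicator, mem_ofPred_eq, mem_Ioo, Pi.one_apply, h, true_and]
      rw [this, lintegral_indicator_one measurableSet_Ioo, Real.volume_Ioo,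
        indicator_of_mem (mem_Ioi.2 h), zero_add, pow_one]
      rcases le_total (L - (n + 1) * t - 1 * a) 0 with h' | h'
      · rw [max_eq_right h', ENNReal.ofReal_of_nonpos (by linarith), ENNReal.ofReal_zero]
      · rw [max_eq_left h']; congr 1; ring
    · rw [indicator_of_notMem (by simpa using h)]
      simp [hI, indicator, h]
  have e3 : ∀ a, ∫⁻ b, ENNReal.ofReal (tent n L a b) = ∫⁻ t in Ioi 0, ∫⁻ b, I a b t := by
    intro a
    simp_rw [e1]
    refine lintegral_lintegral_swap (Measurable.aemeasurable ?_)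
    exact hm.comp (by fun_prop : Measurable fun p : ℝ × ℝ => (a, p.1, p.2))
  simp_rw [e3]
  rw [lintegral_lintegral_swap]
  · simp_rw [e2]
    have h4 : ∀ t, ∫⁻ a, (Ioi t).indicator
        (fun a => ENNReal.ofReal (max (L - (n + 1) * t - 1 * a) 0 ^ (0 + 1))) a ≤
        ENNReal.ofReal (1 / 2) * ENNReal.ofReal (max (L - (n + 2) * t) 0 ^ (1 + 1)) := by
      intro t
      rw [lintegral_indicator measurableSet_Ioi]
      refine (lintegral_pospow 0 one_pos t _).trans (le_of_eq ?_)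
      rw [← ENNReal.ofReal_mul (by norm_num)]
      congr 1
      rw [show L - (n + 1) * t - 1 * t = L - (n + 2) * t by ring]
      norm_num; ring
    refine (lintegral_mono h4).trans ?_
    rw [lintegral_const_mul _ (by fun_prop)]
    refine (mul_le_mul_right (lintegral_pospow 1 (by linarith) 0 L) _).trans (le_of_eq ?_)
    rw [← ENNReal.ofReal_mul (by norm_num)]
    congr 1
    have : n + 2 ≠ 0 := by linarith
    norm_num
    field_simp
    ring
  · refine Measurable.aemeasurable ?_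
    refine Measurable.lintegral_prod_right' (f := fun q : (ℝ × ℝ) × ℝ => I q.1.1 q.2 q.1.2) ?_
    exact hm.comp (by fun_prop : Measurable fun q : (ℝ × ℝ) × ℝ => (q.1.1, q.2, q.1.2))

@[fun_prop]
lemma Measurable.tent {α : Type*} [MeasurableSpace α] (n : ℝ) {L a b : α → ℝ} (hL : Measurable L)
    (ha : Measurable a) (hb : Measurable b) : Measurable fun x => tent n (L x) (a x) (b x) := by
  unfold P226.tent; fun_prop

lemma lintegral_tent_gam {n : ℝ} (hn : 0 < n) (L a0 b0 be : ℝ) {al de : ℝ} (hal : 0 < al)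
    (hde : 0 < de) :
    ∫⁻ g1, ∫⁻ g2, ENNReal.ofReal (tent n L (a0 - al * g1) (b0 - be * g1 - de * g2)) ∂gam ∂gam ≤
      ENNReal.ofReal (max L 0 ^ 3 / (6 * (n + 2)) / (2 * π * al * de)) := by
  have hmeas : Measurable fun a => ∫⁻ b, ENNReal.ofReal (tent n L a b) :=
    Measurable.lintegral_prod_right' (f := fun q : ℝ × ℝ => ENNReal.ofReal (tent n L q.1 q.2))
      (by fun_prop)
  have h1 : ∀ g1, ∫⁻ g2, ENNReal.ofReal (tent n L (a0 - al * g1) (b0 - be * g1 - de * g2)) ∂gam ≤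
      ENNReal.ofReal ((√(2 * π))⁻¹ * de⁻¹) * ∫⁻ b, ENNReal.ofReal (tent n L (a0 - al * g1) b) :=
    fun g1 => lintegral_gam_affine_le
      (F := fun b => ENNReal.ofReal (tent n L (a0 - al * g1) b)) (by fun_prop) hde _
  refine (lintegral_mono h1).trans ?_
  have hmeas' : Measurable fun g1 => ∫⁻ b, ENNReal.ofReal (tent n L (a0 - al * g1) b) :=
    hmeas.comp (by fun_prop : Measurable fun g1 => a0 - al * g1)
  rw [lintegral_const_mul _ hmeas']
  have h2 := lintegral_gam_affine_le hmeas hal a0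
  have h3 := h2.trans (mul_le_mul_right (lintegral_tent hn L) _)
  refine (mul_le_mul_right h3 _).trans (le_of_eq ?_)
  have := sqrt_two_pi_pos
  rw [← ENNReal.ofReal_mul (by positivity), ← ENNReal.ofReal_mul (by positivity)]
  congr 1
  have e : 2 * π = √(2 * π) ^ 2 := (Real.sq_sqrt (by positivity)).symm
  conv_rhs => rw [e]
  field_simp

variable {E : Type*} [NormedAddCommGroup E] [InnerProductSpace ℝ E] [FiniteDimensional ℝ E]
  [MeasurableSpace E] [BorelSpace E] {ι : Type*} [DecidableEq ι]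

lemma lintegral_tent_space {n : ℝ} (hn : 0 < n) {e1 e2 va vb : E} (h1 : ‖e1‖ = 1) (h2 : ‖e2‖ = 1)
    (h12 : ⟪e1, e2⟫ = 0) (ha1 : 0 < ⟪va, e1⟫) (ha2 : ⟪va, e2⟫ = 0) (hb2 : 0 < ⟪vb, e2⟫)
    {L U : E → ℝ} (hL : Measurable L) (hU : Measurable U)
    (hL1 : ∀ p, L (resamp e1 p) = L p.1) (hL2 : ∀ p, L (resamp e2 p) = L p.1)
    (hU1 : ∀ p, U (resamp e1 p) = U p.1) (hU2 : ∀ p, U (resamp e2 p) = U p.1) :
    ∫⁻ x, ENNReal.ofReal (tent n (L x) (U x - ⟪va, x⟫) (U x - ⟪vb, x⟫)) ∂(stdGaussian E) ≤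
      ∫⁻ x, ENNReal.ofReal (max (L x) 0 ^ 3 / (6 * (n + 2)) / (2 * π * ⟪va, e1⟫ * ⟪vb, e2⟫))
        ∂(stdGaussian E) := by
  set F : E → ℝ≥0∞ := fun x => ENNReal.ofReal (tent n (L x) (U x - ⟪va, x⟫) (U x - ⟪vb, x⟫))
    with hF
  have hFm : Measurable F := by rw [hF]; fun_prop
  have hG : Measurable fun x => ∫⁻ g, F (resamp e2 (x, g)) ∂gam :=
    Measurable.lintegral_prod_right' (f := fun q : E × ℝ => F (resamp e2 q))
      (hFm.comp (continuous_resamp e2).measurable)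
  rw [lintegral_resamp h2 hFm, lintegral_resamp h1 hG]
  refine lintegral_mono fun x => ?_
  refine le_of_eq_of_le ?_ (lintegral_tent_gam hn (L x)
    (U x - ⟪va, x⟫ + ⟪e1, x⟫ * ⟪va, e1⟫)
    (U x - ⟪vb, x⟫ + ⟪e1, x⟫ * ⟪vb, e1⟫ + ⟪e2, x⟫ * ⟪vb, e2⟫) ⟪vb, e1⟫ ha1 hb2)
  congr 1
  funext g1
  congr 1
  funext g2
  have h21 : ⟪e2, e1⟫ = 0 := by rw [real_inner_comm, h12]
  simp only [hF, hL1, hL2, hU1, hU2, inner_resamp, ha2, h21]
  congr 2 <;> ring

variable {S : Finset ι} {v : ι → E} {lam : ℝ} {N : ℕ}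

lemma quad_lower (h0 : ∑ l ∈ S, v l = 0) (ob : ∀ i ∈ S, ∀ j ∈ S, i ≠ j → ⟪v i, v j⟫ < 0)
    {a b : ι} {B : Finset ι} (hab : a ≠ b) (ha : a ∉ B) (hb : b ∉ B)
    (hsub : insert a (insert b B) ⊆ S) (xa xb : ℝ) (c : ι → ℝ) :
    -⟪v a, v b⟫ * (xa - xb) ^ 2 + xa ^ 2 * ∑ l ∈ B, -⟪v a, v l⟫ + xb ^ 2 * ∑ l ∈ B, -⟪v b, v l⟫ ≤
      ‖xa • v a + xb • v b + ∑ l ∈ S \ insert a (insert b B), c l • v l‖ ^ 2 := by
  set x : ι → ℝ := fun l => if l = a then xa else if l = b then xb else if l ∈ B then 0 else c l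
    with hx
  have ha' : a ∉ insert b B := by simp [hab, ha]
  have x1 : x a = xa := by simp [hx]
  have x2 : x b = xb := by simp [hx, hab.symm]
  have x3 : ∀ l ∈ B, x l = 0 := by
    intro l hl
    have k1 : l ≠ a := fun h => ha (h ▸ hl)
    have k2 : l ≠ b := fun h => hb (h ▸ hl)
    simp [hx, k1, k2, hl]
  have x4 : ∀ l ∈ S \ insert a (insert b B), x l = c l := by
    intro l hl
    simp only [Finset.mem_sdiff, Finset.mem_insert, not_or] at hl
    simp [hx, hl.2.1, hl.2.2.1, hl.2.2.2]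
  have e1 : ∑ l ∈ S, x l • v l =
      xa • v a + xb • v b + ∑ l ∈ S \ insert a (insert b B), c l • v l := by
    rw [← Finset.sum_sdiff hsub, Finset.sum_insert ha', Finset.sum_insert hb, x1, x2,
      Finset.sum_congr rfl (fun l hl => by rw [x4 l hl]),
      Finset.sum_eq_zero (s := B) (fun l hl => by rw [x3 l hl, zero_smul])]
    abel
  have e2 := quad_eq h0 x
  have e3 : ∑ l ∈ insert a (insert b B), ∑ m ∈ insert a (insert b B),
      -⟪v l, v m⟫ * (x l - x m) ^ 2 ≤ ∑ l ∈ S, ∑ m ∈ S, -⟪v l, v m⟫ * (x l - x m) ^ 2 := by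
    refine (Finset.sum_le_sum fun l hl => Finset.sum_le_sum_of_subset_of_nonneg hsub
      fun m hm _ => quad_term_nonneg ob x (hsub hl) hm).trans ?_
    exact Finset.sum_le_sum_of_subset_of_nonneg hsub fun l hl _ =>
      Finset.sum_nonneg fun m hm => quad_term_nonneg ob x hl hm
  have f1 : ∀ l, ∑ m ∈ B, -⟪v l, v m⟫ * (x l - x m) ^ 2 = x l ^ 2 * ∑ m ∈ B, -⟪v l, v m⟫ := by
    intro l
    rw [Finset.mul_sum]
    exact Finset.sum_congr rfl fun m hm => by rw [x3 m hm]; ring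
  have f2 : ∑ l ∈ B, (-⟪v l, v a⟫ * (x l - xa) ^ 2 + (-⟪v l, v b⟫ * (x l - xb) ^ 2 +
      x l ^ 2 * ∑ m ∈ B, -⟪v l, v m⟫)) =
      xa ^ 2 * ∑ l ∈ B, -⟪v a, v l⟫ + xb ^ 2 * ∑ l ∈ B, -⟪v b, v l⟫ := by
    rw [Finset.mul_sum, Finset.mul_sum, ← Finset.sum_add_distrib]
    refine Finset.sum_congr rfl fun l hl => ?_
    rw [x3 l hl, real_inner_comm (v a), real_inner_comm (v b)]; ring
  simp only [Finset.sum_insert ha', Finset.sum_insert hb, f1, x1, x2, f2] at e3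
  rw [← e1]
  rw [real_inner_comm (v a) (v b)] at e3
  nlinarith

lemma exists_orth (T : Finset ι) (v : ι → E) (u : E) :
    ∃ (c : ι → ℝ) (z : E), z = u + ∑ l ∈ T, c l • v l ∧ (∀ l ∈ T, ⟪v l, z⟫ = 0) ∧
      ⟪u, z⟫ = ‖z‖ ^ 2 := by
  obtain ⟨w, hw, z, hz, e⟩ := (Submodule.span ℝ (v '' (T : Set ι))).exists_add_mem_mem_orthogonal u
  have a2 : ⟪w, z⟫ = 0 := Submodule.inner_right_of_mem_orthogonal hw hz
  rw [Submodule.mem_span_image_finset_iff_exists_fun'] at hw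
  obtain ⟨c, hc⟩ := hw
  refine ⟨fun l => -c l, z, ?_, fun l hl => Submodule.inner_right_of_mem_orthogonal
    (Submodule.subset_span (mem_image_of_mem v (Finset.mem_coe.2 hl))) hz, ?_⟩
  · simp only [neg_smul, Finset.sum_neg_distrib, hc, e]; abel
  · rw [e, inner_add_left, a2, zero_add, real_inner_self_eq_norm_sq]

lemma integral_posPart_cube_inner (u : E) :
    ∫ x, max ⟪u, x⟫ 0 ^ 3 ∂(stdGaussian E) = ‖u‖ ^ 3 * (2 * (√(2 * π))⁻¹) := by
  rw [integral_comp_inner u (F := fun r => max r 0 ^ 3) (by fun_prop), ← integral_posPart_cube,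
    ← integral_const_mul]
  congr 1
  funext g
  rw [← mul_pow, mul_max_of_nonneg _ _ (norm_nonneg u), mul_zero]

lemma integrable_posPart_cube_inner (u : E) :
    Integrable (fun x => max ⟪u, x⟫ 0 ^ 3) (stdGaussian E) := by
  refine integrable_comp_inner u (F := fun r => max r 0 ^ 3) (by fun_prop) ?_
  refine (integrable_posPart_cube.const_mul (‖u‖ ^ 3)).congr (Eventually.of_forall fun g => ?_)
  simp only
  rw [← mul_pow, mul_max_of_nonneg _ _ (norm_nonneg u), mul_zero]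

lemma norm_sum_sq_le (ob : ∀ i ∈ S, ∀ j ∈ S, i ≠ j → ⟪v i, v j⟫ < 0) {T : Finset ι} (hT : T ⊆ S) :
    ‖∑ l ∈ T, v l‖ ^ 2 ≤ ∑ l ∈ T, ‖v l‖ ^ 2 := by
  rw [← real_inner_self_eq_norm_sq, sum_inner]
  refine Finset.sum_le_sum fun l hl => ?_
  rw [inner_sum, ← Finset.add_sum_erase _ _ hl, real_inner_self_eq_norm_sq]
  have : ∑ m ∈ T.erase l, ⟪v l, v m⟫ ≤ 0 := Finset.sum_nonpos fun m hm =>
    (ob l (hT hl) m (hT (Finset.mem_of_mem_erase hm)) (Finset.ne_of_mem_erase hm).symm).le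
  linarith

lemma gain_bound (h0 : ∑ l ∈ S, v l = 0) (ob : ∀ i ∈ S, ∀ j ∈ S, i ≠ j → ⟪v i, v j⟫ < 0)
    {a b : ι} {B : Finset ι} (hab : a ≠ b) (ha : a ∉ B) (hb : b ∉ B) (hB : B.Nonempty)
    (hsub : insert a (insert b B) ⊆ S) (hT : (S \ insert a (insert b B)).Nonempty)
    {n : ℝ} (hn : 0 < n) (u : E) (hu : ∃ r : ℝ, u = r • ∑ l ∈ S \ insert a (insert b B), v l) :
    ∃ D : ℝ, 0 < D ∧ (-⟪v a, v b⟫ + ∑ l ∈ B, -⟪v a, v l⟫) * (-⟪v a, v b⟫ + ∑ l ∈ B, -⟪v b, v l⟫) -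
      ⟪v a, v b⟫ ^ 2 ≤ D ^ 2 ∧
      ∫ x, max (tent n ((n + 2) * Mx (S \ insert a (insert b B)) v x)
        (Mx (S \ insert a (insert b B)) v x - ⟪u, x⟫ - ⟪v a, x⟫)
        (Mx (S \ insert a (insert b B)) v x - ⟪u, x⟫ - ⟪v b, x⟫)) 0 ∂(stdGaussian E) ≤
        (n + 2) ^ 2 / (12 * π * D) * ((∑ l ∈ S \ insert a (insert b B), ‖v l‖ ^ 3) *
          (2 * (√(2 * π))⁻¹)) := by
  set T := S \ insert a (insert b B) with hTdef
  have haS : a ∈ S := hsub (by simp)
  have hbS : b ∈ S := hsub (by simp)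
  have haT : a ∉ T := by simp [hTdef]
  have hc : 0 < -⟪v a, v b⟫ := by linarith [ob a haS b hbS hab]
  have hA : 0 < ∑ l ∈ B, -⟪v a, v l⟫ := Finset.sum_pos (fun l hl => by
    have := ob a haS l (hsub (by simp [hl])) (fun h => ha (h ▸ hl)); linarith) hB
  have hA' : 0 < ∑ l ∈ B, -⟪v b, v l⟫ := Finset.sum_pos (fun l hl => by
    have := ob b hbS l (hsub (by simp [hl])) (fun h => hb (h ▸ hl)); linarith) hB
  set c := -⟪v a, v b⟫ with hcdef
  set A := ∑ l ∈ B, -⟪v a, v l⟫ with hAdef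
  set A' := ∑ l ∈ B, -⟪v b, v l⟫ with hA'def
  obtain ⟨c1, z1, ez1, oz1, nz1⟩ := exists_orth T v (v a)
  obtain ⟨c2, z2, ez2, oz2, nz2⟩ := exists_orth (insert a T) v (v b)
  have q1 := quad_lower h0 ob hab ha hb hsub 1 0 c1
  have q2 := quad_lower h0 ob hab ha hb hsub (c2 a) 1 c2
  rw [one_smul, zero_smul, add_zero, ← hTdef, ← ez1] at q1
  rw [Finset.sum_insert haT, ← add_assoc, add_comm (v b)] at ez2
  rw [one_smul, ← hTdef, ← ez2] at q2
  rw [← hcdef, ← hAdef, ← hA'def] at q1 q2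
  have p1 : 0 < ‖z1‖ ^ 2 := by nlinarith
  have p2 : 0 < ‖z2‖ ^ 2 := by
    nlinarith [mul_nonneg hc.le (sq_nonneg (c2 a - 1)), mul_nonneg hA.le (sq_nonneg (c2 a))]
  have n1 : 0 < ‖z1‖ := lt_of_le_of_ne (norm_nonneg _) fun h => by rw [← h] at p1; simp at p1
  have n2 : 0 < ‖z2‖ := lt_of_le_of_ne (norm_nonneg _) fun h => by rw [← h] at p2; simp at p2
  refine ⟨‖z1‖ * ‖z2‖, mul_pos n1 n2, ?_, ?_⟩
  · have k1 : c + A ≤ ‖z1‖ ^ 2 := by nlinarith
    have k2 : (c + A) * (c + A') - c ^ 2 ≤ (c + A) * ‖z2‖ ^ 2 := by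
      nlinarith [mul_le_mul_of_nonneg_left q2 (by linarith : 0 ≤ c + A),
        sq_nonneg ((c + A) * c2 a - c)]
    have k3 : ⟪v a, v b⟫ ^ 2 = c ^ 2 := by rw [hcdef]; ring
    rw [k3, mul_pow]
    nlinarith [mul_le_mul_of_nonneg_right k1 p2.le]
  set e1 := ‖z1‖⁻¹ • z1 with he1
  set e2 := ‖z2‖⁻¹ • z2 with he2
  have u1 : ‖e1‖ = 1 := by rw [he1, norm_smul, norm_inv, norm_norm, inv_mul_cancel₀ n1.ne']
  have u2 : ‖e2‖ = 1 := by rw [he2, norm_smul, norm_inv, norm_norm, inv_mul_cancel₀ n2.ne']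
  have oT1 : ∀ l ∈ T, ⟪v l, e1⟫ = 0 := fun l hl => by
    rw [he1, real_inner_smul_right, oz1 l hl, mul_zero]
  have oT2 : ∀ l ∈ insert a T, ⟪v l, e2⟫ = 0 := fun l hl => by
    rw [he2, real_inner_smul_right, oz2 l hl, mul_zero]
  have oT2' : ∀ l ∈ T, ⟪v l, e2⟫ = 0 := fun l hl => oT2 l (Finset.mem_insert_of_mem hl)
  have o12 : ⟪e1, e2⟫ = 0 := by
    have k : ⟪z1, e2⟫ = 0 := by
      have k' : ∑ l ∈ T, ⟪c1 l • v l, e2⟫ = 0 :=
        Finset.sum_eq_zero fun l hl => by rw [real_inner_smul_left, oT2' l hl, mul_zero]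
      rw [ez1, inner_add_left, oT2 a (Finset.mem_insert_self _ _), sum_inner, k', add_zero]
    rw [he1, real_inner_smul_left, k, mul_zero]
  have i1 : ⟪v a, e1⟫ = ‖z1‖ := by rw [he1, real_inner_smul_right, nz1]; field_simp
  have i2 : ⟪v b, e2⟫ = ‖z2‖ := by rw [he2, real_inner_smul_right, nz2]; field_simp
  have inv : ∀ e : E, (∀ l ∈ T, ⟪v l, e⟫ = 0) →
      (∀ p, Mx T v (resamp e p) = Mx T v p.1) ∧ ∀ p, ⟪u, resamp e p⟫ = ⟪u, p.1⟫ := by
    intro e he
    refine ⟨fun p => ?_, fun p => ?_⟩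
    · unfold Mx
      congr 1
      funext i
      rw [inner_resamp, he i i.2, mul_zero, add_zero]
    · obtain ⟨r, rfl⟩ := hu
      rw [inner_resamp, real_inner_smul_left _ e, sum_inner T v e, Finset.sum_eq_zero he]
      simp
  have key := lintegral_tent_space hn u1 u2 o12 (by rw [i1]; exact n1)
    (oT2 a (Finset.mem_insert_self _ _)) (by rw [i2]; exact n2)
    (L := fun x => (n + 2) * Mx T v x) (U := fun x => Mx T v x - ⟪u, x⟫) (by fun_prop) (by fun_prop)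
    (fun p => by rw [(inv e1 oT1).1]) (fun p => by rw [(inv e2 oT2').1])
    (fun p => by rw [(inv e1 oT1).1, (inv e1 oT1).2])
    (fun p => by rw [(inv e2 oT2').1, (inv e2 oT2').2])
  rw [i1, i2] at key
  have hint : Integrable (fun x => (n + 2) ^ 2 / (12 * π * (‖z1‖ * ‖z2‖)) *
      ∑ l ∈ T, max ⟪v l, x⟫ 0 ^ 3) (stdGaussian E) :=
    (integrable_finsetSum _ fun l _ => integrable_posPart_cube_inner (v l)).const_mul _
  have hpi := Real.pi_pos
  have key2 : ∫⁻ x, ENNReal.ofReal (max ((n + 2) * Mx T v x) 0 ^ 3 / (6 * (n + 2)) /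
      (2 * π * ‖z1‖ * ‖z2‖)) ∂(stdGaussian E) ≤
      ∫⁻ x, ENNReal.ofReal ((n + 2) ^ 2 / (12 * π * (‖z1‖ * ‖z2‖)) *
        ∑ l ∈ T, max ⟪v l, x⟫ 0 ^ 3) ∂(stdGaussian E) := by
    refine lintegral_mono fun x => ENNReal.ofReal_le_ofReal ?_
    obtain ⟨i, hi, e⟩ := exists_Mx hT v x
    have k1 : max ⟪v i, x⟫ 0 ^ 3 ≤ ∑ l ∈ T, max ⟪v l, x⟫ 0 ^ 3 :=
      Finset.single_le_sum (f := fun l => max ⟪v l, x⟫ 0 ^ 3)
        (fun l _ => pow_nonneg (le_max_right _ _) 3) hi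
    have k2 : max ((n + 2) * ⟪v i, x⟫) 0 = (n + 2) * max ⟪v i, x⟫ 0 := by
      rw [mul_max_of_nonneg _ _ (by linarith), mul_zero]
    rw [e, k2]
    refine le_of_eq_of_le ?_ (mul_le_mul_of_nonneg_left k1 (by positivity))
    field_simp
    ring
  have hnn : ∀ x, 0 ≤ (n + 2) ^ 2 / (12 * π * (‖z1‖ * ‖z2‖)) * ∑ l ∈ T, max ⟪v l, x⟫ 0 ^ 3 :=
    fun x => mul_nonneg (by positivity)
      (Finset.sum_nonneg fun l _ => pow_nonneg (le_max_right _ _) 3)
  rw [← ofReal_integral_eq_lintegral_ofReal hint (Eventually.of_forall hnn)] at key2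
  have key3 := key.trans key2
  rw [integral_eq_lintegral_of_nonneg_ae
    (f := fun x => max (tent n ((n + 2) * Mx T v x) (Mx T v x - ⟪u, x⟫ - ⟪v a, x⟫)
      (Mx T v x - ⟪u, x⟫ - ⟪v b, x⟫)) 0) (Eventually.of_forall fun x => le_max_right _ _)
    (Measurable.aestronglyMeasurable (by fun_prop))]
  refine ENNReal.toReal_le_of_le_ofReal (by positivity) (le_of_eq_of_le ?_ (key3.trans_eq ?_))
  · congr 1
    funext x
    rcases le_total (tent n ((n + 2) * Mx T v x) (Mx T v x - ⟪u, x⟫ - ⟪v a, x⟫)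
      (Mx T v x - ⟪u, x⟫ - ⟪v b, x⟫)) 0 with h | h
    · rw [max_eq_right h, ENNReal.ofReal_of_nonpos h, ENNReal.ofReal_zero]
    · rw [max_eq_left h]
  · rw [integral_const_mul, integral_finsetSum _ fun l _ => integrable_posPart_cube_inner (v l)]
    simp_rw [integral_posPart_cube_inner]
    rw [Finset.sum_mul]

theorem Crit.removal (h : Crit S v lam) (H : Hyp E ι N) (hN : S.card ≤ N + 1)
    {a b : ι} {B : Finset ι} (hab : a ≠ b) (ha : a ∉ B) (hb : b ∉ B) (hB : B.Nonempty)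
    (hsub : insert a (insert b B) ⊆ S) (hT : (S \ insert a (insert b B)).Nonempty) :
    (9 * π * ((B.card : ℝ) + 1) / (2 * ((B.card : ℝ) + 2) ^ 3)) ^ 2 *
      ((-⟪v a, v b⟫ + ∑ l ∈ B, -⟪v a, v l⟫) * (-⟪v a, v b⟫ + ∑ l ∈ B, -⟪v b, v l⟫) -
        ⟪v a, v b⟫ ^ 2) ≤ ∑ l ∈ S \ insert a (insert b B), ‖v l‖ ^ 2 := by
  have ob : ∀ i ∈ S, ∀ j ∈ S, i ≠ j → ⟪v i, v j⟫ < 0 := fun i hi j hj hij =>
    h.obtuse H hN hi hj hij
  set n : ℝ := (B.card : ℝ) with hn
  have hn0 : 0 < n := by rw [hn]; exact_mod_cast hB.card_pos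
  set B2 := insert a (insert b B) with hB2
  set T := S \ B2 with hTdef
  set s := ∑ l ∈ T, v l with hs
  obtain ⟨D, hD0, hD, hgain⟩ := gain_bound h.sum_zero ob hab ha hb hB hsub hT hn0
    ((n + 2)⁻¹ • s) ⟨_, rfl⟩
  rw [← hB2, ← hTdef] at hgain
  set e := ∑ l ∈ T, ‖v l‖ ^ 2 with he
  have ha' : a ∉ insert b B := by simp [hab, ha]
  have hB2ne : B2.Nonempty := ⟨a, by simp [hB2]⟩
  have hcard : (B2.card : ℝ) = n + 2 := by
    rw [hB2, Finset.card_insert_of_notMem ha', Finset.card_insert_of_notMem hb]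
    push_cast; ring
  have hsumB : ∑ l ∈ B2, v l = -s := by
    have := h.sum_zero
    rw [← Finset.sum_sdiff hsub] at this
    exact eq_neg_of_add_eq_zero_right this
  have hnormB : ∑ l ∈ B2, ‖v l‖ ^ 2 = 1 - e := by
    have := h.norm
    rw [← Finset.sum_sdiff hsub] at this
    linarith
  have hse : ‖s‖ ^ 2 ≤ e := norm_sum_sq_le ob Finset.sdiff_subset
  have he0 : 0 < e := by
    obtain ⟨j, hj⟩ := hT
    have hj' := Finset.mem_sdiff.1 hj
    have k : 0 < ‖v j‖ ^ 2 := by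
      have := ob j hj'.1 a (hsub (by simp [hB2])) (fun h => hj'.2 (by simp [hB2, h]))
      have hne : v j ≠ 0 := fun h0 => by rw [h0] at this; simp at this
      positivity
    exact k.trans_le (Finset.single_le_sum (f := fun l => ‖v l‖ ^ 2) (fun l _ => sq_nonneg _) hj)
  set Ψ : E → ℝ := fun x => max (tent n ((n + 2) * Mx T v x)
    (Mx T v x - ⟪(n + 2)⁻¹ • s, x⟫ - ⟪v a, x⟫) (Mx T v x - ⟪(n + 2)⁻¹ • s, x⟫ - ⟪v b, x⟫)) 0
    with hΨ
  have hΨi : Integrable Ψ (stdGaussian E) := by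
    have k : Integrable (fun x => Mx T v x - ⟪(n + 2)⁻¹ • s, x⟫ - ⟪v a, x⟫) (stdGaussian E) :=
      ((integrable_Mx hT v).sub (integrable_inner _)).sub (integrable_inner _)
    refine k.pos_part.mono' (Measurable.aestronglyMeasurable (by rw [hΨ]; fun_prop))
      (Eventually.of_forall fun x => ?_)
    rw [Real.norm_of_nonneg (le_max_right _ _)]
    exact max_le_max (min_le_left _ _) le_rfl
  have h1 := h.subgrad (fun l => if l ∈ B2 then v l else v l - (n + 2)⁻¹ • s)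
    ((integrable_Mx hB2ne v).add hΨi) (fun l hl x => by
      simp only [Pi.add_apply]
      have p0 : 0 ≤ Ψ x := le_max_right _ _
      split_ifs with hlB
      · linarith [le_Mx v x hlB]
      · have k1 := le_Mx v x (Finset.mem_sdiff.2 ⟨hl, hlB⟩)
        have k2 := le_Mx v x (show a ∈ B2 by simp [hB2])
        have k3 := le_Mx v x (show b ∈ B2 by simp [hB2])
        have k4 : ∑ l ∈ B, ⟪v l, x⟫ ≤ n * Mx B2 v x := by
          have := Finset.sum_le_card_nsmul B (fun l => ⟪v l, x⟫) (Mx B2 v x)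
            fun l hl => le_Mx v x (by simp [hB2, hl])
          rwa [nsmul_eq_mul] at this
        have k5 : ⟪v a, x⟫ + (⟪v b, x⟫ + ∑ l ∈ B, ⟪v l, x⟫) = -⟪s, x⟫ := by
          rw [← inner_neg_left, ← hsumB, sum_inner, hB2, Finset.sum_insert ha',
            Finset.sum_insert hb]
        have k6 : ⟪s, x⟫ = (n + 2) * ⟪(n + 2)⁻¹ • s, x⟫ := by
          rw [real_inner_smul_left]; field_simp
        have k7 : Mx T v x - ⟪(n + 2)⁻¹ • s, x⟫ - Mx B2 v x ≤ Ψ x := by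
          refine le_max_of_le_left (le_min (by linarith) (le_min (by linarith) ?_))
          rw [le_div_iff₀ hn0]
          nlinarith
        rw [inner_sub_left]
        linarith)
  have e1 : ∑ l ∈ S, ⟪if l ∈ B2 then v l else v l - (n + 2)⁻¹ • s, v l⟫ =
      1 - (n + 2)⁻¹ * ‖s‖ ^ 2 := by
    rw [← Finset.sum_sdiff hsub, Finset.sum_congr rfl (s₁ := B2) (fun l hl => by
      rw [if_pos hl, real_inner_self_eq_norm_sq]), hnormB, Finset.sum_congr rfl (fun l hl => by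
      rw [if_neg (Finset.mem_sdiff.1 hl).2, inner_sub_left, real_inner_self_eq_norm_sq]),
      Finset.sum_sub_distrib, ← inner_sum, real_inner_smul_left, real_inner_self_eq_norm_sq]
    ring
  simp only [Pi.add_apply] at h1
  rw [e1, integral_add (integrable_Mx hB2ne v) hΨi] at h1
  have hcardN : B2.card ≤ N := by
    have := Finset.card_sdiff_add_card_eq_card hsub
    have := hT.card_pos
    rw [← hTdef] at *
    omega
  have h2 := H.shift hB2ne hcardN v ((n + 2)⁻¹ • s)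
  have e2 : ∑ l ∈ B2, ‖v l + (n + 2)⁻¹ • s‖ ^ 2 = 1 - (e + (n + 2)⁻¹ * ‖s‖ ^ 2) := by
    simp_rw [norm_add_sq_real]
    rw [Finset.sum_add_distrib, Finset.sum_add_distrib, ← Finset.mul_sum, ← sum_inner, hsumB,
      hnormB, Finset.sum_const, nsmul_eq_mul, hcard, inner_neg_left, real_inner_smul_right,
      real_inner_self_eq_norm_sq, norm_smul, mul_pow, Real.norm_eq_abs, sq_abs]
    field_simp
    ring
  have e2' : 0 ≤ 1 - (e + (n + 2)⁻¹ * ‖s‖ ^ 2) := by
    rw [← e2]; exact Finset.sum_nonneg fun l _ => sq_nonneg _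
  rw [e2] at h2
  set w := (n + 2)⁻¹ * ‖s‖ ^ 2 with hw
  have hw0 : 0 ≤ w := by positivity
  have hw1 : w ≤ (n + 2)⁻¹ * e := mul_le_mul_of_nonneg_left hse (by positivity)
  have h3 : √(1 - (e + w)) ≤ 1 - (e + w) / 2 := by
    rw [Real.sqrt_le_left (by linarith)]; nlinarith [sq_nonneg (e + w)]
  have hc := cc_pos
  have h4 : cc * (1 - w) ≤ lam * (1 - w) := mul_le_mul_of_nonneg_right h.gt.le (by linarith)
  have h5 : cc * ((e - (n + 2)⁻¹ * e) / 2) ≤ ∫ x, Ψ x ∂(stdGaussian E) := by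
    have := mul_le_mul_of_nonneg_left h3 hc.le
    have k : cc * ((e - (n + 2)⁻¹ * e) / 2) ≤ cc * ((e - w) / 2) :=
      mul_le_mul_of_nonneg_left (by linarith) hc.le
    unfold ff at h2
    nlinarith
  have h6 : ∑ l ∈ T, ‖v l‖ ^ 3 ≤ √e * e := by
    rw [he, Finset.mul_sum]
    refine Finset.sum_le_sum fun l hl => ?_
    have k : ‖v l‖ ≤ √(∑ l ∈ T, ‖v l‖ ^ 2) := Real.le_sqrt_of_sq_le
      (Finset.single_le_sum (f := fun l => ‖v l‖ ^ 2) (fun l _ => sq_nonneg _) hl)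
    nlinarith [sq_nonneg ‖v l‖]
  have hpi := Real.pi_pos
  have hsq := sqrt_two_pi_pos
  have h7 : cc * ((e - (n + 2)⁻¹ * e) / 2) ≤
      (n + 2) ^ 2 / (12 * π * D) * (√e * e * (2 * (√(2 * π))⁻¹)) := by
    refine (h5.trans hgain).trans ?_
    gcongr
  have h8 : 9 * π * (n + 1) / (2 * (n + 2) ^ 3) * D ≤ √e := by
    have k1 : cc * ((e - (n + 2)⁻¹ * e) / 2) =
        (9 * π * (n + 1) / (2 * (n + 2) ^ 3) * D) *
          ((n + 2) ^ 2 / (12 * π * D) * (e * (2 * (√(2 * π))⁻¹))) := by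
      unfold cc; field_simp; ring
    have k2 : (n + 2) ^ 2 / (12 * π * D) * (√e * e * (2 * (√(2 * π))⁻¹)) =
        √e * ((n + 2) ^ 2 / (12 * π * D) * (e * (2 * (√(2 * π))⁻¹))) := by ring
    rw [k1, k2] at h7
    exact le_of_mul_le_mul_right h7 (by positivity)
  have h9 := pow_le_pow_left₀ (by positivity) h8 2
  rw [Real.sq_sqrt he0.le, mul_pow] at h9
  exact (mul_le_mul_of_nonneg_left hD (sq_nonneg _)).trans h9

end Vale.Agent.P226
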