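import Vale.Agent.P226.Gauss1

/-! The one-dimensional core of the Ehrhard inequality. -/

open MeasureTheory ProbabilityTheory Set Filter Topology Real

namespace Vale.Agent.P226

lemma mills_lower {u v : ℝ} (hu : 0 < u) (huv : u ≤ v) : phi v / v ≤ (1 + 1 / u ^ 2) * Q v := by
  have hv : 0 < v := hu.trans_le huv
  have := le_of_deriv_nonpos_tendsto (F := fun x => (1 + 1 / u ^ 2) * Q x - phi x / x)
    (F' := fun x => (1 + 1 / u ^ 2) * (-phi x) - (-(x * phi x) * x - phi x * 1) / x ^ 2)
    (a := v) (L := 0)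
    (fun x hx => ((hasDerivAt_Q x).const_mul _).sub
      ((hasDerivAt_phi x).fun_div (hasDerivAt_id' x) (by linarith)))
    (fun x hx => by
      have hx0 : 0 < x := hv.trans_le hx
      have h1 : 1 / x ^ 2 ≤ 1 / u ^ 2 := by
        apply one_div_le_one_div_of_le (by positivity)
        exact pow_le_pow_left₀ hu.le (huv.trans hx) 2
      have h2 : (-(x * phi x) * x - phi x * 1) / x ^ 2 = -((1 + 1 / x ^ 2) * phi x) := by
        field_simp; ring
      rw [h2]
      nlinarith [phi_pos x])
    (by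
      have h1 := tendsto_Q_atTop.const_mul (1 + 1 / u ^ 2)
      have h2 := tendsto_phi.div_atTop tendsto_id
      simpa using h1.sub h2)
  linarith

lemma R_superadd_aux {u v g : ℝ} (hg : 0 < g) (huv : u ≤ v) (h : Q u + Q v = Q g) :
    phi u / u + phi v / v ≤ phi g / g := by
  have hgu : g < u := by
    have : Q u < Q g := by linarith [Q_pos v]
    exact strictAnti_Q.lt_iff_gt.1 this
  have hu : 0 < u := hg.trans hgu
  have h1 := le_of_deriv_nonpos (F := fun x => phi x / x - (1 + 1 / u ^ 2) * Q x)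
    (F' := fun x => (-(x * phi x) * x - phi x * 1) / x ^ 2 - (1 + 1 / u ^ 2) * (-phi x)) hgu.le
    (fun x hx _ => ((hasDerivAt_phi x).fun_div (hasDerivAt_id' x) (by linarith)).sub
      ((hasDerivAt_Q x).const_mul _))
    (fun x hx hxu => by
      have hx0 : 0 < x := hg.trans_le hx
      have h1 : 1 / u ^ 2 ≤ 1 / x ^ 2 := by
        apply one_div_le_one_div_of_le (by positivity)
        exact pow_le_pow_left₀ hx0.le hxu 2
      have h2 : (-(x * phi x) * x - phi x * 1) / x ^ 2 = -((1 + 1 / x ^ 2) * phi x) := by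
        field_simp; ring
      rw [h2]
      nlinarith [phi_pos x])
  have h2 := mills_lower hu huv
  have h3 : Q g = Q u + Q v := h.symm
  rw [h3] at h1
  nlinarith

lemma R_superadd {u v g : ℝ} (hg : 0 < g) (h : Q u + Q v = Q g) :
    phi u / u + phi v / v ≤ phi g / g := by
  rcases le_total u v with huv | huv
  · exact R_superadd_aux hg huv h
  · have := R_superadd_aux hg huv (by linarith : Q v + Q u = Q g)
    linarith

lemma phi_subadd_aux {u v g : ℝ} (huv : u ≤ v) (h : Q u + Q v = Q g) :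
    phi g ≤ phi u + phi v := by
  have hgu : g < u := by
    have : Q u < Q g := by linarith [Q_pos v]
    exact strictAnti_Q.lt_iff_gt.1 this
  have h1 := le_of_deriv_nonneg (F := fun x => phi x - u * Q x)
    (F' := fun x => -(x * phi x) - u * (-phi x)) hgu.le
    (fun x _ _ => (hasDerivAt_phi x).sub ((hasDerivAt_Q x).const_mul u))
    (fun x _ hx => by nlinarith [phi_pos x])
  have h2 := mul_Q_le_phi v
  have h3 : Q g = Q u + Q v := h.symm
  rw [h3] at h1
  nlinarith [Q_pos v]

lemma phi_subadd {u v g : ℝ} (h : Q u + Q v = Q g) : phi g ≤ phi u + phi v := by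
  rcases le_total u v with huv | huv
  · exact phi_subadd_aux huv h
  · have := phi_subadd_aux huv (by linarith : Q v + Q u = Q g)
    linarith

lemma cs_aux {r1 r2 r3 x y : ℝ} (h1 : 0 < r1) (h2 : 0 < r2) (h : r1 + r2 ≤ r3) :
    (x + y) ^ 2 / r3 ≤ x ^ 2 / r1 + y ^ 2 / r2 := by
  have h3 : (x + y) ^ 2 / r3 ≤ (x + y) ^ 2 / (r1 + r2) :=
    div_le_div_of_nonneg_left (sq_nonneg _) (by linarith) h
  refine h3.trans ?_
  rw [div_add_div _ _ h1.ne' h2.ne', div_le_div_iff₀ (by linarith) (by positivity)]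
  nlinarith [mul_nonneg (mul_pos h1 h2).le (sq_nonneg (x * r2 - y * r1)),
    sq_nonneg (x * r2 - y * r1)]

lemma local_ineq_aux {u v g a b : ℝ} (huv : u ≤ v) (h : Q u + Q v = Q g) :
    g * (phi u * a + phi v * b) ^ 2 / phi g ≤ u * phi u * a ^ 2 + v * phi v * b ^ 2 := by
  have hgu : g < u := by
    have : Q u < Q g := by linarith [Q_pos v]
    exact strictAnti_Q.lt_iff_gt.1 this
  have pu := phi_pos u
  have pv := phi_pos v
  have pg := phi_pos g
  rcases lt_or_ge 0 g with hg | hg
  · have hu : 0 < u := hg.trans hgu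
    have hv : 0 < v := hu.trans_le huv
    have h1 := cs_aux (x := phi u * a) (y := phi v * b) (div_pos pu hu) (div_pos pv hv)
      (R_superadd hg h)
    have e1 : g * (phi u * a + phi v * b) ^ 2 / phi g =
        (phi u * a + phi v * b) ^ 2 / (phi g / g) := by field_simp
    have e2 : (phi u * a) ^ 2 / (phi u / u) = u * phi u * a ^ 2 := by field_simp
    have e3 : (phi v * b) ^ 2 / (phi v / v) = v * phi v * b ^ 2 := by field_simp
    rw [e1, ← e2, ← e3]; exact h1
  rcases le_or_gt 0 u with hu | hu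
  · have hv : 0 ≤ v := hu.trans huv
    have h1 : g * (phi u * a + phi v * b) ^ 2 / phi g ≤ 0 :=
      div_nonpos_of_nonpos_of_nonneg (mul_nonpos_of_nonpos_of_nonneg hg (sq_nonneg _)) pg.le
    have h2 : 0 ≤ u * phi u * a ^ 2 + v * phi v * b ^ 2 := by positivity
    linarith
  · have h4 : Q v + Q (-g) = Q (-u) := by rw [Q_neg, Q_neg]; linarith
    have hv : 0 < v := by
      have : Q v < Q (-u) := by linarith [Q_pos (-g)]
      have := strictAnti_Q.lt_iff_gt.1 this
      linarith
    have hg' : 0 < -g := by linarith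
    have hu' : 0 < -u := by linarith
    have h5 := R_superadd hu' h4
    rw [phi_neg, phi_neg] at h5
    have h1 := cs_aux (x := -(phi v * b)) (y := phi u * a + phi v * b) (div_pos pv hv)
      (div_pos pg hg') h5
    have e1 : (phi u * a + phi v * b) ^ 2 / (phi g / -g) =
        -(g * (phi u * a + phi v * b) ^ 2 / phi g) := by
      have : g ≠ 0 := by linarith
      field_simp
    have e2 : (-(phi v * b) + (phi u * a + phi v * b)) ^ 2 / (phi u / -u) =
        -(u * phi u * a ^ 2) := by
      have : u ≠ 0 := by linarith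
      field_simp; ring
    have e3 : (-(phi v * b)) ^ 2 / (phi v / v) = v * phi v * b ^ 2 := by field_simp
    rw [e1, e2, e3] at h1
    linarith

lemma local_ineq {u v g a b : ℝ} (h : Q u + Q v = Q g) :
    g * (phi u * a + phi v * b) ^ 2 / phi g ≤ u * phi u * a ^ 2 + v * phi v * b ^ 2 := by
  rcases le_total u v with huv | huv
  · exact local_ineq_aux huv h
  · have := local_ineq_aux (a := b) (b := a) huv (by linarith : Q v + Q u = Q g)
    rw [add_comm (phi u * a)]
    linarith

lemma Q_add_lt_one {u v : ℝ} : Q u + Q v < 1 ↔ 0 < u + v := by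
  have : Q u + Q v < 1 ↔ Q u < Q (-v) := by rw [Q_neg]; constructor <;> intro h <;> linarith
  rw [this, strictAnti_Q.lt_iff_gt]
  constructor <;> intro h <;> linarith

/-- the level function along a line -/
noncomputable def gline (u0 v0 du dv t : ℝ) : ℝ := Qinv (Q (u0 + t * du) + Q (v0 + t * dv))

lemma Q_gline {u0 v0 du dv t : ℝ} (h : 0 < (u0 + t * du) + (v0 + t * dv)) :
    Q (u0 + t * du) + Q (v0 + t * dv) = Q (gline u0 v0 du dv t) :=
  (Q_Qinv (add_pos (Q_pos _) (Q_pos _)) (Q_add_lt_one.2 h)).symm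

lemma hasDerivAt_lin (a d t : ℝ) : HasDerivAt (fun t => a + t * d) d t := by
  simpa using ((hasDerivAt_id' t).mul_const d).const_add a

lemma hasDerivAt_gline {u0 v0 du dv t : ℝ} (h : 0 < (u0 + t * du) + (v0 + t * dv)) :
    HasDerivAt (gline u0 v0 du dv)
      ((phi (u0 + t * du) * du + phi (v0 + t * dv) * dv) / phi (gline u0 v0 du dv t)) t := by
  have h1 := ((hasDerivAt_Q (u0 + t * du)).comp t (hasDerivAt_lin u0 du t)).fun_add
    ((hasDerivAt_Q (v0 + t * dv)).comp t (hasDerivAt_lin v0 dv t))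
  have h2 := (hasDerivAt_Qinv (add_pos (Q_pos _) (Q_pos _)) (Q_add_lt_one.2 h)).comp t h1
  refine h2.congr_deriv ?_
  have := (phi_pos (gline u0 v0 du dv t)).ne'
  unfold gline at this ⊢
  field_simp
  ring

lemma lt_gline_iff {u0 v0 du dv t w : ℝ} (h : 0 < (u0 + t * du) + (v0 + t * dv)) :
    Q (u0 + t * du) + Q (v0 + t * dv) + Q w < 1 ↔ -w < gline u0 v0 du dv t := by
  rw [Q_gline h, Q_add_lt_one]
  constructor <;> intro h <;> linarith

lemma concaveOn_gline {u0 v0 du dv : ℝ} (h0 : 0 < u0 + v0) (h1 : 0 < (u0 + du) + (v0 + dv)) :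
    ConcaveOn ℝ (Icc 0 1) (gline u0 v0 du dv) := by
  have hpos : ∀ t ∈ Icc (0:ℝ) 1, 0 < (u0 + t * du) + (v0 + t * dv) := by
    intro t ht
    rcases le_total 0 (du + dv) with h | h
    · nlinarith [ht.1]
    · nlinarith [ht.2]
  refine concaveOn_of_hasDerivWithinAt2_nonpos (convex_Icc 0 1)
    (f' := fun t => (phi (u0 + t * du) * du + phi (v0 + t * dv) * dv) / phi (gline u0 v0 du dv t))
    (f'' := fun t => (gline u0 v0 du dv t *
      (phi (u0 + t * du) * du + phi (v0 + t * dv) * dv) ^ 2 / phi (gline u0 v0 du dv t) -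
      ((u0 + t * du) * phi (u0 + t * du) * du ^ 2 + (v0 + t * dv) * phi (v0 + t * dv) * dv ^ 2)) /
        phi (gline u0 v0 du dv t))
    (fun t ht => (hasDerivAt_gline (hpos t ht)).continuousAt.continuousWithinAt)
    (fun t ht => (hasDerivAt_gline (hpos t (interior_subset ht))).hasDerivWithinAt) ?_ ?_
  · intro t ht
    have ht' := hpos t (interior_subset ht)
    have hN := (((hasDerivAt_phi (u0 + t * du)).comp t (hasDerivAt_lin u0 du t)).mul_const du).fun_add
      (((hasDerivAt_phi (v0 + t * dv)).comp t (hasDerivAt_lin v0 dv t)).mul_const dv)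
    have hD := (hasDerivAt_phi (gline u0 v0 du dv t)).comp t (hasDerivAt_gline ht')
    have hne := (phi_pos (gline u0 v0 du dv t)).ne'
    have := hN.fun_div hD hne
    refine (this.congr_deriv ?_).hasDerivWithinAt
    simp only [Function.comp]
    field_simp
    ring
  · intro t ht
    have ht' := hpos t (interior_subset ht)
    refine div_nonpos_of_nonpos_of_nonneg ?_ (phi_pos _).le
    have := local_ineq (a := du) (b := dv) (Q_gline ht')
    linarith

/-- convexity of the region where the three tails sum to less than one -/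
lemma conv3 {u0 v0 w0 u1 v1 w1 l m : ℝ} (hl : 0 ≤ l) (hm : 0 ≤ m) (hlm : l + m = 1)
    (h0 : Q u0 + Q v0 + Q w0 < 1) (h1 : Q u1 + Q v1 + Q w1 < 1) :
    Q (l * u0 + m * u1) + Q (l * v0 + m * v1) + Q (l * w0 + m * w1) < 1 := by
  have p0 : 0 < u0 + v0 := Q_add_lt_one.1 (by linarith [Q_pos w0])
  have p1 : 0 < u1 + v1 := Q_add_lt_one.1 (by linarith [Q_pos w1])
  have hc := concaveOn_gline (u0 := u0) (v0 := v0) (du := u1 - u0) (dv := v1 - v0) p0 (by linarith)
  have a0 : -w0 < gline u0 v0 (u1 - u0) (v1 - v0) 0 := by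
    rw [← lt_gline_iff (by linarith)]; simpa using h0
  have a1 : -w1 < gline u0 v0 (u1 - u0) (v1 - v0) 1 := by
    rw [← lt_gline_iff (by linarith)]; simpa using h1
  have h2 := hc.2 (left_mem_Icc.2 zero_le_one) (right_mem_Icc.2 zero_le_one) hl hm hlm
  simp only [smul_eq_mul, mul_zero, mul_one, zero_add] at h2
  have hl' : l = 1 - m := by linarith
  have e1 : l * u0 + m * u1 = u0 + m * (u1 - u0) := by rw [hl']; ring
  have e2 : l * v0 + m * v1 = v0 + m * (v1 - v0) := by rw [hl']; ring
  have p2 : 0 < (u0 + m * (u1 - u0)) + (v0 + m * (v1 - v0)) := by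
    rw [← e1, ← e2]
    rcases eq_or_lt_of_le hl with h | h
    · have : m = 1 := by linarith
      rw [← h, this]; linarith
    · nlinarith [mul_pos h p0, mul_nonneg hm p1.le]
  rw [e1, e2, lt_gline_iff p2]
  rcases eq_or_lt_of_le hl with h | h
  · have : m = 1 := by linarith
    rw [← h, this]; linarith
  · nlinarith [mul_pos h (sub_pos.2 a0), mul_nonneg hm (sub_pos.2 a1).le]

/-- interval isoperimetry -/
lemma rec3 {u v w h : ℝ} (hh : 0 ≤ h) (h0 : Q u + Q v + Q w < 1) :
    Q (u + h) + Q (v + h) + Q (w - h) < 1 := by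
  have p0 : 0 < u + v := Q_add_lt_one.1 (by linarith [Q_pos w])
  have a0 : -w < gline u v 1 1 0 := by
    rw [← lt_gline_iff (by linarith)]; simpa using h0
  have h1 := le_of_deriv_nonneg (F := fun t => gline u v 1 1 t - t)
    (F' := fun t => (phi (u + t * 1) * 1 + phi (v + t * 1) * 1) / phi (gline u v 1 1 t) - 1) hh
    (fun t ht _ => (hasDerivAt_gline (by linarith)).sub (hasDerivAt_id' t))
    (fun t ht _ => by
      have := phi_subadd (Q_gline (u0 := u) (v0 := v) (du := 1) (dv := 1) (t := t) (by linarith))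
      rw [sub_nonneg, le_div_iff₀ (phi_pos _)]
      linarith)
  have := (lt_gline_iff (u0 := u) (v0 := v) (du := 1) (dv := 1) (t := h) (w := w - h)
    (by linarith)).2 (by linarith)
  simpa using this

end Vale.Agent.P226
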