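import Vale.Agent.P226.Ehr1

/-! The Ehrhard inequality for open convex sets, by Gaussian symmetrization. -/

open MeasureTheory ProbabilityTheory Set Filter Topology Real

set_option linter.unusedSectionVars false

namespace Vale.Agent.P226

section general

variable {X : Type*} [NormedAddCommGroup X] [NormedSpace ℝ X]

def Rel (l m : ℝ) (A0 A1 A : Set X) : Prop := ∀ x ∈ A0, ∀ y ∈ A1, l • x + m • y ∈ A

def OC (A : Set X) : Prop := IsOpen A ∧ Convex ℝ A

variable [MeasurableSpace X]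

def Ehr (μ : Measure X) : Prop :=
  ∀ (l m : ℝ) (A0 A1 A : Set X), 0 ≤ l → 0 ≤ m → l + m = 1 → OC A0 → OC A1 → OC A →
    Rel l m A0 A1 A → ∀ s0 s1, Q s0 < μ.real A0 → Q s1 < μ.real A1 →
      Q (l * s0 + m * s1) < μ.real A

def Symz (μ : Measure X) (A : Set (ℝ × X)) : Set (ℝ × ℝ) :=
  {p | Q p.2 < μ.real (Prod.mk p.1 ⁻¹' A)}

omit [MeasurableSpace X] in
lemma OC.fiber {A : Set (ℝ × X)} (h : OC A) (x : ℝ) : OC (Prod.mk x ⁻¹' A) := by
  refine ⟨h.1.preimage (by fun_prop), fun y hy z hz a b ha hb hab => ?_⟩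
  have := h.2 hy hz ha hb hab
  simp only [mem_preimage, Prod.smul_mk, Prod.mk_add_mk, smul_eq_mul] at this ⊢
  rwa [← add_mul, hab, one_mul] at this

lemma Ehr.rel_symz {μ : Measure X} (hμ : Ehr μ) {l m : ℝ} {A0 A1 A : Set (ℝ × X)} (hl : 0 ≤ l)
    (hm : 0 ≤ m) (hlm : l + m = 1) (h0 : OC A0) (h1 : OC A1) (h : OC A) (hr : Rel l m A0 A1 A) :
    Rel l m (Symz μ A0) (Symz μ A1) (Symz μ A) := by
  intro p hp q hq
  refine hμ l m _ _ _ hl hm hlm (h0.fiber p.1) (h1.fiber q.1) (h.fiber _) ?_ _ _ hp hq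
  intro x hx y hy
  exact hr _ hx _ hy

variable [BorelSpace X] [ProperSpace X]

lemma isOpen_symz (μ : Measure X) [IsProbabilityMeasure μ] {A : Set (ℝ × X)} (h : IsOpen A) :
    IsOpen (Symz μ A) := by
  rw [isOpen_iff_mem_nhds]
  intro p hp
  have h1 : ENNReal.ofReal (Q p.2) < μ (Prod.mk p.1 ⁻¹' A) :=
    (ENNReal.ofReal_lt_iff_lt_toReal (Q_nonneg _) (measure_ne_top _ _)).2 hp
  obtain ⟨K, hKA, hK, hμK⟩ := (h.preimage (by fun_prop : Continuous (Prod.mk p.1))).exists_lt_isCompact h1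
  have h2 : Q p.2 < μ.real K :=
    (ENNReal.ofReal_lt_iff_lt_toReal (Q_nonneg _) (measure_ne_top _ _)).1 hμK
  have h3 : ∀ᶠ x in 𝓝 p.1, ∀ y ∈ K, (x, y) ∈ A := by
    refine hK.eventually_forall_of_forall_eventually fun y hy => ?_
    exact h.mem_nhds (hKA hy)
  have h4 : ∀ᶠ q : ℝ × ℝ in 𝓝 p, ∀ y ∈ K, (q.1, y) ∈ A := continuous_fst.continuousAt.eventually h3
  have h5 : ∀ᶠ q : ℝ × ℝ in 𝓝 p, Q q.2 < μ.real K :=
    (continuous_Q.comp continuous_snd).continuousAt.eventually (gt_mem_nhds h2)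
  filter_upwards [h4, h5] with q hq4 hq5
  exact hq5.trans_le (measureReal_mono (fun y hy => hq4 y hy))

lemma Ehr.oc_symz {μ : Measure X} [IsProbabilityMeasure μ] (hμ : Ehr μ) {A : Set (ℝ × X)}
    (h : OC A) : OC (Symz μ A) := by
  refine ⟨isOpen_symz μ h.1, fun p hp q hq a b ha hb hab => ?_⟩
  exact hμ.rel_symz ha hb hab h h h (fun x hx y hy => h.2 hx hy ha hb hab) p hp q hq

lemma gam_Q_lt {q : ℝ} (h0 : 0 ≤ q) (h1 : q ≤ 1) : gam {s | Q s < q} = ENNReal.ofReal q := by
  rcases eq_or_lt_of_le h0 with h | h0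
  · have : {s | Q s < q} = ∅ := by
      ext s; simp [← h, Q_nonneg]
    rw [this, ← h]; simp
  rcases eq_or_lt_of_le h1 with h | h1
  · have : {s | Q s < q} = univ := by
      ext s; simp [h, Q_lt_one]
    rw [this, h]; simp
  have : {s | Q s < q} = Ioi (Qinv q) := by
    ext s
    have := strictAnti_Q.lt_iff_gt (a := s) (b := Qinv q)
    rw [Q_Qinv h0 h1] at this
    exact this
  rw [this, ← ofReal_measureReal, gam_Ioi, Q_Qinv h0 h1]

lemma measure_symz (μ : Measure X) [IsProbabilityMeasure μ] {A : Set (ℝ × X)} (h : IsOpen A) :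
    (gam.prod gam).real (Symz μ A) = (gam.prod μ).real A := by
  rw [Measure.real, Measure.real, Measure.prod_apply (isOpen_symz μ h).measurableSet,
    Measure.prod_apply h.measurableSet]
  congr 2
  funext x
  have := gam_Q_lt (q := μ.real (Prod.mk x ⁻¹' A)) measureReal_nonneg measureReal_le_one
  rw [ofReal_measureReal] at this
  exact this

omit [ProperSpace X] in
lemma Ehr.of_map {Y : Type*} [NormedAddCommGroup Y] [NormedSpace ℝ Y] [MeasurableSpace Y]
    [BorelSpace Y] {μ : Measure X} {ν : Measure Y} (hμ : Ehr μ) (f : X → Y) (hc : Continuous f)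
    (hlin : ∀ (a b : ℝ) (x y : X), f (a • x + b • y) = a • f x + b • f y)
    (hf : MeasurePreserving f μ ν) : Ehr ν := by
  have hoc : ∀ A : Set Y, OC A → OC (f ⁻¹' A) := by
    intro A hA
    refine ⟨hA.1.preimage hc, fun x hx y hy a b ha hb hab => ?_⟩
    rw [mem_preimage, hlin]
    exact hA.2 hx hy ha hb hab
  intro l m A0 A1 A hl hm hlm h0 h1 h hr s0 s1 hs0 hs1
  rw [← hf.measureReal_preimage h0.1.measurableSet.nullMeasurableSet] at hs0
  rw [← hf.measureReal_preimage h1.1.measurableSet.nullMeasurableSet] at hs1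
  rw [← hf.measureReal_preimage h.1.measurableSet.nullMeasurableSet]
  refine hμ l m _ _ _ hl hm hlm (hoc _ h0) (hoc _ h1) (hoc _ h) ?_ _ _ hs0 hs1
  intro x hx y hy
  rw [mem_preimage, hlin]
  exact hr _ hx _ hy

end general

lemma gam_Icc {a b : ℝ} (hab : a ≤ b) : gam.real (Icc a b) = Q a - Q b := by
  rw [Q_sub, gam_real, intervalIntegral.integral_of_le hab, integral_Icc_eq_integral_Ioc]

lemma exists_endpoints {A : Set ℝ} (hA : IsOpen A) {s : ℝ} (hs : Q s < gam.real A) :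
    ∃ a ∈ A, ∃ b ∈ A, Q b + Q (-a) + Q s < 1 := by
  have h1 : ENNReal.ofReal (Q s) < gam A :=
    (ENNReal.ofReal_lt_iff_lt_toReal (Q_nonneg _) (measure_ne_top _ _)).2 hs
  obtain ⟨K, hKA, hK, hμK⟩ := hA.exists_lt_isCompact h1
  have h2 : Q s < gam.real K :=
    (ENNReal.ofReal_lt_iff_lt_toReal (Q_nonneg _) (measure_ne_top _ _)).1 hμK
  have hne : K.Nonempty := by
    rcases K.eq_empty_or_nonempty with h | h
    · rw [h] at h2; simp at h2; linarith [Q_pos s]
    · exact h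
  obtain ⟨a, ha⟩ := hK.exists_isLeast hne
  obtain ⟨b, hb⟩ := hK.exists_isGreatest hne
  refine ⟨a, hKA ha.1, b, hKA hb.1, ?_⟩
  have h3 : gam.real K ≤ gam.real (Icc a b) := measureReal_mono fun x hx => ⟨ha.2 hx, hb.2 hx⟩
  rw [gam_Icc (ha.2 hb.1)] at h3
  rw [Q_neg]; linarith

lemma lt_of_endpoints {A : Set ℝ} (hA : Convex ℝ A) {a b s : ℝ} (ha : a ∈ A) (hb : b ∈ A)
    (h : Q b + Q (-a) + Q s < 1) : Q s < gam.real A := by
  have hab : a ≤ b := by
    have := Q_add_lt_one.1 (by linarith [Q_pos s] : Q b + Q (-a) < 1)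
    linarith
  have h3 : gam.real (Icc a b) ≤ gam.real A :=
    measureReal_mono (hA.ordConnected.out ha hb)
  rw [gam_Icc hab] at h3
  rw [Q_neg] at h; linarith

lemma ehr_gam : Ehr gam := by
  intro l m A0 A1 A hl hm hlm h0 h1 h hr s0 s1 hs0 hs1
  obtain ⟨a0, ha0, b0, hb0, e0⟩ := exists_endpoints h0.1 hs0
  obtain ⟨a1, ha1, b1, hb1, e1⟩ := exists_endpoints h1.1 hs1
  have := conv3 hl hm hlm e0 e1
  refine lt_of_endpoints h.2 (hr _ ha0 _ ha1) (hr _ hb0 _ hb1) ?_
  simp only [smul_eq_mul]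
  rwa [show -(l * a0 + m * a1) = l * -a0 + m * -a1 by ring]

/-- invariance under translations in the direction of angle `w` -/
def Inv (A : Set (ℝ × ℝ)) (w : ℝ) : Prop :=
  ∀ p ∈ A, ∀ t : ℝ, 0 ≤ t → (p.1 + t * Real.cos w, p.2 + t * Real.sin w) ∈ A

lemma inv_symz_up (A : Set (ℝ × ℝ)) : Inv (Symz gam A) (π / 2) := by
  intro p hp t ht
  simp only [Symz, mem_ofPred_eq, Real.cos_pi_div_two, Real.sin_pi_div_two, mul_zero, add_zero,
    mul_one] at hp ⊢
  exact (antitone_Q (by linarith)).trans_lt hp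

lemma inv_symz_down {A : Set (ℝ × ℝ)} (hA : OC A) {b : ℝ} (hb : 0 ≤ Real.sin b) (h1 : Inv A b)
    (h2 : Inv A (-b)) : Inv (Symz gam A) (-b) := by
  intro p hp t ht
  obtain ⟨a0, ha0, b0, hb0, e0⟩ := exists_endpoints (hA.fiber p.1).1 hp
  have e1 := rec3 (mul_nonneg ht hb) e0
  have k1 := h1 _ hb0 t ht
  have k2 := h2 _ ha0 t ht
  simp only [Symz, mem_ofPred_eq]
  refine lt_of_endpoints (a := a0 + t * Real.sin (-b)) (b := b0 + t * Real.sin b)
    (hA.fiber _).2 k2 (by rw [Real.cos_neg]; exact k1) ?_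
  rw [Real.sin_neg, show -(a0 + t * -Real.sin b) = -a0 + t * Real.sin b by ring,
    show p.2 + t * -Real.sin b = p.2 - t * Real.sin b by ring]
  exact e1

/-- rotation of the plane -/
noncomputable def rot (a : ℝ) : ℝ × ℝ →L[ℝ] ℝ × ℝ := ContinuousLinearMap.rotation a

lemma rot_apply (a : ℝ) (p : ℝ × ℝ) : rot a p =
    (Real.cos a * p.1 + Real.sin a * p.2, -Real.sin a * p.1 + Real.cos a * p.2) := by
  simp [rot, ContinuousLinearMap.rotation_apply]

lemma measurePreserving_rot (a : ℝ) : MeasurePreserving (rot a) (gam.prod gam) (gam.prod gam) :=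
  ⟨(rot a).continuous.measurable, IsGaussian.map_rotation_eq_self (by simp) a⟩

lemma Inv.rot {A : Set (ℝ × ℝ)} {w : ℝ} (h : Inv A w) (a : ℝ) : Inv (rot a ⁻¹' A) (w + a) := by
  intro p hp t ht
  have := h _ hp t ht
  rw [mem_preimage, rot_apply]
  simp only [rot_apply] at this
  convert this using 2
  · rw [Real.cos_add, Real.sin_add]
    have := Real.cos_sq_add_sin_sq a
    linear_combination (t * Real.cos w) * this
  · rw [Real.cos_add, Real.sin_add]
    have := Real.cos_sq_add_sin_sq a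
    linear_combination (t * Real.sin w) * this

lemma OC.rot {A : Set (ℝ × ℝ)} (h : OC A) (a : ℝ) : OC (rot a ⁻¹' A) :=
  ⟨h.1.preimage (P226.rot a).continuous, h.2.linear_preimage (P226.rot a).toLinearMap⟩

lemma Rel.rot {l m : ℝ} {A0 A1 A : Set (ℝ × ℝ)} (h : Rel l m A0 A1 A) (a : ℝ) :
    Rel l m (rot a ⁻¹' A0) (rot a ⁻¹' A1) (rot a ⁻¹' A) := by
  intro x hx y hy
  rw [mem_preimage, map_add, map_smul, map_smul]
  exact h _ hx _ hy

/-- one symmetrization step followed by a rotation -/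
noncomputable def step (a : ℝ) (A : Set (ℝ × ℝ)) : Set (ℝ × ℝ) := rot a ⁻¹' Symz gam A

lemma OC.step {A : Set (ℝ × ℝ)} (h : OC A) (a : ℝ) : OC (step a A) := (ehr_gam.oc_symz h).rot a

lemma measure_step {A : Set (ℝ × ℝ)} (h : OC A) (a : ℝ) :
    (gam.prod gam).real (step a A) = (gam.prod gam).real A := by
  rw [step, (measurePreserving_rot a).measureReal_preimage
    (isOpen_symz gam h.1).measurableSet.nullMeasurableSet, measure_symz gam h.1]

/-- the angles of the iteration -/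
noncomputable def ang (n : ℕ) : ℝ := π / 2 - π / 2 * (1 / 2) ^ n

/-- the iterated symmetrization -/
noncomputable def iter (A : Set (ℝ × ℝ)) : ℕ → Set (ℝ × ℝ)
  | 0 => step (-(π / 2)) A
  | n + 1 => step (ang (n + 1) - π / 2) (iter A n)

lemma OC.iter {A : Set (ℝ × ℝ)} (h : OC A) : ∀ n, OC (iter A n)
  | 0 => h.step _
  | n + 1 => (OC.iter h n).step _

lemma measure_iter {A : Set (ℝ × ℝ)} (h : OC A) :
    ∀ n, (gam.prod gam).real (iter A n) = (gam.prod gam).real A
  | 0 => measure_step h _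
  | n + 1 => by rw [iter, measure_step (h.iter n), measure_iter h n]

lemma rel_iter {l m : ℝ} {A0 A1 A : Set (ℝ × ℝ)} (hl : 0 ≤ l) (hm : 0 ≤ m) (hlm : l + m = 1)
    (h0 : OC A0) (h1 : OC A1) (h : OC A) (hr : Rel l m A0 A1 A) :
    ∀ n, Rel l m (iter A0 n) (iter A1 n) (iter A n)
  | 0 => (ehr_gam.rel_symz hl hm hlm h0 h1 h hr).rot _
  | n + 1 => (ehr_gam.rel_symz hl hm hlm (h0.iter n) (h1.iter n) (h.iter n)
      (rel_iter hl hm hlm h0 h1 h hr n)).rot _

lemma ang_nonneg (n : ℕ) : 0 ≤ ang n := by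
  have : (1 / 2 : ℝ) ^ n ≤ 1 := pow_le_one₀ (by norm_num) (by norm_num)
  unfold ang; nlinarith [Real.pi_pos]

lemma ang_lt (n : ℕ) : ang n < π / 2 := by
  have : 0 < (1 / 2 : ℝ) ^ n := by positivity
  unfold ang; nlinarith [Real.pi_pos]

lemma inv_iter {A : Set (ℝ × ℝ)} (h : OC A) : ∀ n, Inv (iter A n) (ang n) ∧ Inv (iter A n) (-ang n)
  | 0 => by
    have := (inv_symz_up A).rot (-(π / 2))
    have e : ang 0 = 0 := by simp [ang]
    rw [add_neg_cancel] at this
    rw [e, neg_zero]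
    exact ⟨this, this⟩
  | n + 1 => by
    obtain ⟨h1, h2⟩ := inv_iter h n
    have hs : 0 ≤ Real.sin (ang n) :=
      Real.sin_nonneg_of_nonneg_of_le_pi (ang_nonneg n) (by linarith [ang_lt n, Real.pi_pos])
    have k1 := (inv_symz_up (iter A n)).rot (ang (n + 1) - π / 2)
    have k2 := (inv_symz_down (h.iter n) hs h1 h2).rot (ang (n + 1) - π / 2)
    have e1 : π / 2 + (ang (n + 1) - π / 2) = ang (n + 1) := by ring
    have e2 : -ang n + (ang (n + 1) - π / 2) = -ang (n + 1) := by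
      unfold ang; rw [pow_succ]; ring
    rw [e1] at k1
    rw [e2] at k2
    exact ⟨k1, k2⟩

lemma cone_mem {A : Set (ℝ × ℝ)} {b : ℝ} (hc : 0 < Real.cos b) (hs : 0 < Real.sin b)
    (h1 : Inv A b) (h2 : Inv A (-b)) {p q : ℝ × ℝ} (hp : p ∈ A)
    (hq : |q.2 - p.2| * Real.cos b ≤ (q.1 - p.1) * Real.sin b) : q ∈ A := by
  have k1 : (q.2 - p.2) * Real.cos b ≤ (q.1 - p.1) * Real.sin b :=
    (mul_le_mul_of_nonneg_right (le_abs_self _) hc.le).trans hq
  have k2 : -(q.2 - p.2) * Real.cos b ≤ (q.1 - p.1) * Real.sin b :=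
    (mul_le_mul_of_nonneg_right (neg_le_abs _) hc.le).trans hq
  have t1 : 0 ≤ ((q.1 - p.1) * Real.sin b + (q.2 - p.2) * Real.cos b) /
      (2 * Real.cos b * Real.sin b) := div_nonneg (by linarith) (by positivity)
  have t2 : 0 ≤ ((q.1 - p.1) * Real.sin b - (q.2 - p.2) * Real.cos b) /
      (2 * Real.cos b * Real.sin b) := div_nonneg (by linarith) (by positivity)
  have := h2 _ (h1 _ hp _ t1) _ t2
  convert this using 1
  rw [Real.cos_neg, Real.sin_neg]
  ext
  · simp only; field_simp; ring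
  · simp only; field_simp; ring

lemma exists_cone {g : ℝ × ℝ → ℝ} {q : ℝ}
    (hq : q < (gam.prod gam).real {p | 0 < g p}) :
    ∀ᶠ n in atTop, q < (gam.prod gam).real
      {p | |p.2| * Real.cos (ang n) ≤ g p * Real.sin (ang n)} := by
  have hang : Tendsto ang atTop (𝓝 (π / 2)) := by
    have := ((tendsto_pow_atTop_nhds_zero_of_lt_one (r := (1 / 2 : ℝ)) (by norm_num)
      (by norm_num)).const_mul (π / 2)).const_sub (π / 2)
    rw [mul_zero, sub_zero] at this
    exact this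
  have hcos : Tendsto (fun n => Real.cos (ang n)) atTop (𝓝 0) := by
    have := (Real.continuous_cos.tendsto _).comp hang
    rw [Real.cos_pi_div_two] at this
    exact this
  have hsin : Tendsto (fun n => Real.sin (ang n)) atTop (𝓝 1) := by
    have := (Real.continuous_sin.tendsto _).comp hang
    rw [Real.sin_pi_div_two] at this
    exact this
  set S : ℕ → Set (ℝ × ℝ) := fun N =>
    {p | ∀ n, N ≤ n → |p.2| * Real.cos (ang n) ≤ g p * Real.sin (ang n)} with hS
  have hmono : Monotone S := fun N M hNM p hp n hn => hp n (hNM.trans hn)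
  have hsub : {p | 0 < g p} ⊆ ⋃ N, S N := by
    intro p hp
    have h1 := (hcos.const_mul |p.2|).eventually_lt (hsin.const_mul (g p)) (by simpa using hp)
    obtain ⟨N, hN⟩ := eventually_atTop.1 h1
    exact mem_iUnion.2 ⟨N, fun n hn => (hN n hn).le⟩
  have hlim := tendsto_measure_iUnion_atTop (μ := gam.prod gam) hmono
  have hlim' := (ENNReal.tendsto_toReal (measure_ne_top _ _)).comp hlim
  have hq' : q < ((gam.prod gam) (⋃ N, S N)).toReal := hq.trans_le (measureReal_mono hsub)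
  filter_upwards [hlim'.eventually (lt_mem_nhds hq')] with N hN
  exact hN.trans_le (measureReal_mono (fun p hp => hp N le_rfl))

lemma gam2_fst (S : Set ℝ) : (gam.prod gam).real (S ×ˢ (univ : Set ℝ)) = gam.real S := by
  rw [measureReal_prod_prod]; simp

lemma ehr_gam2 : Ehr (gam.prod gam) := by
  intro l m A0 A1 A hl hm hlm h0 h1 h hr s0 s1 hs0 hs1
  have key : ∀ (B : Set (ℝ × ℝ)) (s : ℝ), OC B → Q s < (gam.prod gam).real B →
      ∃ r < s, ∀ᶠ n in atTop, ((r, 0) : ℝ × ℝ) ∈ iter B n := by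
    intro B s hB hs
    obtain ⟨r, hr1, hr2⟩ : ∃ r < s, Q r < (gam.prod gam).real B := by
      have h1 : ∀ᶠ r in 𝓝 s, Q r < (gam.prod gam).real B :=
        continuous_Q.continuousAt.eventually (gt_mem_nhds hs)
      obtain ⟨r, h2, h3⟩ := ((h1.filter_mono nhdsWithin_le_nhds).and
        (self_mem_nhdsWithin (s := Iio s) (a := s))).exists
      exact ⟨r, h3, h2⟩
    refine ⟨r, hr1, ?_⟩
    have e : {p : ℝ × ℝ | 0 < r - p.1} = Iio r ×ˢ univ := by ext p; simp
    have h2 := exists_cone (g := fun p => r - p.1) (q := 1 - (gam.prod gam).real B)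
      (by rw [e, gam2_fst, gam_Iio]; linarith)
    filter_upwards [h2, eventually_ge_atTop 1] with n hn hn1
    by_contra hcon
    have hpos : 0 < ang n := by
      have : (1 / 2 : ℝ) ^ n < 1 := pow_lt_one₀ (by norm_num) (by norm_num) (by omega)
      unfold ang; nlinarith [Real.pi_pos]
    have hc : 0 < Real.cos (ang n) :=
      Real.cos_pos_of_mem_Ioo ⟨by linarith [Real.pi_pos], ang_lt n⟩
    have hs : 0 < Real.sin (ang n) :=
      Real.sin_pos_of_pos_of_lt_pi hpos (by linarith [ang_lt n, Real.pi_pos])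
    have hsub : {p : ℝ × ℝ | |p.2| * Real.cos (ang n) ≤ (r - p.1) * Real.sin (ang n)} ⊆
        (iter B n)ᶜ := by
      intro p hp hpB
      exact hcon (cone_mem hc hs (inv_iter hB n).1 (inv_iter hB n).2 hpB (by simpa using hp))
    have h3 := measureReal_mono (μ := gam.prod gam) hsub
    rw [probReal_compl_eq_one_sub (hB.iter n).1.measurableSet, measure_iter hB] at h3
    linarith
  obtain ⟨r0, hr0, e0⟩ := key A0 s0 h0 hs0
  obtain ⟨r1, hr1, e1⟩ := key A1 s1 h1 hs1
  have hlt : l * r0 + m * r1 < l * s0 + m * s1 := by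
    rcases eq_or_lt_of_le hl with hl' | hl'
    · have : m = 1 := by linarith
      rw [← hl', this]; linarith
    · nlinarith [mul_pos hl' (sub_pos.2 hr0), mul_nonneg hm (sub_pos.2 hr1).le]
  have e : {p : ℝ × ℝ | 0 < p.1 - (l * r0 + m * r1)} = Ioi (l * r0 + m * r1) ×ˢ univ := by
    ext p; simp
  have h2 := exists_cone (g := fun p => p.1 - (l * r0 + m * r1)) (q := Q (l * s0 + m * s1))
    (by rw [e, gam2_fst, gam_Ioi]; exact strictAnti_Q hlt)
  obtain ⟨n, ⟨⟨hn0, hn1⟩, hn2⟩, hn3⟩ := (((e0.and e1).and h2).and (eventually_ge_atTop 1)).exists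
  have hpos : 0 < ang n := by
    have : (1 / 2 : ℝ) ^ n < 1 := pow_lt_one₀ (by norm_num) (by norm_num) (by omega)
    unfold ang; nlinarith [Real.pi_pos]
  have hc : 0 < Real.cos (ang n) :=
    Real.cos_pos_of_mem_Ioo ⟨by linarith [Real.pi_pos], ang_lt n⟩
  have hs : 0 < Real.sin (ang n) :=
    Real.sin_pos_of_pos_of_lt_pi hpos (by linarith [ang_lt n, Real.pi_pos])
  have hmem := rel_iter hl hm hlm h0 h1 h hr n _ hn0 _ hn1
  rw [← measure_iter h n]
  refine hn2.trans_le (measureReal_mono fun p hp => ?_)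
  exact cone_mem hc hs (inv_iter h n).1 (inv_iter h n).2 hmem (by simpa using hp)

lemma Ehr.prod {X : Type*} [NormedAddCommGroup X] [NormedSpace ℝ X] [MeasurableSpace X]
    [BorelSpace X] [ProperSpace X] {μ : Measure X} [IsProbabilityMeasure μ] (hμ : Ehr μ) :
    Ehr (gam.prod μ) := by
  intro l m A0 A1 A hl hm hlm h0 h1 h hr s0 s1 hs0 hs1
  rw [← measure_symz μ h0.1] at hs0
  rw [← measure_symz μ h1.1] at hs1
  rw [← measure_symz μ h.1]
  exact ehr_gam2 l m _ _ _ hl hm hlm (hμ.oc_symz h0) (hμ.oc_symz h1) (hμ.oc_symz h)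
    (hμ.rel_symz hl hm hlm h0 h1 h hr) _ _ hs0 hs1

lemma ehr_pi : ∀ n : ℕ, Ehr (Measure.pi fun _ : Fin n => gam)
  | 0 => by
    intro l m A0 A1 A hl hm hlm h0 h1 h hr s0 s1 hs0 hs1
    have ne : ∀ (B : Set (Fin 0 → ℝ)) (s : ℝ),
        Q s < (Measure.pi fun _ : Fin 0 => gam).real B → B.Nonempty := by
      intro B s hs
      rcases B.eq_empty_or_nonempty with h | h
      · rw [h] at hs; simp at hs; linarith [Q_pos s]
      · exact h
    obtain ⟨x, hx⟩ := ne _ _ hs0
    obtain ⟨y, hy⟩ := ne _ _ hs1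
    have : A = univ := eq_univ_of_forall fun z => by
      rw [Subsingleton.elim z (l • x + m • y)]; exact hr _ hx _ hy
    rw [this, probReal_univ]
    exact Q_lt_one _
  | n + 1 => by
    have hp := (measurePreserving_piFinSuccAbove (fun _ : Fin (n + 1) => gam) 0).symm
    refine (ehr_pi n).prod.of_map _ ?_ ?_ hp
    · refine continuous_pi fun i => ?_
      refine Fin.cases ?_ (fun j => ?_) i
      · simpa [MeasurableEquiv.piFinSuccAbove] using continuous_fst
      · have : Continuous fun a : ℝ × (Fin n → ℝ) => a.2 j := by fun_prop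
        simpa [MeasurableEquiv.piFinSuccAbove] using this
    · intro a b x y
      funext i
      refine Fin.cases ?_ (fun j => ?_) i <;> simp [MeasurableEquiv.piFinSuccAbove]

/-- Ehrhard inequality for open convex sets under the standard Gaussian measure. -/
theorem ehr_stdGaussian (E : Type*) [NormedAddCommGroup E] [InnerProductSpace ℝ E]
    [FiniteDimensional ℝ E] [MeasurableSpace E] [BorelSpace E] : Ehr (stdGaussian E) := by
  refine (ehr_pi (Module.finrank ℝ E)).of_map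
    (fun x => ∑ i, x i • stdOrthonormalBasis ℝ E i) (by fun_prop) ?_
    ⟨by fun_prop, rfl⟩
  intro a b x y
  simp [Finset.smul_sum, add_smul, mul_smul, Finset.sum_add_distrib]

end Vale.Agent.P226
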