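import Vale.Agent.P226.Resample

/-! The expected maximum of finitely many linear forms. -/

open MeasureTheory ProbabilityTheory Set Filter Topology Real
open scoped RealInnerProductSpace ENNReal

set_option linter.unusedSectionVars false

namespace Vale.Agent.P226

variable {E : Type*} [NormedAddCommGroup E] [InnerProductSpace ℝ E] [FiniteDimensional ℝ E]
  [MeasurableSpace E] [BorelSpace E] {ι : Type*} [DecidableEq ι]

/-- the maximum of the linear forms indexed by `S` -/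
noncomputable def Mx (S : Finset ι) (v : ι → E) (x : E) : ℝ := ⨆ i : S, ⟪v i, x⟫

/-- the expected maximum -/
noncomputable def ff (S : Finset ι) (v : ι → E) : ℝ := ∫ x, Mx S v x ∂(stdGaussian E)

/-- the propeller constant -/
noncomputable def cc : ℝ := 3 / (2 * √(2 * π))

lemma cc_pos : 0 < cc := by unfold cc; have := sqrt_two_pi_pos; positivity

lemma cc_sq : cc ^ 2 = 9 / (8 * π) := by
  unfold cc
  rw [div_pow, mul_pow, Real.sq_sqrt (by positivity)]
  ring

lemma le_Mx {S : Finset ι} (v : ι → E) (x : E) {i : ι} (hi : i ∈ S) : ⟪v i, x⟫ ≤ Mx S v x :=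
  le_ciSup (f := fun i : S => ⟪v i, x⟫) (Finite.bddAbove_range _) ⟨i, hi⟩

lemma exists_Mx {S : Finset ι} (hS : S.Nonempty) (v : ι → E) (x : E) :
    ∃ i ∈ S, Mx S v x = ⟪v i, x⟫ := by
  have : Nonempty S := hS.to_subtype
  obtain ⟨i, hi⟩ := exists_eq_ciSup_of_finite (f := fun i : S => ⟪v i, x⟫)
  exact ⟨i, i.2, hi.symm⟩

lemma Mx_le {S : Finset ι} (hS : S.Nonempty) {v : ι → E} {x : E} {a : ℝ}
    (h : ∀ i ∈ S, ⟪v i, x⟫ ≤ a) : Mx S v x ≤ a := by
  obtain ⟨i, hi, e⟩ := exists_Mx hS v x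
  rw [e]; exact h i hi

@[fun_prop]
lemma measurable_Mx (S : Finset ι) (v : ι → E) : Measurable (Mx S v) := by
  unfold Mx
  exact Measurable.iSup fun i => by fun_prop

lemma integrable_Mx {S : Finset ι} (hS : S.Nonempty) (v : ι → E) :
    Integrable (Mx S v) (stdGaussian E) := by
  have h : Integrable (fun x => ∑ i ∈ S, |⟪v i, x⟫|) (stdGaussian E) :=
    integrable_finsetSum _ fun i _ => (integrable_inner (v i)).abs
  refine h.mono' (measurable_Mx S v).aestronglyMeasurable (Eventually.of_forall fun x => ?_)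
  obtain ⟨i, hi, e⟩ := exists_Mx hS v x
  rw [e, Real.norm_eq_abs]
  exact Finset.single_le_sum (f := fun i => |⟪v i, x⟫|) (fun j _ => abs_nonneg _) hi

lemma integral_abs_inner (u : E) :
    ∫ x, |⟪u, x⟫| ∂(stdGaussian E) = ‖u‖ * (2 * (√(2 * π))⁻¹) := by
  rw [integral_comp_inner u (F := fun r => |r|) (by fun_prop)]
  simp_rw [abs_mul, abs_norm]
  rw [integral_const_mul, integral_abs_gam]

lemma ff_le_add {S : Finset ι} (hS : S.Nonempty) (v u : ι → E) :
    ff S v ≤ ff S u + ∑ i ∈ S, ‖v i - u i‖ * (2 * (√(2 * π))⁻¹) := by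
  have hi : ∀ i ∈ S, Integrable (fun x => |⟪v i - u i, x⟫|) (stdGaussian E) :=
    fun i _ => (integrable_inner _).abs
  simp_rw [← integral_abs_inner]
  rw [← integral_finsetSum _ hi, ff, ff, ← integral_add (integrable_Mx hS u)
    (integrable_finsetSum _ hi)]
  refine integral_mono (integrable_Mx hS v) ((integrable_Mx hS u).add
    (integrable_finsetSum _ hi)) fun x => Mx_le hS fun i hi => ?_
  have h1 := le_Mx u x hi
  have h2 : |⟪v i - u i, x⟫| ≤ ∑ i ∈ S, |⟪v i - u i, x⟫| :=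
    Finset.single_le_sum (f := fun i => |⟪v i - u i, x⟫|) (fun j _ => abs_nonneg _) hi
  have h3 := le_abs_self ⟪v i - u i, x⟫
  rw [inner_sub_left] at h3
  rw [inner_sub_left] at h2
  linarith

lemma continuous_ff {S : Finset ι} (hS : S.Nonempty) : Continuous (ff (E := E) S) := by
  rw [continuous_iff_continuousAt]
  intro u
  have h : Continuous fun v : ι → E => ∑ i ∈ S, ‖v i - u i‖ * (2 * (√(2 * π))⁻¹) := by fun_prop
  have h0 : Tendsto (fun v : ι → E => ∑ i ∈ S, ‖v i - u i‖ * (2 * (√(2 * π))⁻¹)) (𝓝 u) (𝓝 0) := by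
    have := h.tendsto u
    simpa using this
  refine tendsto_of_tendsto_of_tendsto_of_le_of_le (g := fun v => ff S u -
    ∑ i ∈ S, ‖v i - u i‖ * (2 * (√(2 * π))⁻¹)) (h := fun v => ff S u +
    ∑ i ∈ S, ‖v i - u i‖ * (2 * (√(2 * π))⁻¹)) (by simpa using h0.const_sub (ff S u))
    (by simpa using h0.const_add (ff S u)) (fun v => ?_) (fun v => ff_le_add hS v u)
  have := ff_le_add hS u v
  simp_rw [norm_sub_rev (u _)] at this
  linarith

lemma ff_congr {S : Finset ι} {v u : ι → E} (h : ∀ i ∈ S, v i = u i) : ff S v = ff S u := by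
  unfold ff Mx
  congr 1
  funext x
  congr 1
  funext i
  rw [h i i.2]

lemma Mx_shift {S : Finset ι} (hS : S.Nonempty) (v : ι → E) (u x : E) :
    Mx S (fun i => v i + u) x = Mx S v x + ⟪u, x⟫ := by
  apply le_antisymm
  · refine Mx_le hS fun i hi => ?_
    rw [inner_add_left]
    linarith [le_Mx v x hi]
  · obtain ⟨i, hi, e⟩ := exists_Mx hS v x
    rw [e, ← inner_add_left]
    exact le_Mx (fun i => v i + u) x hi

lemma ff_shift {S : Finset ι} (hS : S.Nonempty) (v : ι → E) (u : E) :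
    ff S (fun i => v i + u) = ff S v := by
  unfold ff
  simp_rw [Mx_shift hS]
  rw [integral_add (integrable_Mx hS v) (integrable_inner u), integral_inner_zero, add_zero]

lemma ff_smul {S : Finset ι} (hS : S.Nonempty) (v : ι → E) {r : ℝ} (hr : 0 ≤ r) :
    ff S (fun i => r • v i) = r * ff S v := by
  unfold ff
  rw [← integral_const_mul]
  congr 1
  funext x
  apply le_antisymm
  · refine Mx_le hS fun i hi => ?_
    rw [real_inner_smul_left]
    exact mul_le_mul_of_nonneg_left (le_Mx v x hi) hr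
  · obtain ⟨i, hi, e⟩ := exists_Mx hS v x
    rw [e, ← real_inner_smul_left]
    exact le_Mx (fun i => r • v i) x hi

lemma integral_neg_stdGaussian (F : E → ℝ) :
    ∫ x, F (-x) ∂(stdGaussian E) = ∫ x, F x ∂(stdGaussian E) := by
  have h := stdGaussian_map (LinearIsometryEquiv.neg ℝ (E := E))
  have h2 : MeasurePreserving (MeasurableEquiv.neg E) (stdGaussian E) (stdGaussian E) :=
    ⟨measurable_neg, h⟩
  exact h2.integral_comp' F

lemma ff_three {S : Finset ι} (hS : S.Nonempty) {a b c : ι} (h : ∀ i ∈ S, i = a ∨ i = b ∨ i = c)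
    (v : ι → E) :
    ff S v ≤ cc * ((‖v a - v b‖ + ‖v a - v c‖ + ‖v b - v c‖) / 3) := by
  have h1 : ∀ x, Mx S v x + Mx S v (-x) ≤
      (|⟪v a - v b, x⟫| + |⟪v a - v c, x⟫| + |⟪v b - v c, x⟫|) / 2 := by
    intro x
    obtain ⟨i, hi, e⟩ := exists_Mx hS v x
    obtain ⟨j, hj, e'⟩ := exists_Mx hS v (-x)
    rw [e, e', inner_neg_right, inner_sub_left, inner_sub_left, inner_sub_left]
    have k1 := le_abs_self (⟪v a, x⟫ - ⟪v b, x⟫)
    have k2 := neg_le_abs (⟪v a, x⟫ - ⟪v b, x⟫)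
    have k3 := le_abs_self (⟪v a, x⟫ - ⟪v c, x⟫)
    have k4 := neg_le_abs (⟪v a, x⟫ - ⟪v c, x⟫)
    have k5 := le_abs_self (⟪v b, x⟫ - ⟪v c, x⟫)
    have k6 := neg_le_abs (⟪v b, x⟫ - ⟪v c, x⟫)
    rcases h i hi with rfl | rfl | rfl <;> rcases h j hj with rfl | rfl | rfl <;> linarith
  have hn : Integrable (fun x => Mx S v (-x)) (stdGaussian E) := by
    have h := stdGaussian_map (LinearIsometryEquiv.neg ℝ (E := E))
    have h2 : MeasurePreserving (fun x : E => -x) (stdGaussian E) (stdGaussian E) :=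
      ⟨measurable_neg, h⟩
    exact h2.integrable_comp_of_integrable (integrable_Mx hS v)
  have i1 := (integrable_inner (v a - v b)).abs
  have i2 := (integrable_inner (v a - v c)).abs
  have i3 := (integrable_inner (v b - v c)).abs
  have i12 : Integrable (fun x => |⟪v a - v b, x⟫| + |⟪v a - v c, x⟫|) (stdGaussian E) := i1.add i2
  have h2 := integral_mono ((integrable_Mx hS v).add hn) ((i12.add i3).div_const 2) h1
  simp only [Pi.add_apply] at h2
  rw [integral_add (integrable_Mx hS v) hn, integral_neg_stdGaussian (Mx S v), integral_div,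
    integral_add i12 i3, integral_add i1 i2, integral_abs_inner, integral_abs_inner,
    integral_abs_inner] at h2
  have := sqrt_two_pi_pos
  have e : cc * ((‖v a - v b‖ + ‖v a - v c‖ + ‖v b - v c‖) / 3) =
      (‖v a - v b‖ * (2 * (√(2 * π))⁻¹) + ‖v a - v c‖ * (2 * (√(2 * π))⁻¹) +
        ‖v b - v c‖ * (2 * (√(2 * π))⁻¹)) / 2 / 2 := by
    unfold cc; field_simp
  rw [e, ff]
  linarith

variable (E ι) in
/-- the inequality for all families of at most `n` vectors -/
def Hyp (n : ℕ) : Prop :=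
  ∀ S : Finset ι, S.Nonempty → S.card ≤ n → ∀ v : ι → E, ff S v ≤ cc * √(∑ i ∈ S, ‖v i‖ ^ 2)

lemma Hyp.shift {n : ℕ} (h : Hyp E ι n) {S : Finset ι} (hS : S.Nonempty) (hn : S.card ≤ n)
    (v : ι → E) (u : E) : ff S v ≤ cc * √(∑ i ∈ S, ‖v i + u‖ ^ 2) := by
  rw [← ff_shift hS v u]; exact h S hS hn _

lemma hyp_three : Hyp E ι 3 := by
  intro S hS hn v
  have hc := cc_pos
  have h1 : S.card = 1 ∨ S.card = 2 ∨ S.card = 3 := by
    have := hS.card_pos; omega
  rcases h1 with h1 | h1 | h1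
  · obtain ⟨a, rfl⟩ := Finset.card_eq_one.1 h1
    refine (ff_three hS (a := a) (b := a) (c := a) (by simp) v).trans ?_
    simp only [sub_self, norm_zero, add_zero, zero_div, mul_zero]
    positivity
  · obtain ⟨a, b, hab, rfl⟩ := Finset.card_eq_two.1 h1
    refine (ff_three hS (a := a) (b := b) (c := b) (by simp) v).trans ?_
    refine mul_le_mul_of_nonneg_left (Real.le_sqrt_of_sq_le ?_) hc.le
    rw [Finset.sum_pair hab, sub_self, norm_zero]
    have k := norm_sub_le (v a) (v b)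
    have k0 := norm_nonneg (v a - v b)
    nlinarith [sq_nonneg (‖v a‖ - ‖v b‖), norm_nonneg (v a), norm_nonneg (v b)]
  · obtain ⟨a, b, c, hab, hac, hbc, rfl⟩ := Finset.card_eq_three.1 h1
    refine (ff_three hS (a := a) (b := b) (c := c) (by simp) v).trans ?_
    refine mul_le_mul_of_nonneg_left (Real.le_sqrt_of_sq_le ?_) hc.le
    rw [Finset.sum_insert (by simp [hab, hac]), Finset.sum_pair hbc]
    have k1 := norm_sub_sq_real (v a) (v b)
    have k2 := norm_sub_sq_real (v a) (v c)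
    have k3 := norm_sub_sq_real (v b) (v c)
    have k4 := norm_add_sq_real (v a + v b) (v c)
    have k5 := norm_add_sq_real (v a) (v b)
    rw [inner_add_left] at k4
    nlinarith [sq_nonneg (‖v a + v b + v c‖), sq_nonneg (‖v a - v b‖ - ‖v a - v c‖),
      sq_nonneg (‖v a - v b‖ - ‖v b - v c‖), sq_nonneg (‖v a - v c‖ - ‖v b - v c‖)]

/-- the open cell where the form of index `i` is the strict maximum -/
def cell (S : Finset ι) (v : ι → E) (i : ι) : Set E :=
  {x | ∀ j ∈ S, j ≠ i → ⟪v j, x⟫ < ⟪v i, x⟫}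

lemma oc_cell (S : Finset ι) (v : ι → E) (i : ι) : OC (cell S v i) := by
  have e : cell S v i = ⋂ j ∈ S.erase i, {x | 0 < ⟪v i - v j, x⟫} := by
    ext x
    simp only [cell, mem_ofPred_eq, Finset.mem_erase, mem_iInter, inner_sub_left, sub_pos]
    exact ⟨fun h j hj => h j hj.2 hj.1, fun h j hj hji => h j ⟨hji, hj⟩⟩
  rw [e]
  refine ⟨isOpen_biInter_finset fun j _ => isOpen_lt continuous_const (by fun_prop),
    convex_iInter₂ fun j _ => ?_⟩
  exact convex_halfSpace_gt (f := fun x => ⟪v i - v j, x⟫)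
    ⟨fun x y => inner_add_right _ _ _, fun c x => real_inner_smul_right _ _ _⟩ 0

lemma measurableSet_cell (S : Finset ι) (v : ι → E) (i : ι) : MeasurableSet (cell S v i) :=
  (oc_cell S v i).1.measurableSet

lemma Mx_eq_of_mem_cell {S : Finset ι} {v : ι → E} {i : ι} (hi : i ∈ S) {x : E}
    (hx : x ∈ cell S v i) : Mx S v x = ⟪v i, x⟫ := by
  refine le_antisymm (Mx_le ⟨i, hi⟩ fun j hj => ?_) (le_Mx v x hi)
  rcases eq_or_ne j i with rfl | h
  · exact le_rfl
  · exact (hx j hj h).le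

lemma integral_eq_sum_cell {S : Finset ι} (hS : S.Nonempty) {v : ι → E}
    (hv : ∀ i ∈ S, ∀ j ∈ S, i ≠ j → v i ≠ v j) {F : Type*} [NormedAddCommGroup F]
    [NormedSpace ℝ F] {g : E → F} (hg : Integrable g (stdGaussian E)) :
    ∫ x, g x ∂(stdGaussian E) = ∑ i ∈ S, ∫ x in cell S v i, g x ∂(stdGaussian E) := by
  rw [← integral_biUnion_finset S (fun i _ => measurableSet_cell S v i) ?_
    (fun i _ => hg.integrableOn)]
  · have hae : ∀ᵐ x ∂(stdGaussian E), x ∈ ⋃ i ∈ S, cell S v i := by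
      have h1 : ∀ᵐ x ∂(stdGaussian E), ∀ i ∈ S, ∀ j ∈ S, i ≠ j → ⟪v i - v j, x⟫ ≠ 0 := by
        refine (ae_ball_iff S.countable_toSet).2 fun i hi =>
          (ae_ball_iff S.countable_toSet).2 fun j hj => ?_
        rcases eq_or_ne i j with h | h
        · simp [h]
        · have := measure_inner_eq_zero (sub_ne_zero.2 (hv i hi j hj h))
          rw [ae_iff]
          simpa [h] using this
      filter_upwards [h1] with x hx
      obtain ⟨i, hi, e⟩ := exists_Mx hS v x
      refine mem_iUnion₂.2 ⟨i, hi, fun j hj hji => ?_⟩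
      have k1 := le_Mx v x hj
      have k2 := hx j hj i hi hji
      rw [inner_sub_left, sub_ne_zero] at k2
      rw [e] at k1
      exact lt_of_le_of_ne k1 k2
    rw [Measure.restrict_eq_self_of_ae_mem hae]
  · intro i hi j hj hij
    refine Set.disjoint_left.2 fun x hx hx' => ?_
    exact lt_asymm (hx j hj hij.symm) (hx' i hi hij)

/-- first moment of a cell -/
noncomputable def zz (S : Finset ι) (v : ι → E) (i : ι) : E :=
  ∫ x in cell S v i, x ∂(stdGaussian E)

lemma sum_inner_zz_le {S : Finset ι} (hS : S.Nonempty) {v : ι → E}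
    (hv : ∀ i ∈ S, ∀ j ∈ S, i ≠ j → v i ≠ v j) (w : ι → E) {g : E → ℝ}
    (hg : Integrable g (stdGaussian E)) (h : ∀ l ∈ S, ∀ x, ⟪w l, x⟫ ≤ g x) :
    ∑ l ∈ S, ⟪w l, zz S v l⟫ ≤ ∫ x, g x ∂(stdGaussian E) := by
  rw [integral_eq_sum_cell hS hv hg]
  refine Finset.sum_le_sum fun l hl => ?_
  rw [zz, inner_setIntegral]
  exact setIntegral_mono (integrable_inner _).integrableOn hg.integrableOn (h l hl)

lemma ff_eq_sum_zz {S : Finset ι} (hS : S.Nonempty) {v : ι → E}
    (hv : ∀ i ∈ S, ∀ j ∈ S, i ≠ j → v i ≠ v j) : ff S v = ∑ l ∈ S, ⟪v l, zz S v l⟫ := by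
  rw [ff, integral_eq_sum_cell hS hv (integrable_Mx hS v)]
  refine Finset.sum_congr rfl fun l hl => ?_
  rw [zz, inner_setIntegral]
  exact setIntegral_congr_fun (measurableSet_cell S v l) fun x hx => Mx_eq_of_mem_cell hl hx

lemma sum_zz {S : Finset ι} (hS : S.Nonempty) {v : ι → E}
    (hv : ∀ i ∈ S, ∀ j ∈ S, i ≠ j → v i ≠ v j) : ∑ l ∈ S, zz S v l = 0 := by
  have := integral_eq_sum_cell hS hv (integrable_idE (E := E))
  rw [integral_id_stdGaussian] at this
  exact this.symm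

lemma sum_cell {S : Finset ι} (hS : S.Nonempty) {v : ι → E}
    (hv : ∀ i ∈ S, ∀ j ∈ S, i ≠ j → v i ≠ v j) :
    ∑ l ∈ S, (stdGaussian E).real (cell S v l) = 1 := by
  have := integral_eq_sum_cell hS hv (integrable_const (1 : ℝ) (μ := stdGaussian E))
  simpa using this.symm

/-- a critical configuration with value above the propeller constant -/
structure Crit (S : Finset ι) (v : ι → E) (lam : ℝ) : Prop where
  gt : cc < lam
  norm : ∑ i ∈ S, ‖v i‖ ^ 2 = 1
  inj : ∀ i ∈ S, ∀ j ∈ S, i ≠ j → v i ≠ v j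
  mom : ∀ i ∈ S, zz S v i = lam • v i
  val : ff S v = lam

lemma exists_crit [Fintype ι] {n : ℕ} (h : Hyp E ι n) {S : Finset ι} (hS : S.Nonempty)
    (hn : S.card ≤ n + 1) (h2 : 2 ≤ S.card) {v0 : ι → E}
    (hv0 : cc * √(∑ i ∈ S, ‖v0 i‖ ^ 2) < ff S v0) : ∃ v : ι → E, ∃ lam, Crit S v lam := by
  have hc := cc_pos
  set K : Set (ι → E) := {v | ∑ i ∈ S, ‖v i‖ ^ 2 ≤ 1 ∧ ∀ i, i ∉ S → v i = 0} with hK
  have : ProperSpace E := FiniteDimensional.proper ℝ E
  have hKc : IsCompact K := by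
    refine (isCompact_closedBall (0 : ι → E) 1).of_isClosed_subset ?_ ?_
    · refine (isClosed_le (f := fun v : ι → E => ∑ i ∈ S, ‖v i‖ ^ 2) (by fun_prop)
        continuous_const).inter ?_
      have : {v : ι → E | ∀ i, i ∉ S → v i = 0} = ⋂ i, ⋂ (_ : i ∉ S), {v | v i = 0} := by
        ext v; simp
      show IsClosed {v : ι → E | ∀ i, i ∉ S → v i = 0}
      rw [this]
      exact isClosed_iInter fun i => isClosed_iInter fun _ =>
        isClosed_eq (continuous_apply i) continuous_const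
    · intro v hv
      rw [mem_closedBall_zero_iff, pi_norm_le_iff_of_nonneg zero_le_one]
      intro i
      by_cases hi : i ∈ S
      · have : ‖v i‖ ^ 2 ≤ 1 := (Finset.single_le_sum (f := fun i => ‖v i‖ ^ 2)
          (fun j _ => sq_nonneg _) hi).trans hv.1
        nlinarith [norm_nonneg (v i)]
      · rw [hv.2 i hi]; simp
  have scale : ∀ u : ι → E, ∀ r : ℝ, 0 ≤ r → r ^ 2 * ∑ i ∈ S, ‖u i‖ ^ 2 ≤ 1 →
      ∃ w ∈ K, ff S w = r * ff S u := by
    intro u r hr hu
    refine ⟨fun i => if i ∈ S then r • u i else 0, ⟨?_, fun i hi => if_neg hi⟩, ?_⟩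
    · refine le_of_eq_of_le ?_ hu
      rw [Finset.mul_sum]
      refine Finset.sum_congr rfl fun i hi => ?_
      simp only [if_pos hi]
      rw [norm_smul, mul_pow, Real.norm_eq_abs, sq_abs]
    · rw [← ff_smul hS u hr]
      exact ff_congr fun i hi => if_pos hi
  obtain ⟨v, hvK, hmax⟩ := hKc.exists_isMaxOn ⟨0, by simp [hK]⟩ (continuous_ff hS).continuousOn
  have bound : ∀ u : ι → E, ff S u ≤ ff S v * √(∑ i ∈ S, ‖u i‖ ^ 2) := by
    intro u
    have h0 : 0 ≤ ∑ i ∈ S, ‖u i‖ ^ 2 := Finset.sum_nonneg fun i _ => sq_nonneg _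
    rcases eq_or_lt_of_le h0 with h1 | h1
    · have hz : ∀ i ∈ S, u i = (0 : ℝ) • u i := by
        intro i hi
        have := (Finset.sum_eq_zero_iff_of_nonneg fun i _ => sq_nonneg _).1 h1.symm i hi
        simpa using this
      rw [ff_congr hz, ff_smul hS u le_rfl, ← h1]
      simp
    · have hs := Real.sqrt_pos.2 h1
      obtain ⟨w, hw, e⟩ := scale u (√(∑ i ∈ S, ‖u i‖ ^ 2))⁻¹ (by positivity)
        (by rw [inv_pow, Real.sq_sqrt h0, inv_mul_cancel₀ h1.ne'])
      have : ff S w ≤ ff S v := hmax hw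
      rw [e, inv_mul_le_iff₀ hs] at this
      linarith
  set lam := ff S v with hlam
  have hgt : cc < lam := by
    by_contra hcon
    have := mul_le_mul_of_nonneg_right (not_lt.1 hcon) (Real.sqrt_nonneg (∑ i ∈ S, ‖v0 i‖ ^ 2))
    linarith [bound v0]
  have hinj : ∀ i ∈ S, ∀ j ∈ S, i ≠ j → v i ≠ v j := by
    intro i hi j hj hij heq
    have hne : (S.erase i).Nonempty := ⟨j, Finset.mem_erase.2 ⟨hij.symm, hj⟩⟩
    have h1 : ff S v ≤ ff (S.erase i) v := by
      refine integral_mono (integrable_Mx hS v) (integrable_Mx hne v) fun x =>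
        Mx_le hS fun l hl => ?_
      rcases eq_or_ne l i with rfl | hli
      · rw [heq]; exact le_Mx v x (Finset.mem_erase.2 ⟨hij.symm, hj⟩)
      · exact le_Mx v x (Finset.mem_erase.2 ⟨hli, hl⟩)
    have h3 := h _ hne (by rw [Finset.card_erase_of_mem hi]; omega) v
    have h4 : √(∑ l ∈ S.erase i, ‖v l‖ ^ 2) ≤ 1 := by
      rw [Real.sqrt_le_one]
      exact (Finset.sum_le_sum_of_subset_of_nonneg (Finset.erase_subset i S)
        fun l _ _ => sq_nonneg _).trans hvK.1
    nlinarith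
  have hl0 : 0 < lam := hc.trans hgt
  have e1 := ff_eq_sum_zz hS hinj
  have hz : ∑ l ∈ S, ‖zz S v l‖ ^ 2 ≤ lam ^ 2 := by
    have k1 := sum_inner_zz_le hS hinj (zz S v) (integrable_Mx hS (zz S v))
      fun l hl x => le_Mx _ x hl
    simp_rw [real_inner_self_eq_norm_sq] at k1
    have k2 := k1.trans (bound (zz S v))
    have h0 : 0 ≤ ∑ i ∈ S, ‖zz S v i‖ ^ 2 := Finset.sum_nonneg fun i _ => sq_nonneg _
    have k3 := Real.sq_sqrt h0
    nlinarith [sq_nonneg (lam - √(∑ i ∈ S, ‖zz S v i‖ ^ 2))]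
  have e2 : ∑ l ∈ S, ‖zz S v l - lam • v l‖ ^ 2 =
      ∑ l ∈ S, ‖zz S v l‖ ^ 2 - 2 * lam * lam + lam ^ 2 * ∑ l ∈ S, ‖v l‖ ^ 2 := by
    conv_rhs => rw [show 2 * lam * lam = 2 * lam * ∑ l ∈ S, ⟪v l, zz S v l⟫ by rw [← e1]]
    rw [Finset.mul_sum, Finset.mul_sum, ← Finset.sum_sub_distrib, ← Finset.sum_add_distrib]
    refine Finset.sum_congr rfl fun l _ => ?_
    rw [norm_sub_sq_real, real_inner_smul_right, norm_smul, mul_pow, Real.norm_eq_abs, sq_abs,
      real_inner_comm]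
    ring
  have h0 : 0 ≤ ∑ l ∈ S, ‖zz S v l - lam • v l‖ ^ 2 := Finset.sum_nonneg fun i _ => sq_nonneg _
  have hv1 := hvK.1
  have hl2 : 0 < lam ^ 2 := by positivity
  have hnorm : ∑ i ∈ S, ‖v i‖ ^ 2 = 1 := by
    refine le_antisymm hv1 ?_
    by_contra hcon
    have := mul_lt_mul_of_pos_left (not_le.1 hcon) hl2
    nlinarith
  refine ⟨v, lam, hgt, hnorm, hinj, fun i hi => ?_, rfl⟩
  have e3 : ∑ l ∈ S, ‖zz S v l - lam • v l‖ ^ 2 = 0 := by
    refine le_antisymm ?_ h0
    rw [e2, hnorm]; nlinarith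
  have := (Finset.sum_eq_zero_iff_of_nonneg fun i _ => sq_nonneg _).1 e3 i hi
  simpa [sub_eq_zero] using this

end Vale.Agent.P226
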