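import Mathlib

/-! One-dimensional Gaussian calculus: density, tail function and its inverse. -/

open MeasureTheory ProbabilityTheory Set Filter Topology Real

namespace Vale.Agent.P226

/-- standard normal density -/
noncomputable def phi (x : ℝ) : ℝ := (√(2 * π))⁻¹ * Real.exp (-x ^ 2 / 2)

/-- standard normal upper tail -/
noncomputable def Q (b : ℝ) : ℝ := ∫ x in Ioi b, phi x

/-- the standard normal law on the line -/
noncomputable abbrev gam : Measure ℝ := gaussianReal 0 1

lemma sqrt_two_pi_pos : 0 < √(2 * π) := Real.sqrt_pos.2 (by positivity)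

lemma phi_eq (x : ℝ) : gaussianPDFReal 0 1 x = phi x := by
  simp [gaussianPDFReal, phi]

lemma phi_pos (x : ℝ) : 0 < phi x := by
  unfold phi; have := sqrt_two_pi_pos; positivity

lemma phi_neg (x : ℝ) : phi (-x) = phi x := by simp [phi]

lemma phi_le (x : ℝ) : phi x ≤ (√(2 * π))⁻¹ := by
  unfold phi
  have h1 : Real.exp (-x ^ 2 / 2) ≤ 1 := Real.exp_le_one_iff.2 (by nlinarith [sq_nonneg x])
  have := sqrt_two_pi_pos
  calc _ ≤ (√(2 * π))⁻¹ * 1 := by gcongr
    _ = _ := mul_one _

lemma phi_zero : phi 0 = (√(2 * π))⁻¹ := by simp [phi]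

@[fun_prop]
lemma continuous_phi : Continuous phi := by unfold phi; fun_prop

@[fun_prop]
lemma measurable_phi : Measurable phi := continuous_phi.measurable

lemma integrable_phi : Integrable phi := by
  have := integrable_gaussianPDFReal 0 1
  rwa [show gaussianPDFReal 0 1 = phi from funext phi_eq] at this

lemma integral_phi : ∫ x, phi x = 1 := by
  have := integral_gaussianPDFReal_eq_one 0 (v := 1) one_ne_zero
  rwa [show gaussianPDFReal 0 1 = phi from funext phi_eq] at this

lemma hasDerivAt_phi (x : ℝ) : HasDerivAt phi (-(x * phi x)) x := by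
  unfold phi
  have h1 : HasDerivAt (fun x : ℝ => -x ^ 2 / 2) (-x) x := by
    have := ((hasDerivAt_pow 2 x).fun_neg).div_const 2
    exact this.congr_deriv (by simp; ring)
  have := (h1.exp).const_mul (√(2 * π))⁻¹
  exact this.congr_deriv (by ring)

lemma integral_gam (f : ℝ → ℝ) : ∫ x, f x ∂gam = ∫ x, phi x * f x := by
  rw [integral_gaussianReal_eq_integral_smul (by norm_num)]
  simp [phi_eq]

lemma gam_real (s : Set ℝ) : gam.real s = ∫ x in s, phi x := by
  rw [Measure.real, gaussianReal_apply_eq_integral 0 one_ne_zero,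
    show gaussianPDFReal 0 1 = phi from funext phi_eq, ENNReal.toReal_ofReal]
  exact integral_nonneg fun x => (phi_pos x).le

lemma gam_Ioi (b : ℝ) : gam.real (Ioi b) = Q b := gam_real _

instance : NullSingletonClass gam := nullSingletonClass_gaussianReal one_ne_zero

lemma gam_Ici (b : ℝ) : gam.real (Ici b) = Q b := by
  rw [← gam_Ioi, measureReal_congr Ioi_ae_eq_Ici]

lemma gam_Iic (b : ℝ) : gam.real (Iic b) = 1 - Q b := by
  rw [← gam_Ioi, ← compl_Ioi, probReal_compl_eq_one_sub measurableSet_Ioi]

lemma gam_Iio (b : ℝ) : gam.real (Iio b) = 1 - Q b := by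
  rw [← gam_Ici, ← compl_Ici, probReal_compl_eq_one_sub measurableSet_Ici]

lemma Q_sub (a b : ℝ) : Q a - Q b = ∫ x in a..b, phi x :=
  intervalIntegral.integral_Ioi_sub_Ioi' integrable_phi.integrableOn integrable_phi.integrableOn

lemma hasStrictDerivAt_Q (b : ℝ) : HasStrictDerivAt Q (-phi b) b := by
  have h : Q = fun b => Q 0 - ∫ x in (0:ℝ)..b, phi x := by
    funext b; rw [← Q_sub]; ring
  rw [h]
  have := (continuous_phi.deriv_integral phi 0 b)
  have h2 := intervalIntegral.integral_hasStrictDerivAt_right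
    (continuous_phi.intervalIntegrable 0 b)
    (continuous_phi.stronglyMeasurableAtFilter _ _) continuous_phi.continuousAt
  exact h2.const_sub _

lemma hasDerivAt_Q (b : ℝ) : HasDerivAt Q (-phi b) b := (hasStrictDerivAt_Q b).hasDerivAt

@[fun_prop]
lemma continuous_Q : Continuous Q := continuous_iff_continuousAt.2 fun b =>
  (hasDerivAt_Q b).continuousAt

@[fun_prop]
lemma measurable_Q : Measurable Q := continuous_Q.measurable

lemma strictAnti_Q : StrictAnti Q :=
  strictAnti_of_hasDerivAt_neg hasDerivAt_Q fun x => by simpa using phi_pos x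

lemma antitone_Q : Antitone Q := strictAnti_Q.antitone

lemma Q_nonneg (b : ℝ) : 0 ≤ Q b := by rw [← gam_Ioi]; exact measureReal_nonneg

lemma Q_le_one (b : ℝ) : Q b ≤ 1 := by rw [← gam_Ioi]; exact measureReal_le_one

lemma Q_pos (b : ℝ) : 0 < Q b := (Q_nonneg (b + 1)).trans_lt (strictAnti_Q (by linarith))

lemma Q_lt_one (b : ℝ) : Q b < 1 := (strictAnti_Q (by linarith : b - 1 < b)).trans_le (Q_le_one _)

lemma Q_neg (b : ℝ) : Q (-b) = 1 - Q b := by
  rw [← gam_Iic, gam_real, Q]
  have := integral_comp_neg_Iic b phi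
  simp only [phi_neg] at this
  exact this.symm

lemma Q_zero : Q 0 = 1 / 2 := by
  have := Q_neg 0
  simp only [neg_zero] at this
  linarith

lemma tendsto_Q_atTop : Tendsto Q atTop (𝓝 0) :=
  tendsto_integral_Ioi_zero (f := phi) tendsto_id

lemma tendsto_Q_atBot : Tendsto Q atBot (𝓝 1) := by
  have h : Q = fun b => 1 - Q (-b) := by funext b; rw [Q_neg]; ring
  rw [h]
  simpa using (tendsto_Q_atTop.comp tendsto_neg_atBot_atTop).const_sub 1

lemma tendsto_pow_mul_phi (n : ℕ) : Tendsto (fun x => x ^ n * phi x) atTop (𝓝 0) := by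
  have h := (Real.tendsto_pow_mul_exp_neg_atTop_nhds_zero n).const_mul (√(2 * π))⁻¹
  rw [mul_zero] at h
  refine squeeze_zero' ?_ ?_ h
  · filter_upwards [eventually_ge_atTop 0] with x hx
    exact mul_nonneg (pow_nonneg hx n) (phi_pos x).le
  · filter_upwards [eventually_ge_atTop 2] with x hx
    unfold phi
    have h1 : Real.exp (-x ^ 2 / 2) ≤ Real.exp (-x) := Real.exp_le_exp.2 (by nlinarith)
    have h2 : 0 ≤ x ^ n := pow_nonneg (by linarith) n
    have := sqrt_two_pi_pos
    calc x ^ n * ((√(2 * π))⁻¹ * Real.exp (-x ^ 2 / 2))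
        ≤ x ^ n * ((√(2 * π))⁻¹ * Real.exp (-x)) := by gcongr
      _ = _ := by ring

lemma tendsto_phi : Tendsto phi atTop (𝓝 0) := by
  simpa using tendsto_pow_mul_phi 0

/-- a function with nonpositive derivative on a half line lies above its limit -/
lemma le_of_deriv_nonpos_tendsto {F F' : ℝ → ℝ} {a L : ℝ}
    (hd : ∀ x, a ≤ x → HasDerivAt F (F' x) x) (hn : ∀ x, a ≤ x → F' x ≤ 0)
    (hl : Tendsto F atTop (𝓝 L)) : L ≤ F a := by
  have hanti : AntitoneOn F (Ici a) := by
    refine antitoneOn_of_deriv_nonpos (convex_Ici a)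
      (fun x hx => (hd x hx).continuousAt.continuousWithinAt)
      (fun x hx => (hd x (interior_subset hx)).differentiableAt.differentiableWithinAt) ?_
    intro x hx
    rw [(hd x (interior_subset hx)).deriv]
    exact hn x (interior_subset hx)
  refine le_of_tendsto hl ?_
  filter_upwards [eventually_ge_atTop a] with x hx
  exact hanti (mem_Ici.2 le_rfl) hx hx

/-- monotonicity between two points from the sign of the derivative -/
lemma le_of_deriv_nonpos {F F' : ℝ → ℝ} {a b : ℝ} (hab : a ≤ b)
    (hd : ∀ x, a ≤ x → x ≤ b → HasDerivAt F (F' x) x) (hn : ∀ x, a ≤ x → x ≤ b → F' x ≤ 0) :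
    F b ≤ F a := by
  have hanti : AntitoneOn F (Icc a b) := by
    refine antitoneOn_of_deriv_nonpos (convex_Icc a b)
      (fun x hx => (hd x hx.1 hx.2).continuousAt.continuousWithinAt)
      (fun x hx => (hd x (interior_subset hx).1
        (interior_subset hx).2).differentiableAt.differentiableWithinAt) ?_
    intro x hx
    rw [(hd x (interior_subset hx).1 (interior_subset hx).2).deriv]
    exact hn x (interior_subset hx).1 (interior_subset hx).2
  exact hanti (left_mem_Icc.2 hab) (right_mem_Icc.2 hab) hab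

lemma le_of_deriv_nonneg {F F' : ℝ → ℝ} {a b : ℝ} (hab : a ≤ b)
    (hd : ∀ x, a ≤ x → x ≤ b → HasDerivAt F (F' x) x) (hn : ∀ x, a ≤ x → x ≤ b → 0 ≤ F' x) :
    F a ≤ F b := by
  have := le_of_deriv_nonpos (F := fun x => -F x) (F' := fun x => -F' x) hab
    (fun x h1 h2 => (hd x h1 h2).neg) (fun x h1 h2 => by simpa using hn x h1 h2)
  simpa using this

lemma exists_Q_eq {q : ℝ} (h0 : 0 < q) (h1 : q < 1) : ∃ b, Q b = q := by
  obtain ⟨a, ha⟩ := (tendsto_Q_atBot.eventually (lt_mem_nhds h1)).exists
  obtain ⟨b, hb⟩ := (tendsto_Q_atTop.eventually (gt_mem_nhds h0)).exists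
  exact mem_range_of_exists_le_of_exists_ge continuous_Q ⟨b, hb.le⟩ ⟨a, ha.le⟩

/-- inverse of the tail function -/
noncomputable def Qinv : ℝ → ℝ := Function.invFun Q

lemma Qinv_Q (b : ℝ) : Qinv (Q b) = b :=
  Function.leftInverse_invFun strictAnti_Q.injective b

lemma Q_Qinv {q : ℝ} (h0 : 0 < q) (h1 : q < 1) : Q (Qinv q) = q :=
  Function.invFun_eq (exists_Q_eq h0 h1)

lemma hasDerivAt_Qinv {q : ℝ} (h0 : 0 < q) (h1 : q < 1) :
    HasDerivAt Qinv (-phi (Qinv q))⁻¹ q := by
  have := (hasStrictDerivAt_Q (Qinv q)).to_local_left_inverse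
    (neg_ne_zero.2 (phi_pos _).ne') (g := Qinv) (Eventually.of_forall Qinv_Q)
  rw [Q_Qinv h0 h1] at this
  exact this.hasDerivAt

/-- Mills upper bound -/
lemma mul_Q_le_phi (b : ℝ) : b * Q b ≤ phi b := by
  rcases le_or_gt b 0 with hb | hb
  · nlinarith [Q_pos b, phi_pos b]
  have := le_of_deriv_nonpos_tendsto (F := fun x => phi x - b * Q x)
    (F' := fun x => -(x * phi x) - b * (-phi x)) (a := b) (L := 0)
    (fun x _ => (hasDerivAt_phi x).sub ((hasDerivAt_Q x).const_mul b))
    (fun x hx => by nlinarith [phi_pos x])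
    (by simpa using tendsto_phi.sub (tendsto_Q_atTop.const_mul b))
  linarith

lemma integrable_pow_gam (n : ℕ) : Integrable (fun x : ℝ => x ^ n) gam := by
  have h := (memLp_id_gaussianReal' (μ := 0) (v := 1) (n : ENNReal) (by simp))
  rcases Nat.eq_zero_or_pos n with rfl | hn
  · simp
  have := h.integrable_norm_pow (by omega)
  refine this.mono (by fun_prop) (Eventually.of_forall fun x => by simp)

lemma integrable_pow_mul_phi (n : ℕ) : Integrable (fun x : ℝ => x ^ n * phi x) := by
  have h := integrable_pow_gam n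
  rw [gam, gaussianReal_of_var_ne_zero 0 one_ne_zero,
    integrable_withDensity_iff (measurable_gaussianPDF _ _)
      (Eventually.of_forall fun x => gaussianPDF_lt_top)] at h
  simpa [phi_eq] using h

lemma integral_Ioi_mul_phi (b : ℝ) : ∫ x in Ioi b, x * phi x = phi b := by
  have := integral_Ioi_of_hasDerivAt_of_tendsto' (f := fun x => -phi x)
    (f' := fun x => x * phi x) (a := b) (m := 0)
    (fun x _ => by simpa using (hasDerivAt_phi x).fun_neg)
    (by simpa using (integrable_pow_mul_phi 1).integrableOn) (by simpa using tendsto_phi.neg)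
  simpa using this

lemma integral_posPart_sub (b : ℝ) : ∫ x, max (x - b) 0 ∂gam = phi b - b * Q b := by
  rw [integral_gam]
  have h1 : (fun x => phi x * max (x - b) 0) =
      (Ioi b).indicator (fun x => x * phi x - b * phi x) := by
    funext x
    by_cases hx : b < x
    · rw [indicator_of_mem (mem_Ioi.2 hx), max_eq_left (by linarith)]; ring
    · rw [indicator_of_notMem (by simpa using hx), max_eq_right (by linarith)]; ring
  rw [h1, integral_indicator measurableSet_Ioi, integral_sub, integral_Ioi_mul_phi,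
    integral_const_mul, Q]
  · have := (integrable_pow_mul_phi 1).integrableOn (s := Ioi b)
    simp only [pow_one] at this
    exact this
  · exact (integrable_phi.const_mul b).integrableOn

lemma integrable_posPart_sub (b : ℝ) : Integrable (fun x => max (x - b) 0) gam := by
  have h : Integrable (fun x : ℝ => x - b) gam := by
    have := (integrable_pow_gam 1).sub (integrable_const b)
    simp only [pow_one] at this
    exact this
  exact h.pos_part

lemma integral_abs_gam : ∫ x, |x| ∂gam = 2 * (√(2 * π))⁻¹ := by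
  have h1 : (fun x : ℝ => |x|) = fun x => 2 * max (x - 0) 0 - x := by
    funext x
    rcases le_total 0 x with h | h
    · rw [abs_of_nonneg h, max_eq_left (by linarith)]; ring
    · rw [abs_of_nonpos h, max_eq_right (by linarith)]; ring
  rw [h1, integral_sub ((integrable_posPart_sub 0).const_mul 2)
    (by simpa using integrable_pow_gam 1), integral_const_mul, integral_posPart_sub,
    integral_id_gaussianReal, phi_zero]
  ring

lemma integral_posPart_cube : ∫ x, (max x 0) ^ 3 ∂gam = 2 * (√(2 * π))⁻¹ := by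
  rw [integral_gam]
  have h1 : (fun x => phi x * (max x 0) ^ 3) = (Ioi 0).indicator (fun x => x ^ 3 * phi x) := by
    funext x
    by_cases hx : 0 < x
    · rw [indicator_of_mem (mem_Ioi.2 hx), max_eq_left hx.le]; ring
    · rw [indicator_of_notMem (by simpa using hx), max_eq_right (by linarith)]; ring
  rw [h1, integral_indicator measurableSet_Ioi]
  have := integral_Ioi_of_hasDerivAt_of_tendsto' (f := fun x => -((x ^ 2 + 2) * phi x))
    (f' := fun x => x ^ 3 * phi x) (a := 0) (m := 0)
    (fun x _ => by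
      have := (((hasDerivAt_pow 2 x).add_const 2).fun_mul (hasDerivAt_phi x)).fun_neg
      exact this.congr_deriv (by simp; ring))
    (integrable_pow_mul_phi 3).integrableOn
    (by
      have := ((tendsto_pow_mul_phi 2).add (tendsto_phi.const_mul 2)).neg
      simp only [mul_zero, add_zero, neg_zero] at this
      refine this.congr fun x => by ring)
  rw [this, phi_zero]; ring

lemma integrable_posPart_cube : Integrable (fun x : ℝ => (max x 0) ^ 3) gam := by
  refine (integrable_pow_gam 3).mono (by fun_prop) (Eventually.of_forall fun x => ?_)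
  simp only [norm_pow, Real.norm_eq_abs]
  refine pow_le_pow_left₀ (abs_nonneg _) ?_ 3
  rcases le_total 0 x with h | h
  · rw [max_eq_left h]
  · rw [max_eq_right h, abs_zero]; exact abs_nonneg _

end Vale.Agent.P226
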