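import Vale.Agent.P226.Num

/-! Certified values on the grid (generated). -/

open MeasureTheory ProbabilityTheory Set Filter Topology Real

set_option linter.unusedVariables false

namespace Vale.Agent.P226

lemma ql8_000 : (1 / 2 : ℝ) ≤ Q (0 : ℝ) :=
  Q_lb (by norm_num) (by norm_num [tay, tg, Finset.sum_range_succ, Nat.factorial]) (by norm_num [tay, tg, Finset.sum_range_succ, Nat.factorial])

lemma ql_000 {b : ℝ} (h : b ≤ (0 : ℝ)) : (1 / 2 : ℝ) ≤ Q b :=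
  le_trans (le_trans (by norm_num) ql8_000) (antitone_Q h)

lemma qu_000 {b : ℝ} (h : (0 : ℝ) ≤ b) : Q b ≤ (1 / 2 : ℝ) :=
  le_trans (antitone_Q h) (Q_ub (by norm_num) (by norm_num [tay, tg, Finset.sum_range_succ, Nat.factorial]) (by norm_num [tay, tg, Finset.sum_range_succ, Nat.factorial]))

lemma ju_000 : jf (0 : ℝ) ≤ (8889 / 20000 : ℝ) :=
  jf_ub (eu := (1 : ℝ)) (by norm_num) (by norm_num) ql8_000 (exp_ub (by norm_num [tay, tg, Finset.sum_range_succ, Nat.factorial])) (by norm_num)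

lemma ql8_040 : (34457821 / 100000000 : ℝ) ≤ Q (2 / 5 : ℝ) :=
  Q_lb (by norm_num) (by norm_num [tay, tg, Finset.sum_range_succ, Nat.factorial]) (by norm_num [tay, tg, Finset.sum_range_succ, Nat.factorial])

lemma ql_040 {b : ℝ} (h : b ≤ (2 / 5 : ℝ)) : (34457 / 100000 : ℝ) ≤ Q b :=
  le_trans (le_trans (by norm_num) ql8_040) (antitone_Q h)

lemma qu_040 {b : ℝ} (h : (2 / 5 : ℝ) ≤ b) : Q b ≤ (17229 / 50000 : ℝ) :=
  le_trans (antitone_Q h) (Q_ub (by norm_num) (by norm_num [tay, tg, Finset.sum_range_succ, Nat.factorial]) (by norm_num [tay, tg, Finset.sum_range_succ, Nat.factorial]))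

lemma ju_040 : jf (2 / 5 : ℝ) ≤ (23699 / 100000 : ℝ) :=
  jf_ub (eu := (18462327 / 20000000 : ℝ)) (by norm_num) (by norm_num) ql8_040 (exp_ub (by norm_num [tay, tg, Finset.sum_range_succ, Nat.factorial])) (by norm_num)

lemma ql8_050 : (7713437 / 25000000 : ℝ) ≤ Q (1 / 2 : ℝ) :=
  Q_lb (by norm_num) (by norm_num [tay, tg, Finset.sum_range_succ, Nat.factorial]) (by norm_num [tay, tg, Finset.sum_range_succ, Nat.factorial])

lemma ql_050 {b : ℝ} (h : b ≤ (1 / 2 : ℝ)) : (30853 / 100000 : ℝ) ≤ Q b :=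
  le_trans (le_trans (by norm_num) ql8_050) (antitone_Q h)

lemma qu_050 {b : ℝ} (h : (1 / 2 : ℝ) ≤ b) : Q b ≤ (15427 / 50000 : ℝ) :=
  le_trans (antitone_Q h) (Q_ub (by norm_num) (by norm_num [tay, tg, Finset.sum_range_succ, Nat.factorial]) (by norm_num [tay, tg, Finset.sum_range_succ, Nat.factorial]))

lemma ju_050 : jf (1 / 2 : ℝ) ≤ (19447 / 100000 : ℝ) :=
  jf_ub (eu := (88249691 / 100000000 : ℝ)) (by norm_num) (by norm_num) ql8_050 (exp_ub (by norm_num [tay, tg, Finset.sum_range_succ, Nat.factorial])) (by norm_num)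

lemma ql8_060 : (5485061 / 20000000 : ℝ) ≤ Q (3 / 5 : ℝ) :=
  Q_lb (by norm_num) (by norm_num [tay, tg, Finset.sum_range_succ, Nat.factorial]) (by norm_num [tay, tg, Finset.sum_range_succ, Nat.factorial])

lemma ql_060 {b : ℝ} (h : b ≤ (3 / 5 : ℝ)) : (1097 / 4000 : ℝ) ≤ Q b :=
  le_trans (le_trans (by norm_num) ql8_060) (antitone_Q h)

lemma qu_060 {b : ℝ} (h : (3 / 5 : ℝ) ≤ b) : Q b ≤ (13713 / 50000 : ℝ) :=
  le_trans (antitone_Q h) (Q_ub (by norm_num) (by norm_num [tay, tg, Finset.sum_range_succ, Nat.factorial]) (by norm_num [tay, tg, Finset.sum_range_succ, Nat.factorial]))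

lemma ju_060 : jf (3 / 5 : ℝ) ≤ (981 / 6250 : ℝ) :=
  jf_ub (eu := (41763511 / 50000000 : ℝ)) (by norm_num) (by norm_num) ql8_060 (exp_ub (by norm_num [tay, tg, Finset.sum_range_succ, Nat.factorial])) (by norm_num)

lemma ql8_070 : (24196357 / 100000000 : ℝ) ≤ Q (7 / 10 : ℝ) :=
  Q_lb (by norm_num) (by norm_num [tay, tg, Finset.sum_range_succ, Nat.factorial]) (by norm_num [tay, tg, Finset.sum_range_succ, Nat.factorial])

lemma ql_070 {b : ℝ} (h : b ≤ (7 / 10 : ℝ)) : (6049 / 25000 : ℝ) ≤ Q b :=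
  le_trans (le_trans (by norm_num) ql8_070) (antitone_Q h)

lemma qu_070 {b : ℝ} (h : (7 / 10 : ℝ) ≤ b) : Q b ≤ (24197 / 100000 : ℝ) :=
  le_trans (antitone_Q h) (Q_ub (by norm_num) (by norm_num [tay, tg, Finset.sum_range_succ, Nat.factorial]) (by norm_num [tay, tg, Finset.sum_range_succ, Nat.factorial]))

lemma ju_070 : jf (7 / 10 : ℝ) ≤ (12459 / 100000 : ℝ) :=
  jf_ub (eu := (39135227 / 50000000 : ℝ)) (by norm_num) (by norm_num) ql8_070 (exp_ub (by norm_num [tay, tg, Finset.sum_range_succ, Nat.factorial])) (by norm_num)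

lemma ql8_080 : (21185531 / 100000000 : ℝ) ≤ Q (4 / 5 : ℝ) :=
  Q_lb (by norm_num) (by norm_num [tay, tg, Finset.sum_range_succ, Nat.factorial]) (by norm_num [tay, tg, Finset.sum_range_succ, Nat.factorial])

lemma ql_080 {b : ℝ} (h : b ≤ (4 / 5 : ℝ)) : (4237 / 20000 : ℝ) ≤ Q b :=
  le_trans (le_trans (by norm_num) ql8_080) (antitone_Q h)

lemma qu_080 {b : ℝ} (h : (4 / 5 : ℝ) ≤ b) : Q b ≤ (10593 / 50000 : ℝ) :=
  le_trans (antitone_Q h) (Q_ub (by norm_num) (by norm_num [tay, tg, Finset.sum_range_succ, Nat.factorial]) (by norm_num [tay, tg, Finset.sum_range_succ, Nat.factorial]))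

lemma ju_080 : jf (4 / 5 : ℝ) ≤ (389 / 4000 : ℝ) :=
  jf_ub (eu := (9076863 / 12500000 : ℝ)) (by norm_num) (by norm_num) ql8_080 (exp_ub (by norm_num [tay, tg, Finset.sum_range_succ, Nat.factorial])) (by norm_num)

lemma ql8_100 : (3173103 / 20000000 : ℝ) ≤ Q (1 : ℝ) :=
  Q_lb (by norm_num) (by norm_num [tay, tg, Finset.sum_range_succ, Nat.factorial]) (by norm_num [tay, tg, Finset.sum_range_succ, Nat.factorial])

lemma ql_100 {b : ℝ} (h : b ≤ (1 : ℝ)) : (3173 / 20000 : ℝ) ≤ Q b :=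
  le_trans (le_trans (by norm_num) ql8_100) (antitone_Q h)

lemma qu_100 {b : ℝ} (h : (1 : ℝ) ≤ b) : Q b ≤ (7933 / 50000 : ℝ) :=
  le_trans (antitone_Q h) (Q_ub (by norm_num) (by norm_num [tay, tg, Finset.sum_range_succ, Nat.factorial]) (by norm_num [tay, tg, Finset.sum_range_succ, Nat.factorial]))

lemma ju_100 : jf (1 : ℝ) ≤ (563 / 10000 : ℝ) :=
  jf_ub (eu := (30326533 / 50000000 : ℝ)) (by norm_num) (by norm_num) ql8_100 (exp_ub (by norm_num [tay, tg, Finset.sum_range_succ, Nat.factorial])) (by norm_num)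

lemma ql8_120 : (2301391 / 20000000 : ℝ) ≤ Q (6 / 5 : ℝ) :=
  Q_lb (by norm_num) (by norm_num [tay, tg, Finset.sum_range_succ, Nat.factorial]) (by norm_num [tay, tg, Finset.sum_range_succ, Nat.factorial])

lemma ql_120 {b : ℝ} (h : b ≤ (6 / 5 : ℝ)) : (5753 / 50000 : ℝ) ≤ Q b :=
  le_trans (le_trans (by norm_num) ql8_120) (antitone_Q h)

lemma qu_120 {b : ℝ} (h : (6 / 5 : ℝ) ≤ b) : Q b ≤ (11507 / 100000 : ℝ) :=
  le_trans (antitone_Q h) (Q_ub (by norm_num) (by norm_num [tay, tg, Finset.sum_range_succ, Nat.factorial]) (by norm_num [tay, tg, Finset.sum_range_succ, Nat.factorial]))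

lemma ju_120 : jf (6 / 5 : ℝ) ≤ (3043 / 100000 : ℝ) :=
  jf_ub (eu := (24337613 / 50000000 : ℝ)) (by norm_num) (by norm_num) ql8_120 (exp_ub (by norm_num [tay, tg, Finset.sum_range_succ, Nat.factorial])) (by norm_num)

lemma ql8_140 : (8075653 / 100000000 : ℝ) ≤ Q (7 / 5 : ℝ) :=
  Q_lb (by norm_num) (by norm_num [tay, tg, Finset.sum_range_succ, Nat.factorial]) (by norm_num [tay, tg, Finset.sum_range_succ, Nat.factorial])

lemma ql_140 {b : ℝ} (h : b ≤ (7 / 5 : ℝ)) : (323 / 4000 : ℝ) ≤ Q b :=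
  le_trans (le_trans (by norm_num) ql8_140) (antitone_Q h)

lemma qu_140 {b : ℝ} (h : (7 / 5 : ℝ) ≤ b) : Q b ≤ (2019 / 25000 : ℝ) :=
  le_trans (antitone_Q h) (Q_ub (by norm_num) (by norm_num [tay, tg, Finset.sum_range_succ, Nat.factorial]) (by norm_num [tay, tg, Finset.sum_range_succ, Nat.factorial]))

lemma ju_140 : jf (7 / 5 : ℝ) ≤ (767 / 50000 : ℝ) :=
  jf_ub (eu := (3753111 / 10000000 : ℝ)) (by norm_num) (by norm_num) ql8_140 (exp_ub (by norm_num [tay, tg, Finset.sum_range_succ, Nat.factorial])) (by norm_num)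

lemma ql8_170 : (1114133 / 25000000 : ℝ) ≤ Q (17 / 10 : ℝ) :=
  Q_lb (by norm_num) (by norm_num [tay, tg, Finset.sum_range_succ, Nat.factorial]) (by norm_num [tay, tg, Finset.sum_range_succ, Nat.factorial])

lemma ql_170 {b : ℝ} (h : b ≤ (17 / 10 : ℝ)) : (557 / 12500 : ℝ) ≤ Q b :=
  le_trans (le_trans (by norm_num) ql8_170) (antitone_Q h)

lemma qu_170 {b : ℝ} (h : (17 / 10 : ℝ) ≤ b) : Q b ≤ (4457 / 100000 : ℝ) :=
  le_trans (antitone_Q h) (Q_ub (by norm_num) (by norm_num [tay, tg, Finset.sum_range_succ, Nat.factorial]) (by norm_num [tay, tg, Finset.sum_range_succ, Nat.factorial]))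

lemma ju_170 : jf (17 / 10 : ℝ) ≤ (481 / 100000 : ℝ) :=
  jf_ub (eu := (2357461 / 10000000 : ℝ)) (by norm_num) (by norm_num) ql8_170 (exp_ub (by norm_num [tay, tg, Finset.sum_range_succ, Nat.factorial])) (by norm_num)

lemma ch_000_040 {b : ℝ} (h0 : (0 : ℝ) ≤ b) (h1 : b ≤ (2 / 5 : ℝ)) :
    jf b ≤ (-11147 / 50000 : ℝ) + (3337 / 2500 : ℝ) * Q b :=
  chord (by norm_num) (by linarith [ju_000, ql_000 le_rfl])
    (by linarith [ju_040, ql_040 le_rfl]) h0 h1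

lemma ch_000_050 {b : ℝ} (h0 : (0 : ℝ) ≤ b) (h1 : b ≤ (1 / 2 : ℝ)) :
    jf b ≤ (-10417 / 50000 : ℝ) + (816 / 625 : ℝ) * Q b :=
  chord (by norm_num) (by linarith [ju_000, ql_000 le_rfl])
    (by linarith [ju_050, ql_050 le_rfl]) h0 h1

lemma ch_000_060 {b : ℝ} (h0 : (0 : ℝ) ≤ b) (h1 : b ≤ (3 / 5 : ℝ)) :
    jf b ≤ (-19229 / 100000 : ℝ) + (2547 / 2000 : ℝ) * Q b :=
  chord (by norm_num) (by linarith [ju_000, ql_000 le_rfl])
    (by linarith [ju_060, ql_060 le_rfl]) h0 h1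

lemma ch_000_070 {b : ℝ} (h0 : (0 : ℝ) ≤ b) (h1 : b ≤ (7 / 10 : ℝ)) :
    jf b ≤ (-8767 / 50000 : ℝ) + (3099 / 2500 : ℝ) * Q b :=
  chord (by norm_num) (by linarith [ju_000, ql_000 le_rfl])
    (by linarith [ju_070, ql_070 le_rfl]) h0 h1

lemma ch_000_080 {b : ℝ} (h0 : (0 : ℝ) ≤ b) (h1 : b ≤ (4 / 5 : ℝ)) :
    jf b ≤ (-7901 / 50000 : ℝ) + (241 / 200 : ℝ) * Q b :=
  chord (by norm_num) (by linarith [ju_000, ql_000 le_rfl])
    (by linarith [ju_080, ql_080 le_rfl]) h0 h1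

lemma ch_000_100 {b : ℝ} (h0 : (0 : ℝ) ≤ b) (h1 : b ≤ (1 : ℝ)) :
    jf b ≤ (-12411 / 100000 : ℝ) + (2843 / 2500 : ℝ) * Q b :=
  chord (by norm_num) (by linarith [ju_000, ql_000 le_rfl])
    (by linarith [ju_100, ql_100 le_rfl]) h0 h1

lemma ch_000_120 {b : ℝ} (h0 : (0 : ℝ) ≤ b) (h1 : b ≤ (6 / 5 : ℝ)) :
    jf b ≤ (-2333 / 25000 : ℝ) + (2689 / 2500 : ℝ) * Q b :=
  chord (by norm_num) (by linarith [ju_000, ql_000 le_rfl])
    (by linarith [ju_120, ql_120 le_rfl]) h0 h1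

lemma ch_000_140 {b : ℝ} (h0 : (0 : ℝ) ≤ b) (h1 : b ≤ (7 / 5 : ℝ)) :
    jf b ≤ (-6731 / 100000 : ℝ) + (2559 / 2500 : ℝ) * Q b :=
  chord (by norm_num) (by linarith [ju_000, ql_000 le_rfl])
    (by linarith [ju_140, ql_140 le_rfl]) h0 h1

lemma ch_000_inf {b : ℝ} (h0 : (0 : ℝ) ≤ b) : jf b ≤ (8889 / 10000 : ℝ) * Q b :=
  chord_inf (by norm_num) (by linarith [ju_000, ql_000 le_rfl]) h0

lemma ch_040_050 {b : ℝ} (h0 : (2 / 5 : ℝ) ≤ b) (h1 : b ≤ (1 / 2 : ℝ)) :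
    jf b ≤ (-4239 / 25000 : ℝ) + (11799 / 10000 : ℝ) * Q b :=
  chord (by norm_num) (by linarith [ju_040, ql_040 le_rfl])
    (by linarith [ju_050, ql_050 le_rfl]) h0 h1

lemma ch_040_060 {b : ℝ} (h0 : (2 / 5 : ℝ) ≤ b) (h1 : b ≤ (3 / 5 : ℝ)) :
    jf b ≤ (-3879 / 25000 : ℝ) + (11381 / 10000 : ℝ) * Q b :=
  chord (by norm_num) (by linarith [ju_040, ql_040 le_rfl])
    (by linarith [ju_060, ql_060 le_rfl]) h0 h1

lemma ch_040_070 {b : ℝ} (h0 : (2 / 5 : ℝ) ≤ b) (h1 : b ≤ (7 / 10 : ℝ)) :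
    jf b ≤ (-14047 / 100000 : ℝ) + (2191 / 2000 : ℝ) * Q b :=
  chord (by norm_num) (by linarith [ju_040, ql_040 le_rfl])
    (by linarith [ju_070, ql_070 le_rfl]) h0 h1

lemma ch_040_080 {b : ℝ} (h0 : (2 / 5 : ℝ) ≤ b) (h1 : b ≤ (4 / 5 : ℝ)) :
    jf b ≤ (-629 / 5000 : ℝ) + (10529 / 10000 : ℝ) * Q b :=
  chord (by norm_num) (by linarith [ju_040, ql_040 le_rfl])
    (by linarith [ju_080, ql_080 le_rfl]) h0 h1

lemma ch_040_100 {b : ℝ} (h0 : (2 / 5 : ℝ) ≤ b) (h1 : b ≤ (1 : ℝ)) :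
    jf b ≤ (-9789 / 100000 : ℝ) + (9719 / 10000 : ℝ) * Q b :=
  chord (by norm_num) (by linarith [ju_040, ql_040 le_rfl])
    (by linarith [ju_100, ql_100 le_rfl]) h0 h1

lemma ch_040_inf {b : ℝ} (h0 : (2 / 5 : ℝ) ≤ b) : jf b ≤ (3439 / 5000 : ℝ) * Q b :=
  chord_inf (by norm_num) (by linarith [ju_040, ql_040 le_rfl]) h0

lemma ch_050_060 {b : ℝ} (h0 : (1 / 2 : ℝ) ≤ b) (h1 : b ≤ (3 / 5 : ℝ)) :
    jf b ≤ (-2863 / 20000 : ℝ) + (10943 / 10000 : ℝ) * Q b :=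
  chord (by norm_num) (by linarith [ju_050, ql_050 le_rfl])
    (by linarith [ju_060, ql_060 le_rfl]) h0 h1

lemma ch_050_070 {b : ℝ} (h0 : (1 / 2 : ℝ) ≤ b) (h1 : b ≤ (7 / 10 : ℝ)) :
    jf b ≤ (-12941 / 100000 : ℝ) + (5249 / 5000 : ℝ) * Q b :=
  chord (by norm_num) (by linarith [ju_050, ql_050 le_rfl])
    (by linarith [ju_070, ql_070 le_rfl]) h0 h1

lemma ch_050_080 {b : ℝ} (h0 : (1 / 2 : ℝ) ≤ b) (h1 : b ≤ (4 / 5 : ℝ)) :
    jf b ≤ (-5789 / 50000 : ℝ) + (1257 / 1250 : ℝ) * Q b :=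
  chord (by norm_num) (by linarith [ju_050, ql_050 le_rfl])
    (by linarith [ju_080, ql_080 le_rfl]) h0 h1

lemma ch_050_100 {b : ℝ} (h0 : (1 / 2 : ℝ) ≤ b) (h1 : b ≤ (1 : ℝ)) :
    jf b ≤ (-1799 / 20000 : ℝ) + (9219 / 10000 : ℝ) * Q b :=
  chord (by norm_num) (by linarith [ju_050, ql_050 le_rfl])
    (by linarith [ju_100, ql_100 le_rfl]) h0 h1

lemma ch_050_140 {b : ℝ} (h0 : (1 / 2 : ℝ) ≤ b) (h1 : b ≤ (7 / 5 : ℝ)) :
    jf b ≤ (-301 / 6250 : ℝ) + (1573 / 2000 : ℝ) * Q b :=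
  chord (by norm_num) (by linarith [ju_050, ql_050 le_rfl])
    (by linarith [ju_140, ql_140 le_rfl]) h0 h1

lemma ch_050_inf {b : ℝ} (h0 : (1 / 2 : ℝ) ≤ b) : jf b ≤ (394 / 625 : ℝ) * Q b :=
  chord_inf (by norm_num) (by linarith [ju_050, ql_050 le_rfl]) h0

lemma ch_060_070 {b : ℝ} (h0 : (3 / 5 : ℝ) ≤ b) (h1 : b ≤ (7 / 10 : ℝ)) :
    jf b ≤ (-11797 / 100000 : ℝ) + (401 / 400 : ℝ) * Q b :=
  chord (by norm_num) (by linarith [ju_060, ql_060 le_rfl])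
    (by linarith [ju_070, ql_070 le_rfl]) h0 h1

lemma ch_060_080 {b : ℝ} (h0 : (3 / 5 : ℝ) ≤ b) (h1 : b ≤ (4 / 5 : ℝ)) :
    jf b ≤ (-5273 / 50000 : ℝ) + (9569 / 10000 : ℝ) * Q b :=
  chord (by norm_num) (by linarith [ju_060, ql_060 le_rfl])
    (by linarith [ju_080, ql_080 le_rfl]) h0 h1

lemma ch_060_100 {b : ℝ} (h0 : (3 / 5 : ℝ) ≤ b) (h1 : b ≤ (1 : ℝ)) :
    jf b ≤ (-1637 / 20000 : ℝ) + (2177 / 2500 : ℝ) * Q b :=
  chord (by norm_num) (by linarith [ju_060, ql_060 le_rfl])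
    (by linarith [ju_100, ql_100 le_rfl]) h0 h1

lemma ch_060_inf {b : ℝ} (h0 : (3 / 5 : ℝ) ≤ b) : jf b ≤ (1431 / 2500 : ℝ) * Q b :=
  chord_inf (by norm_num) (by linarith [ju_060, ql_060 le_rfl]) h0

lemma ch_070_080 {b : ℝ} (h0 : (7 / 10 : ℝ) ≤ b) (h1 : b ≤ (4 / 5 : ℝ)) :
    jf b ≤ (-9513 / 100000 : ℝ) + (9081 / 10000 : ℝ) * Q b :=
  chord (by norm_num) (by linarith [ju_070, ql_070 le_rfl])
    (by linarith [ju_080, ql_080 le_rfl]) h0 h1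

lemma ch_070_100 {b : ℝ} (h0 : (7 / 10 : ℝ) ≤ b) (h1 : b ≤ (1 : ℝ)) :
    jf b ≤ (-461 / 6250 : ℝ) + (4099 / 5000 : ℝ) * Q b :=
  chord (by norm_num) (by linarith [ju_070, ql_070 le_rfl])
    (by linarith [ju_100, ql_100 le_rfl]) h0 h1

lemma ch_070_120 {b : ℝ} (h0 : (7 / 10 : ℝ) ≤ b) (h1 : b ≤ (6 / 5 : ℝ)) :
    jf b ≤ (-1099 / 20000 : ℝ) + (7421 / 10000 : ℝ) * Q b :=
  chord (by norm_num) (by linarith [ju_070, ql_070 le_rfl])
    (by linarith [ju_120, ql_120 le_rfl]) h0 h1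

lemma ch_070_140 {b : ℝ} (h0 : (7 / 10 : ℝ) ≤ b) (h1 : b ≤ (7 / 5 : ℝ)) :
    jf b ≤ (-1969 / 50000 : ℝ) + (6777 / 10000 : ℝ) * Q b :=
  chord (by norm_num) (by linarith [ju_070, ql_070 le_rfl])
    (by linarith [ju_140, ql_140 le_rfl]) h0 h1

lemma ch_070_170 {b : ℝ} (h0 : (7 / 10 : ℝ) ≤ b) (h1 : b ≤ (17 / 10 : ℝ)) :
    jf b ≤ (-1111 / 50000 : ℝ) + (1517 / 2500 : ℝ) * Q b :=
  chord (by norm_num) (by linarith [ju_070, ql_070 le_rfl])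
    (by linarith [ju_170, ql_170 le_rfl]) h0 h1

lemma ch_070_inf {b : ℝ} (h0 : (7 / 10 : ℝ) ≤ b) : jf b ≤ (103 / 200 : ℝ) * Q b :=
  chord_inf (by norm_num) (by linarith [ju_070, ql_070 le_rfl]) h0

lemma ch_080_100 {b : ℝ} (h0 : (4 / 5 : ℝ) ≤ b) (h1 : b ≤ (1 : ℝ)) :
    jf b ≤ (-3291 / 50000 : ℝ) + (3849 / 5000 : ℝ) * Q b :=
  chord (by norm_num) (by linarith [ju_080, ql_080 le_rfl])
    (by linarith [ju_100, ql_100 le_rfl]) h0 h1

lemma ch_080_120 {b : ℝ} (h0 : (4 / 5 : ℝ) ≤ b) (h1 : b ≤ (6 / 5 : ℝ)) :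
    jf b ≤ (-49 / 1000 : ℝ) + (863 / 1250 : ℝ) * Q b :=
  chord (by norm_num) (by linarith [ju_080, ql_080 le_rfl])
    (by linarith [ju_120, ql_120 le_rfl]) h0 h1

lemma ch_080_140 {b : ℝ} (h0 : (4 / 5 : ℝ) ≤ b) (h1 : b ≤ (7 / 5 : ℝ)) :
    jf b ≤ (-3511 / 100000 : ℝ) + (781 / 1250 : ℝ) * Q b :=
  chord (by norm_num) (by linarith [ju_080, ql_080 le_rfl])
    (by linarith [ju_140, ql_140 le_rfl]) h0 h1

lemma ch_080_170 {b : ℝ} (h0 : (4 / 5 : ℝ) ≤ b) (h1 : b ≤ (17 / 10 : ℝ)) :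
    jf b ≤ (-1981 / 100000 : ℝ) + (2763 / 5000 : ℝ) * Q b :=
  chord (by norm_num) (by linarith [ju_080, ql_080 le_rfl])
    (by linarith [ju_170, ql_170 le_rfl]) h0 h1

lemma ch_080_inf {b : ℝ} (h0 : (4 / 5 : ℝ) ≤ b) : jf b ≤ (4591 / 10000 : ℝ) * Q b :=
  chord_inf (by norm_num) (by linarith [ju_080, ql_080 le_rfl]) h0

lemma ch_100_120 {b : ℝ} (h0 : (1 : ℝ) ≤ b) (h1 : b ≤ (6 / 5 : ℝ)) :
    jf b ≤ (-757 / 20000 : ℝ) + (1187 / 2000 : ℝ) * Q b :=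
  chord (by norm_num) (by linarith [ju_100, ql_100 le_rfl])
    (by linarith [ju_120, ql_120 le_rfl]) h0 h1

lemma ch_100_140 {b : ℝ} (h0 : (1 : ℝ) ≤ b) (h1 : b ≤ (7 / 5 : ℝ)) :
    jf b ≤ (-339 / 12500 : ℝ) + (5259 / 10000 : ℝ) * Q b :=
  chord (by norm_num) (by linarith [ju_100, ql_100 le_rfl])
    (by linarith [ju_140, ql_140 le_rfl]) h0 h1

lemma ch_100_inf {b : ℝ} (h0 : (1 : ℝ) ≤ b) : jf b ≤ (3549 / 10000 : ℝ) * Q b :=
  chord_inf (by norm_num) (by linarith [ju_100, ql_100 le_rfl]) h0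

lemma ch_120_170 {b : ℝ} (h0 : (6 / 5 : ℝ) ≤ b) (h1 : b ≤ (17 / 10 : ℝ)) :
    jf b ≤ (-569 / 50000 : ℝ) + (727 / 2000 : ℝ) * Q b :=
  chord (by norm_num) (by linarith [ju_120, ql_120 le_rfl])
    (by linarith [ju_170, ql_170 le_rfl]) h0 h1

lemma ch_120_inf {b : ℝ} (h0 : (6 / 5 : ℝ) ≤ b) : jf b ≤ (529 / 2000 : ℝ) * Q b :=
  chord_inf (by norm_num) (by linarith [ju_120, ql_120 le_rfl]) h0

lemma ch_140_inf {b : ℝ} (h0 : (7 / 5 : ℝ) ≤ b) : jf b ≤ (19 / 100 : ℝ) * Q b :=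
  chord_inf (by norm_num) (by linarith [ju_140, ql_140 le_rfl]) h0

lemma ch_170_inf {b : ℝ} (h0 : (17 / 10 : ℝ) ≤ b) : jf b ≤ (27 / 250 : ℝ) * Q b :=
  chord_inf (by norm_num) (by linarith [ju_170, ql_170 le_rfl]) h0

lemma it_020 {b : ℝ} (hb : 0 ≤ b) : isf b ≤ (2433 / 10000 : ℝ) + (273 / 625 : ℝ) * Q b :=
  itan (b0 := (1 / 5 : ℝ)) (el := (98019867 / 100000000 : ℝ)) (eu := (24504967 / 25000000 : ℝ)) (ql := (21037013 / 50000000 : ℝ)) (by norm_num) (by norm_num)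
    (by norm_num) (by norm_num) (exp_lb (by norm_num [tay, tg, Finset.sum_range_succ, Nat.factorial])) (exp_ub (by norm_num [tay, tg, Finset.sum_range_succ, Nat.factorial])) (by norm_num)
    (Q_lb (by norm_num) (by norm_num [tay, tg, Finset.sum_range_succ, Nat.factorial]) (by norm_num [tay, tg, Finset.sum_range_succ, Nat.factorial])) (by norm_num) (by norm_num) hb

lemma it_035 {b : ℝ} (hb : 0 ≤ b) : isf b ≤ (1269 / 10000 : ℝ) + (917 / 1250 : ℝ) * Q b :=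
  itan (b0 := (7 / 20 : ℝ)) (el := (47029403 / 50000000 : ℝ)) (eu := (94058807 / 100000000 : ℝ)) (ql := (3631693 / 10000000 : ℝ)) (by norm_num) (by norm_num)
    (by norm_num) (by norm_num) (exp_lb (by norm_num [tay, tg, Finset.sum_range_succ, Nat.factorial])) (exp_ub (by norm_num [tay, tg, Finset.sum_range_succ, Nat.factorial])) (by norm_num)
    (Q_lb (by norm_num) (by norm_num [tay, tg, Finset.sum_range_succ, Nat.factorial]) (by norm_num [tay, tg, Finset.sum_range_succ, Nat.factorial])) (by norm_num) (by norm_num) hb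

lemma it_050 {b : ℝ} (hb : 0 ≤ b) : isf b ≤ (107 / 2500 : ℝ) + (1229 / 1250 : ℝ) * Q b :=
  itan (b0 := (1 / 2 : ℝ)) (el := (8824969 / 10000000 : ℝ)) (eu := (88249691 / 100000000 : ℝ)) (ql := (7713437 / 25000000 : ℝ)) (by norm_num) (by norm_num)
    (by norm_num) (by norm_num) (exp_lb (by norm_num [tay, tg, Finset.sum_range_succ, Nat.factorial])) (exp_ub (by norm_num [tay, tg, Finset.sum_range_succ, Nat.factorial])) (by norm_num)
    (Q_lb (by norm_num) (by norm_num [tay, tg, Finset.sum_range_succ, Nat.factorial]) (by norm_num [tay, tg, Finset.sum_range_succ, Nat.factorial])) (by norm_num) (by norm_num) hb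

end Vale.Agent.P226
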