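import Vale.Agent.P226.Grid

/-! The final linear programs, four cells (generated). -/

open MeasureTheory ProbabilityTheory Set Filter Topology Real

set_option linter.unusedVariables false

namespace Vale.Agent.P226

structure Base4 (s1 s2 s3 s4 c12 c13 c14 c23 c24 c34 d12 d13 d14 d23 d24 d34 x1 x2 x3 p1 p2 p3 p4 j1 j2 j3 j4 : ℝ) : Prop where
  sum : s1 + s2 + s3 + s4 = 1
  psum : p1 + p2 + p3 + p4 ≤ 1
  nc12 : 0 ≤ c12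
  nc13 : 0 ≤ c13
  nc14 : 0 ≤ c14
  nc23 : 0 ≤ c23
  nc24 : 0 ≤ c24
  nc34 : 0 ≤ c34
  nd12 : 0 ≤ d12
  nd13 : 0 ≤ d13
  nd14 : 0 ≤ d14
  nd23 : 0 ≤ d23
  nd24 : 0 ≤ d24
  nd34 : 0 ≤ d34
  nj1 : 0 ≤ j1
  nj2 : 0 ≤ j2
  nj3 : 0 ≤ j3
  nj4 : 0 ≤ j4
  r1 : s1 = c12 + c13 + c14
  f1 : 3 - (d23 + d24 + d34) ≤ 4 * j1
  r2 : s2 = c12 + c23 + c24
  f2 : 3 - (d13 + d14 + d34) ≤ 4 * j2
  r3 : s3 = c13 + c23 + c34
  f3 : 3 - (d12 + d14 + d24) ≤ 4 * j3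
  r4 : s4 = c14 + c24 + c34
  f4 : 3 - (d12 + d13 + d23) ≤ 4 * j4
  xs1 : x1 = s1 - c14
  xs2 : x2 = s2 - c24
  xs3 : x3 = s3 - c34
  o1 : p2 ≤ p1
  o2 : p3 ≤ p2
  o3 : p4 ≤ p3
  d3 : (5483 / 5000 : ℝ) * heron x1 x2 x3 ≤ s4
  i1_020 : s1 ≤ (2433 / 10000 : ℝ) + (273 / 625 : ℝ) * p1
  i1_035 : s1 ≤ (1269 / 10000 : ℝ) + (917 / 1250 : ℝ) * p1
  i1_050 : s1 ≤ (107 / 2500 : ℝ) + (1229 / 1250 : ℝ) * p1
  i2_020 : s2 ≤ (2433 / 10000 : ℝ) + (273 / 625 : ℝ) * p2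
  i2_035 : s2 ≤ (1269 / 10000 : ℝ) + (917 / 1250 : ℝ) * p2
  i2_050 : s2 ≤ (107 / 2500 : ℝ) + (1229 / 1250 : ℝ) * p2
  i3_020 : s3 ≤ (2433 / 10000 : ℝ) + (273 / 625 : ℝ) * p3
  i3_035 : s3 ≤ (1269 / 10000 : ℝ) + (917 / 1250 : ℝ) * p3
  i3_050 : s3 ≤ (107 / 2500 : ℝ) + (1229 / 1250 : ℝ) * p3
  i4_020 : s4 ≤ (2433 / 10000 : ℝ) + (273 / 625 : ℝ) * p4
  i4_035 : s4 ≤ (1269 / 10000 : ℝ) + (917 / 1250 : ℝ) * p4
  i4_050 : s4 ≤ (107 / 2500 : ℝ) + (1229 / 1250 : ℝ) * p4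
  g12_055 : 2 * (11 / 20 : ℝ) * d12 ≤ s1 + s2 + 2 * c12 + (11 / 20 : ℝ) ^ 2
  g12_070 : 2 * (7 / 10 : ℝ) * d12 ≤ s1 + s2 + 2 * c12 + (7 / 10 : ℝ) ^ 2
  g12_082 : 2 * (41 / 50 : ℝ) * d12 ≤ s1 + s2 + 2 * c12 + (41 / 50 : ℝ) ^ 2
  g12_095 : 2 * (19 / 20 : ℝ) * d12 ≤ s1 + s2 + 2 * c12 + (19 / 20 : ℝ) ^ 2
  g13_055 : 2 * (11 / 20 : ℝ) * d13 ≤ s1 + s3 + 2 * c13 + (11 / 20 : ℝ) ^ 2
  g13_070 : 2 * (7 / 10 : ℝ) * d13 ≤ s1 + s3 + 2 * c13 + (7 / 10 : ℝ) ^ 2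
  g13_082 : 2 * (41 / 50 : ℝ) * d13 ≤ s1 + s3 + 2 * c13 + (41 / 50 : ℝ) ^ 2
  g13_095 : 2 * (19 / 20 : ℝ) * d13 ≤ s1 + s3 + 2 * c13 + (19 / 20 : ℝ) ^ 2
  g14_055 : 2 * (11 / 20 : ℝ) * d14 ≤ s1 + s4 + 2 * c14 + (11 / 20 : ℝ) ^ 2
  g14_070 : 2 * (7 / 10 : ℝ) * d14 ≤ s1 + s4 + 2 * c14 + (7 / 10 : ℝ) ^ 2
  g14_082 : 2 * (41 / 50 : ℝ) * d14 ≤ s1 + s4 + 2 * c14 + (41 / 50 : ℝ) ^ 2
  g14_095 : 2 * (19 / 20 : ℝ) * d14 ≤ s1 + s4 + 2 * c14 + (19 / 20 : ℝ) ^ 2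
  g23_055 : 2 * (11 / 20 : ℝ) * d23 ≤ s2 + s3 + 2 * c23 + (11 / 20 : ℝ) ^ 2
  g23_070 : 2 * (7 / 10 : ℝ) * d23 ≤ s2 + s3 + 2 * c23 + (7 / 10 : ℝ) ^ 2
  g23_082 : 2 * (41 / 50 : ℝ) * d23 ≤ s2 + s3 + 2 * c23 + (41 / 50 : ℝ) ^ 2
  g23_095 : 2 * (19 / 20 : ℝ) * d23 ≤ s2 + s3 + 2 * c23 + (19 / 20 : ℝ) ^ 2
  g24_055 : 2 * (11 / 20 : ℝ) * d24 ≤ s2 + s4 + 2 * c24 + (11 / 20 : ℝ) ^ 2
  g24_070 : 2 * (7 / 10 : ℝ) * d24 ≤ s2 + s4 + 2 * c24 + (7 / 10 : ℝ) ^ 2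
  g24_082 : 2 * (41 / 50 : ℝ) * d24 ≤ s2 + s4 + 2 * c24 + (41 / 50 : ℝ) ^ 2
  g24_095 : 2 * (19 / 20 : ℝ) * d24 ≤ s2 + s4 + 2 * c24 + (19 / 20 : ℝ) ^ 2
  g34_055 : 2 * (11 / 20 : ℝ) * d34 ≤ s3 + s4 + 2 * c34 + (11 / 20 : ℝ) ^ 2
  g34_070 : 2 * (7 / 10 : ℝ) * d34 ≤ s3 + s4 + 2 * c34 + (7 / 10 : ℝ) ^ 2
  g34_082 : 2 * (41 / 50 : ℝ) * d34 ≤ s3 + s4 + 2 * c34 + (41 / 50 : ℝ) ^ 2
  g34_095 : 2 * (19 / 20 : ℝ) * d34 ≤ s3 + s4 + 2 * c34 + (19 / 20 : ℝ) ^ 2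

lemma leaf4_1 {s1 s2 s3 s4 c12 c13 c14 c23 c24 c34 d12 d13 d14 d23 d24 d34 x1 x2 x3 p1 p2 p3 p4 j1 j2 j3 j4 : ℝ} (h : Base4 s1 s2 s3 s4 c12 c13 c14 c23 c24 c34 d12 d13 d14 d23 d24 d34 x1 x2 x3 p1 p2 p3 p4 j1 j2 j3 j4)
    (c1 : j1 ≤ (-8767 / 50000 : ℝ) + (3099 / 2500 : ℝ) * p1) (l1 : (6049 / 25000 : ℝ) ≤ p1) (u1 : p1 ≤ (1 / 2 : ℝ))
    (c2 : j2 ≤ (-8767 / 50000 : ℝ) + (3099 / 2500 : ℝ) * p2) (l2 : (6049 / 25000 : ℝ) ≤ p2) (u2 : p2 ≤ (1 / 2 : ℝ))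
    (c3 : j3 ≤ (-8767 / 50000 : ℝ) + (3099 / 2500 : ℝ) * p3) (l3 : (6049 / 25000 : ℝ) ≤ p3) (u3 : p3 ≤ (1 / 2 : ℝ))
    (c4 : j4 ≤ (-8767 / 50000 : ℝ) + (3099 / 2500 : ℝ) * p4) (l4 : (6049 / 25000 : ℝ) ≤ p4) (u4 : p4 ≤ (1 / 2 : ℝ))
    : False := by
  obtain ⟨hsum, hpsum, hnc12, hnc13, hnc14, hnc23, hnc24, hnc34, hnd12, hnd13, hnd14, hnd23, hnd24, hnd34, hnj1, hnj2, hnj3, hnj4, hr1, hf1, hr2, hf2, hr3, hf3, hr4, hf4, hxs1, hxs2, hxs3, ho1, ho2, ho3, hd3, hi1_020, hi1_035, hi1_050, hi2_020, hi2_035, hi2_050, hi3_020, hi3_035, hi3_050, hi4_020, hi4_035, hi4_050, hg12_055, hg12_070, hg12_082, hg12_095, hg13_055, hg13_070, hg13_082, hg13_095, hg14_055, hg14_070, hg14_082, hg14_095, hg23_055, hg23_070, hg23_082, hg23_095, hg24_055, hg24_070, hg24_082, hg24_095, hg34_055, hg34_070, hg34_082, hg34_095⟩ := h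
  linarith only [hsum, hpsum, hr1, hf1, hr2, hf2, hr3, hf3, hr4, hf4, hg12_082, hg13_082, hg14_082, hg23_082, hg24_082, hg34_082, c1, c2, c3, c4]

lemma leaf4_2 {s1 s2 s3 s4 c12 c13 c14 c23 c24 c34 d12 d13 d14 d23 d24 d34 x1 x2 x3 p1 p2 p3 p4 j1 j2 j3 j4 : ℝ} (h : Base4 s1 s2 s3 s4 c12 c13 c14 c23 c24 c34 d12 d13 d14 d23 d24 d34 x1 x2 x3 p1 p2 p3 p4 j1 j2 j3 j4)
    (c1 : j1 ≤ (-11147 / 50000 : ℝ) + (3337 / 2500 : ℝ) * p1) (l1 : (34457 / 100000 : ℝ) ≤ p1) (u1 : p1 ≤ (1 / 2 : ℝ))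
    (c2 : j2 ≤ (-11147 / 50000 : ℝ) + (3337 / 2500 : ℝ) * p2) (l2 : (34457 / 100000 : ℝ) ≤ p2) (u2 : p2 ≤ (1 / 2 : ℝ))
    (c3 : j3 ≤ (-11147 / 50000 : ℝ) + (3337 / 2500 : ℝ) * p3) (l3 : (34457 / 100000 : ℝ) ≤ p3) (u3 : p3 ≤ (1 / 2 : ℝ))
    (c4 : j4 ≤ (103 / 200 : ℝ) * p4) (l4 : (0 : ℝ) ≤ p4) (u4 : p4 ≤ (24197 / 100000 : ℝ))
    : False := by
  obtain ⟨hsum, hpsum, hnc12, hnc13, hnc14, hnc23, hnc24, hnc34, hnd12, hnd13, hnd14, hnd23, hnd24, hnd34, hnj1, hnj2, hnj3, hnj4, hr1, hf1, hr2, hf2, hr3, hf3, hr4, hf4, hxs1, hxs2, hxs3, ho1, ho2, ho3, hd3, hi1_020, hi1_035, hi1_050, hi2_020, hi2_035, hi2_050, hi3_020, hi3_035, hi3_050, hi4_020, hi4_035, hi4_050, hg12_055, hg12_070, hg12_082, hg12_095, hg13_055, hg13_070, hg13_082, hg13_095, hg14_055, hg14_070, hg14_082, hg14_095, hg23_055, hg23_070, hg23_082, hg23_095, hg24_055,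 hg24_070, hg24_082, hg24_095, hg34_055, hg34_070, hg34_082, hg34_095⟩ := h
  linarith only [hpsum, l1, l2, l3, l4]

lemma leaf4_3 {s1 s2 s3 s4 c12 c13 c14 c23 c24 c34 d12 d13 d14 d23 d24 d34 x1 x2 x3 p1 p2 p3 p4 j1 j2 j3 j4 : ℝ} (h : Base4 s1 s2 s3 s4 c12 c13 c14 c23 c24 c34 d12 d13 d14 d23 d24 d34 x1 x2 x3 p1 p2 p3 p4 j1 j2 j3 j4)
    (c1 : j1 ≤ (-8767 / 50000 : ℝ) + (3099 / 2500 : ℝ) * p1) (l1 : (6049 / 25000 : ℝ) ≤ p1) (u1 : p1 ≤ (1 / 2 : ℝ))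
    (c2 : j2 ≤ (-8767 / 50000 : ℝ) + (3099 / 2500 : ℝ) * p2) (l2 : (6049 / 25000 : ℝ) ≤ p2) (u2 : p2 ≤ (1 / 2 : ℝ))
    (c3 : j3 ≤ (-14047 / 100000 : ℝ) + (2191 / 2000 : ℝ) * p3) (l3 : (6049 / 25000 : ℝ) ≤ p3) (u3 : p3 ≤ (17229 / 50000 : ℝ))
    (c4 : j4 ≤ (-9513 / 100000 : ℝ) + (9081 / 10000 : ℝ) * p4) (l4 : (4237 / 20000 : ℝ) ≤ p4) (u4 : p4 ≤ (24197 / 100000 : ℝ))
    : False := by
  obtain ⟨hsum, hpsum, hnc12, hnc13, hnc14, hnc23, hnc24, hnc34, hnd12, hnd13, hnd14, hnd23, hnd24, hnd34, hnj1, hnj2, hnj3, hnj4, hr1, hf1, hr2, hf2, hr3, hf3, hr4, hf4, hxs1, hxs2, hxs3, ho1, ho2, ho3, hd3, hi1_020, hi1_035, hi1_050, hi2_020, hi2_035, hi2_050, hi3_020, hi3_035, hi3_050, hi4_020, hi4_035, hi4_050, hg12_055, hg12_070, hg12_082, hg12_095, hg13_055, hg13_070, hg13_082, hg13_095, hg14_055, hg14_070, hg14_082, hg14_095, hg23_055,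 hg23_070, hg23_082, hg23_095, hg24_055, hg24_070, hg24_082, hg24_095, hg34_055, hg34_070, hg34_082, hg34_095⟩ := h
  linarith only [hsum, hpsum, hr1, hf1, hr2, hf2, hr3, hf3, hr4, hf4, hg12_082, hg12_095, hg13_082, hg14_082, hg23_082, hg24_082, hg34_070, hg34_082, c1, c2, c3, c4, l4]

lemma leaf4_4 {s1 s2 s3 s4 c12 c13 c14 c23 c24 c34 d12 d13 d14 d23 d24 d34 x1 x2 x3 p1 p2 p3 p4 j1 j2 j3 j4 : ℝ} (h : Base4 s1 s2 s3 s4 c12 c13 c14 c23 c24 c34 d12 d13 d14 d23 d24 d34 x1 x2 x3 p1 p2 p3 p4 j1 j2 j3 j4)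
    (c1 : j1 ≤ (-19229 / 100000 : ℝ) + (2547 / 2000 : ℝ) * p1) (l1 : (1097 / 4000 : ℝ) ≤ p1) (u1 : p1 ≤ (1 / 2 : ℝ))
    (c2 : j2 ≤ (-8767 / 50000 : ℝ) + (3099 / 2500 : ℝ) * p2) (l2 : (6049 / 25000 : ℝ) ≤ p2) (u2 : p2 ≤ (1 / 2 : ℝ))
    (c3 : j3 ≤ (-14047 / 100000 : ℝ) + (2191 / 2000 : ℝ) * p3) (l3 : (6049 / 25000 : ℝ) ≤ p3) (u3 : p3 ≤ (17229 / 50000 : ℝ))
    (c4 : j4 ≤ (-3291 / 50000 : ℝ) + (3849 / 5000 : ℝ) * p4) (l4 : (3173 / 20000 : ℝ) ≤ p4) (u4 : p4 ≤ (10593 / 50000 : ℝ))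
    : False := by
  obtain ⟨hsum, hpsum, hnc12, hnc13, hnc14, hnc23, hnc24, hnc34, hnd12, hnd13, hnd14, hnd23, hnd24, hnd34, hnj1, hnj2, hnj3, hnj4, hr1, hf1, hr2, hf2, hr3, hf3, hr4, hf4, hxs1, hxs2, hxs3, ho1, ho2, ho3, hd3, hi1_020, hi1_035, hi1_050, hi2_020, hi2_035, hi2_050, hi3_020, hi3_035, hi3_050, hi4_020, hi4_035, hi4_050, hg12_055, hg12_070, hg12_082, hg12_095, hg13_055, hg13_070, hg13_082, hg13_095, hg14_055, hg14_070, hg14_082, hg14_095, hg23_055, hg23_070, hg23_082, hg23_095, hg24_055, hg24_070, hg24_082, hg24_095, hg34_055, hg34_070, hg34_082, hg34_095⟩ := h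
  linarith only [hsum, hpsum, hr1, hf1, hr2, hf2, hr3, hf3, hr4, hf4, hg12_095, hg13_082, hg13_095, hg14_070, hg14_082, hg23_082, hg23_095, hg24_070, hg24_082, hg34_055, hg34_070, c1, c2, c3, c4]

lemma leaf4_5 {s1 s2 s3 s4 c12 c13 c14 c23 c24 c34 d12 d13 d14 d23 d24 d34 x1 x2 x3 p1 p2 p3 p4 j1 j2 j3 j4 : ℝ} (h : Base4 s1 s2 s3 s4 c12 c13 c14 c23 c24 c34 d12 d13 d14 d23 d24 d34 x1 x2 x3 p1 p2 p3 p4 j1 j2 j3 j4)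
    (c1 : j1 ≤ (-19229 / 100000 : ℝ) + (2547 / 2000 : ℝ) * p1) (l1 : (1097 / 4000 : ℝ) ≤ p1) (u1 : p1 ≤ (1 / 2 : ℝ))
    (c2 : j2 ≤ (-19229 / 100000 : ℝ) + (2547 / 2000 : ℝ) * p2) (l2 : (1097 / 4000 : ℝ) ≤ p2) (u2 : p2 ≤ (1 / 2 : ℝ))
    (c3 : j3 ≤ (-14047 / 100000 : ℝ) + (2191 / 2000 : ℝ) * p3) (l3 : (6049 / 25000 : ℝ) ≤ p3) (u3 : p3 ≤ (17229 / 50000 : ℝ))
    (c4 : j4 ≤ (-757 / 20000 : ℝ) + (1187 / 2000 : ℝ) * p4) (l4 : (5753 / 50000 : ℝ) ≤ p4) (u4 : p4 ≤ (7933 / 50000 : ℝ))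
    : False := by
  obtain ⟨hsum, hpsum, hnc12, hnc13, hnc14, hnc23, hnc24, hnc34, hnd12, hnd13, hnd14, hnd23, hnd24, hnd34, hnj1, hnj2, hnj3, hnj4, hr1, hf1, hr2, hf2, hr3, hf3, hr4, hf4, hxs1, hxs2, hxs3, ho1, ho2, ho3, hd3, hi1_020, hi1_035, hi1_050, hi2_020, hi2_035, hi2_050, hi3_020, hi3_035, hi3_050, hi4_020, hi4_035, hi4_050, hg12_055, hg12_070, hg12_082, hg12_095, hg13_055, hg13_070, hg13_082, hg13_095, hg14_055, hg14_070, hg14_082, hg14_095, hg23_055, hg23_070, hg23_082, hg23_095, hg24_055, hg24_070, hg24_082, hg24_095, hg34_055, hg34_070, hg34_082, hg34_095⟩ := h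
  linarith only [hsum, hpsum, hr1, hf1, hr2, hf2, hr3, hf3, hr4, hf4, hi1_050, hi2_050, hg12_095, hg13_095, hg14_070, hg23_095, hg24_070, hg34_055, hg34_070, c1, c2, c3, c4, l4]

lemma leaf4_6 {s1 s2 s3 s4 c12 c13 c14 c23 c24 c34 d12 d13 d14 d23 d24 d34 x1 x2 x3 p1 p2 p3 p4 j1 j2 j3 j4 : ℝ} (h : Base4 s1 s2 s3 s4 c12 c13 c14 c23 c24 c34 d12 d13 d14 d23 d24 d34 x1 x2 x3 p1 p2 p3 p4 j1 j2 j3 j4)
    (c1 : j1 ≤ (-10417 / 50000 : ℝ) + (816 / 625 : ℝ) * p1) (l1 : (30853 / 100000 : ℝ) ≤ p1) (u1 : p1 ≤ (1 / 2 : ℝ))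
    (c2 : j2 ≤ (-19229 / 100000 : ℝ) + (2547 / 2000 : ℝ) * p2) (l2 : (1097 / 4000 : ℝ) ≤ p2) (u2 : p2 ≤ (1 / 2 : ℝ))
    (c3 : j3 ≤ (-14047 / 100000 : ℝ) + (2191 / 2000 : ℝ) * p3) (l3 : (6049 / 25000 : ℝ) ≤ p3) (u3 : p3 ≤ (17229 / 50000 : ℝ))
    (c4 : j4 ≤ (529 / 2000 : ℝ) * p4) (l4 : (0 : ℝ) ≤ p4) (u4 : p4 ≤ (11507 / 100000 : ℝ))
    : False := by
  obtain ⟨hsum, hpsum, hnc12, hnc13, hnc14, hnc23, hnc24, hnc34, hnd12, hnd13, hnd14, hnd23, hnd24, hnd34, hnj1, hnj2, hnj3, hnj4, hr1, hf1, hr2, hf2, hr3, hf3, hr4, hf4, hxs1, hxs2, hxs3, ho1, ho2, ho3, hd3, hi1_020, hi1_035, hi1_050, hi2_020, hi2_035, hi2_050, hi3_020, hi3_035, hi3_050, hi4_020, hi4_035, hi4_050, hg12_055, hg12_070, hg12_082, hg12_095, hg13_055, hg13_070, hg13_082, hg13_095, hg14_055, hg14_070, hg14_082, hg14_095, hg23_055, hg23_070, hg23_082, hg23_095,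 hg24_055, hg24_070, hg24_082, hg24_095, hg34_055, hg34_070, hg34_082, hg34_095⟩ := h
  have hd0 := heron_lin (x := x1) (y := x2) (z := x3) (9 / 10 : ℝ) (257 / 1000 : ℝ) (213 / 500 : ℝ) (243 / 1000 : ℝ) (203 / 500 : ℝ) (87 / 500 : ℝ) (179 / 500 : ℝ)
    (by linarith only [hsum, hpsum, hnc24, hnc34, hr1, hr2, hf2, hr3, hf3, hr4, hf4, hxs1, ho1, ho2, hg12_095, hg13_095, hg14_055, hg14_070, hg23_095, hg24_055, hg34_055, c2, c3, c4])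
    (by linarith only [hsum, hpsum, hnc14, hnc24, hnc34, hr1, hr2, hf2, hr3, hf3, hr4, hf4, hxs1, hi1_020, hi2_035, hg12_095, hg13_095, hg14_070, hg23_082, hg24_055, hg34_055, c2, c3, c4])
    (by linarith only [hsum, hpsum, hnc14, hnc34, hr1, hf1, hr2, hf2, hr3, hf3, hr4, hf4, hxs2, ho2, hi1_050, hg12_095, hg13_095, hg14_070, hg23_082, hg24_070, hg34_055, c1, c2, c3, c4])
    (by linarith only [hpsum, hnc24, hxs2, ho1, hi2_035, l3, l4])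
    (by linarith only [hsum, hpsum, hnc14, hnc24, hr1, hr2, hr3, hf3, hr4, hf4, hxs3, ho1, hi1_035, hi2_035, hi2_050, hg12_095, hg13_082, hg14_070, hg23_082, hg24_070, c3, c4])
    (by linarith only [hsum, hpsum, hnc34, hr1, hr2, hr3, hf3, hr4, hf4, hxs3, ho1, ho2, hg12_095, hg13_095, hg14_055, hg23_095, hg24_055, c3, c4, l4])
  linarith only [hsum, hpsum, hnc24, hr1, hf1, hr2, hf2, hr3, hf3, hr4, hf4, hxs1, hxs2, hxs3, hd3, hi2_050, hg12_095, hg13_095, hg14_070, hg23_082, hg23_095, hg24_070, hg34_055, hg34_070, c1, c2, c3, c4, hd0]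

lemma leaf4_7 {s1 s2 s3 s4 c12 c13 c14 c23 c24 c34 d12 d13 d14 d23 d24 d34 x1 x2 x3 p1 p2 p3 p4 j1 j2 j3 j4 : ℝ} (h : Base4 s1 s2 s3 s4 c12 c13 c14 c23 c24 c34 d12 d13 d14 d23 d24 d34 x1 x2 x3 p1 p2 p3 p4 j1 j2 j3 j4)
    (c1 : j1 ≤ (-2863 / 20000 : ℝ) + (10943 / 10000 : ℝ) * p1) (l1 : (1097 / 4000 : ℝ) ≤ p1) (u1 : p1 ≤ (15427 / 50000 : ℝ))
    (c2 : j2 ≤ (-2863 / 20000 : ℝ) + (10943 / 10000 : ℝ) * p2) (l2 : (1097 / 4000 : ℝ) ≤ p2) (u2 : p2 ≤ (15427 / 50000 : ℝ))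
    (c3 : j3 ≤ (-12941 / 100000 : ℝ) + (5249 / 5000 : ℝ) * p3) (l3 : (6049 / 25000 : ℝ) ≤ p3) (u3 : p3 ≤ (15427 / 50000 : ℝ))
    (c4 : j4 ≤ (529 / 2000 : ℝ) * p4) (l4 : (0 : ℝ) ≤ p4) (u4 : p4 ≤ (11507 / 100000 : ℝ))
    : False := by
  obtain ⟨hsum, hpsum, hnc12, hnc13, hnc14, hnc23, hnc24, hnc34, hnd12, hnd13, hnd14, hnd23, hnd24, hnd34, hnj1, hnj2, hnj3, hnj4, hr1, hf1, hr2, hf2, hr3, hf3, hr4, hf4, hxs1, hxs2, hxs3, ho1, ho2, ho3, hd3, hi1_020, hi1_035, hi1_050, hi2_020, hi2_035, hi2_050, hi3_020, hi3_035, hi3_050, hi4_020, hi4_035, hi4_050, hg12_055, hg12_070, hg12_082, hg12_095, hg13_055, hg13_070, hg13_082, hg13_095, hg14_055, hg14_070, hg14_082, hg14_095, hg23_055, hg23_070, hg23_082, hg23_095, hg24_055, hg24_070, hg24_082, hg24_095, hg34_055, hg34_070, hg34_082, hg34_095⟩ := h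
  have hd0 := heron_lin (x := x1) (y := x2) (z := x3) (23 / 25 : ℝ) (287 / 1000 : ℝ) (81 / 250 : ℝ) (287 / 1000 : ℝ) (81 / 250 : ℝ) (287 / 1000 : ℝ) (81 / 250 : ℝ)
    (by linarith only [hsum, hpsum, hr1, hf1, hr2, hf2, hr3, hf3, hr4, hf4, hxs1, ho1, ho2, hg12_095, hg13_095, hg14_070, hg23_095, hg24_055, hg34_055, c1, u1, c2, c3, c4])
    (by linarith only [hsum, hpsum, hr1, hf1, hr2, hf2, hr3, hf3, hr4, hf4, hxs1, ho1, hg12_095, hg13_095, hg14_055, hg23_095, hg24_070, hg34_070, c1, u1, c2, c3, u3, c4])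
    (by linarith only [hsum, hpsum, hr1, hf1, hr2, hf2, hr3, hf3, hr4, hf4, hxs2, ho2, hg12_095, hg13_095, hg14_055, hg23_095, hg24_070, hg34_055, c1, u1, c2, u2, c3, c4])
    (by linarith only [hsum, hpsum, hr1, hf1, hr2, hf2, hr3, hf3, hr4, hf4, hxs2, ho1, hg12_095, hg13_095, hg14_070, hg23_095, hg24_055, hg34_070, c1, u1, c2, c3, u3, c4])
    (by linarith only [hsum, hpsum, hr1, hf1, hr2, hf2, hr3, hf3, hr4, hf4, hxs3, ho1, hg12_095, hg13_095, hg14_055, hg23_095, hg24_055, hg34_070, c1, u1, c2, c3, u3, c4])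
    (by linarith only [hsum, hpsum, hr1, hf1, hr2, hf2, hr3, hf3, hr4, hf4, hxs3, ho1, ho2, hg12_095, hg13_095, hg14_070, hg23_095, hg24_070, hg34_055, c1, u1, c2, c3, c4])
  linarith only [hsum, hpsum, hr1, hf1, hr2, hf2, hr3, hf3, hr4, hf4, hxs1, hxs2, hxs3, hd3, hg12_095, hg13_095, hg14_070, hg23_095, hg24_070, hg34_070, c1, u1, c2, u2, c3, c4, hd0]

lemma leaf4_8 {s1 s2 s3 s4 c12 c13 c14 c23 c24 c34 d12 d13 d14 d23 d24 d34 x1 x2 x3 p1 p2 p3 p4 j1 j2 j3 j4 : ℝ} (h : Base4 s1 s2 s3 s4 c12 c13 c14 c23 c24 c34 d12 d13 d14 d23 d24 d34 x1 x2 x3 p1 p2 p3 p4 j1 j2 j3 j4)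
    (c1 : j1 ≤ (-19229 / 100000 : ℝ) + (2547 / 2000 : ℝ) * p1) (l1 : (1097 / 4000 : ℝ) ≤ p1) (u1 : p1 ≤ (1 / 2 : ℝ))
    (c2 : j2 ≤ (-11797 / 100000 : ℝ) + (401 / 400 : ℝ) * p2) (l2 : (6049 / 25000 : ℝ) ≤ p2) (u2 : p2 ≤ (13713 / 50000 : ℝ))
    (c3 : j3 ≤ (-11797 / 100000 : ℝ) + (401 / 400 : ℝ) * p3) (l3 : (6049 / 25000 : ℝ) ≤ p3) (u3 : p3 ≤ (13713 / 50000 : ℝ))
    (c4 : j4 ≤ (3549 / 10000 : ℝ) * p4) (l4 : (0 : ℝ) ≤ p4) (u4 : p4 ≤ (7933 / 50000 : ℝ))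
    : False := by
  obtain ⟨hsum, hpsum, hnc12, hnc13, hnc14, hnc23, hnc24, hnc34, hnd12, hnd13, hnd14, hnd23, hnd24, hnd34, hnj1, hnj2, hnj3, hnj4, hr1, hf1, hr2, hf2, hr3, hf3, hr4, hf4, hxs1, hxs2, hxs3, ho1, ho2, ho3, hd3, hi1_020, hi1_035, hi1_050, hi2_020, hi2_035, hi2_050, hi3_020, hi3_035, hi3_050, hi4_020, hi4_035, hi4_050, hg12_055, hg12_070, hg12_082, hg12_095, hg13_055, hg13_070, hg13_082, hg13_095, hg14_055, hg14_070, hg14_082, hg14_095, hg23_055, hg23_070, hg23_082, hg23_095, hg24_055, hg24_070, hg24_082, hg24_095, hg34_055, hg34_070, hg34_082, hg34_095⟩ := h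
  linarith only [hsum, hpsum, hr1, hr2, hf2, hr3, hf3, hr4, hf4, hi1_050, hg12_095, hg13_095, hg14_082, hg23_082, hg23_095, hg24_055, hg24_070, hg34_055, hg34_070, c2, u2, c3, u3, c4]

lemma leaf4_9 {s1 s2 s3 s4 c12 c13 c14 c23 c24 c34 d12 d13 d14 d23 d24 d34 x1 x2 x3 p1 p2 p3 p4 j1 j2 j3 j4 : ℝ} (h : Base4 s1 s2 s3 s4 c12 c13 c14 c23 c24 c34 d12 d13 d14 d23 d24 d34 x1 x2 x3 p1 p2 p3 p4 j1 j2 j3 j4)
    (c1 : j1 ≤ (-11797 / 100000 : ℝ) + (401 / 400 : ℝ) * p1) (l1 : (6049 / 25000 : ℝ) ≤ p1) (u1 : p1 ≤ (13713 / 50000 : ℝ))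
    (c2 : j2 ≤ (-11797 / 100000 : ℝ) + (401 / 400 : ℝ) * p2) (l2 : (6049 / 25000 : ℝ) ≤ p2) (u2 : p2 ≤ (13713 / 50000 : ℝ))
    (c3 : j3 ≤ (-11797 / 100000 : ℝ) + (401 / 400 : ℝ) * p3) (l3 : (6049 / 25000 : ℝ) ≤ p3) (u3 : p3 ≤ (13713 / 50000 : ℝ))
    (c4 : j4 ≤ (4591 / 10000 : ℝ) * p4) (l4 : (0 : ℝ) ≤ p4) (u4 : p4 ≤ (10593 / 50000 : ℝ))
    : False := by
  obtain ⟨hsum, hpsum, hnc12, hnc13, hnc14, hnc23, hnc24, hnc34, hnd12, hnd13, hnd14, hnd23, hnd24, hnd34, hnj1, hnj2, hnj3, hnj4, hr1, hf1, hr2, hf2, hr3, hf3, hr4, hf4, hxs1, hxs2, hxs3, ho1, ho2, ho3, hd3, hi1_020, hi1_035, hi1_050, hi2_020, hi2_035, hi2_050, hi3_020, hi3_035, hi3_050, hi4_020, hi4_035, hi4_050, hg12_055, hg12_070, hg12_082, hg12_095, hg13_055, hg13_070, hg13_082, hg13_095, hg14_055, hg14_070, hg14_082, hg14_095, hg23_055, hg23_070, hg23_082, hg23_095,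 hg24_055, hg24_070, hg24_082, hg24_095, hg34_055, hg34_070, hg34_082, hg34_095⟩ := h
  linarith only [hsum, hpsum, hr1, hf1, hr2, hf2, hr3, hf3, hr4, hf4, hg12_095, hg13_095, hg14_070, hg23_095, hg24_070, hg34_070, c1, u1, c2, u2, c3, u3, c4]

lemma leaf4_10 {s1 s2 s3 s4 c12 c13 c14 c23 c24 c34 d12 d13 d14 d23 d24 d34 x1 x2 x3 p1 p2 p3 p4 j1 j2 j3 j4 : ℝ} (h : Base4 s1 s2 s3 s4 c12 c13 c14 c23 c24 c34 d12 d13 d14 d23 d24 d34 x1 x2 x3 p1 p2 p3 p4 j1 j2 j3 j4)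
    (c1 : j1 ≤ (-11147 / 50000 : ℝ) + (3337 / 2500 : ℝ) * p1) (l1 : (34457 / 100000 : ℝ) ≤ p1) (u1 : p1 ≤ (1 / 2 : ℝ))
    (c2 : j2 ≤ (-8767 / 50000 : ℝ) + (3099 / 2500 : ℝ) * p2) (l2 : (6049 / 25000 : ℝ) ≤ p2) (u2 : p2 ≤ (1 / 2 : ℝ))
    (c3 : j3 ≤ (-461 / 6250 : ℝ) + (4099 / 5000 : ℝ) * p3) (l3 : (3173 / 20000 : ℝ) ≤ p3) (u3 : p3 ≤ (24197 / 100000 : ℝ))
    (c4 : j4 ≤ (-461 / 6250 : ℝ) + (4099 / 5000 : ℝ) * p4) (l4 : (3173 / 20000 : ℝ) ≤ p4) (u4 : p4 ≤ (24197 / 100000 : ℝ))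
    : False := by
  obtain ⟨hsum, hpsum, hnc12, hnc13, hnc14, hnc23, hnc24, hnc34, hnd12, hnd13, hnd14, hnd23, hnd24, hnd34, hnj1, hnj2, hnj3, hnj4, hr1, hf1, hr2, hf2, hr3, hf3, hr4, hf4, hxs1, hxs2, hxs3, ho1, ho2, ho3, hd3, hi1_020, hi1_035, hi1_050, hi2_020, hi2_035, hi2_050, hi3_020, hi3_035, hi3_050, hi4_020, hi4_035, hi4_050, hg12_055, hg12_070, hg12_082, hg12_095, hg13_055, hg13_070, hg13_082, hg13_095, hg14_055, hg14_070, hg14_082, hg14_095, hg23_055, hg23_070, hg23_082, hg23_095, hg24_055, hg24_070, hg24_082, hg24_095, hg34_055, hg34_070, hg34_082, hg34_095⟩ := h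
  linarith only [hsum, hpsum, hr1, hr2, hf2, hr3, hf3, hr4, hf4, hi1_035, hi2_050, hg12_095, hg13_082, hg14_082, hg23_070, hg23_082, hg24_070, hg24_082, hg34_055, l1, c2, c3, c4]

lemma leaf4_11 {s1 s2 s3 s4 c12 c13 c14 c23 c24 c34 d12 d13 d14 d23 d24 d34 x1 x2 x3 p1 p2 p3 p4 j1 j2 j3 j4 : ℝ} (h : Base4 s1 s2 s3 s4 c12 c13 c14 c23 c24 c34 d12 d13 d14 d23 d24 d34 x1 x2 x3 p1 p2 p3 p4 j1 j2 j3 j4)
    (c1 : j1 ≤ (-14047 / 100000 : ℝ) + (2191 / 2000 : ℝ) * p1) (l1 : (6049 / 25000 : ℝ) ≤ p1) (u1 : p1 ≤ (17229 / 50000 : ℝ))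
    (c2 : j2 ≤ (-14047 / 100000 : ℝ) + (2191 / 2000 : ℝ) * p2) (l2 : (6049 / 25000 : ℝ) ≤ p2) (u2 : p2 ≤ (17229 / 50000 : ℝ))
    (c3 : j3 ≤ (-461 / 6250 : ℝ) + (4099 / 5000 : ℝ) * p3) (l3 : (3173 / 20000 : ℝ) ≤ p3) (u3 : p3 ≤ (24197 / 100000 : ℝ))
    (c4 : j4 ≤ (-461 / 6250 : ℝ) + (4099 / 5000 : ℝ) * p4) (l4 : (3173 / 20000 : ℝ) ≤ p4) (u4 : p4 ≤ (24197 / 100000 : ℝ))
    : False := by
  obtain ⟨hsum, hpsum, hnc12, hnc13, hnc14, hnc23, hnc24, hnc34, hnd12, hnd13, hnd14, hnd23, hnd24, hnd34, hnj1, hnj2, hnj3, hnj4, hr1, hf1, hr2, hf2, hr3, hf3, hr4, hf4, hxs1, hxs2, hxs3, ho1, ho2, ho3, hd3, hi1_020, hi1_035, hi1_050, hi2_020, hi2_035, hi2_050, hi3_020, hi3_035, hi3_050, hi4_020, hi4_035, hi4_050, hg12_055, hg12_070, hg12_082, hg12_095, hg13_055, hg13_070, hg13_082, hg13_095, hg14_055, hg14_070, hg14_082, hg14_095,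 hg23_055, hg23_070, hg23_082, hg23_095, hg24_055, hg24_070, hg24_082, hg24_095, hg34_055, hg34_070, hg34_082, hg34_095⟩ := h
  linarith only [hsum, hpsum, hr1, hf1, hr2, hf2, hr3, hf3, hr4, hf4, hg12_082, hg12_095, hg13_082, hg14_082, hg23_082, hg24_082, hg34_070, hg34_082, c1, c2, c3, c4]

lemma leaf4_12 {s1 s2 s3 s4 c12 c13 c14 c23 c24 c34 d12 d13 d14 d23 d24 d34 x1 x2 x3 p1 p2 p3 p4 j1 j2 j3 j4 : ℝ} (h : Base4 s1 s2 s3 s4 c12 c13 c14 c23 c24 c34 d12 d13 d14 d23 d24 d34 x1 x2 x3 p1 p2 p3 p4 j1 j2 j3 j4)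
    (c1 : j1 ≤ (-12411 / 100000 : ℝ) + (2843 / 2500 : ℝ) * p1) (l1 : (3173 / 20000 : ℝ) ≤ p1) (u1 : p1 ≤ (1 / 2 : ℝ))
    (c2 : j2 ≤ (-461 / 6250 : ℝ) + (4099 / 5000 : ℝ) * p2) (l2 : (3173 / 20000 : ℝ) ≤ p2) (u2 : p2 ≤ (24197 / 100000 : ℝ))
    (c3 : j3 ≤ (-461 / 6250 : ℝ) + (4099 / 5000 : ℝ) * p3) (l3 : (3173 / 20000 : ℝ) ≤ p3) (u3 : p3 ≤ (24197 / 100000 : ℝ))
    (c4 : j4 ≤ (-461 / 6250 : ℝ) + (4099 / 5000 : ℝ) * p4) (l4 : (3173 / 20000 : ℝ) ≤ p4) (u4 : p4 ≤ (24197 / 100000 : ℝ))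
    : False := by
  obtain ⟨hsum, hpsum, hnc12, hnc13, hnc14, hnc23, hnc24, hnc34, hnd12, hnd13, hnd14, hnd23, hnd24, hnd34, hnj1, hnj2, hnj3, hnj4, hr1, hf1, hr2, hf2, hr3, hf3, hr4, hf4, hxs1, hxs2, hxs3, ho1, ho2, ho3, hd3, hi1_020, hi1_035, hi1_050, hi2_020, hi2_035, hi2_050, hi3_020, hi3_035, hi3_050, hi4_020, hi4_035, hi4_050, hg12_055, hg12_070, hg12_082, hg12_095, hg13_055, hg13_070, hg13_082, hg13_095, hg14_055, hg14_070, hg14_082, hg14_095, hg23_055, hg23_070, hg23_082, hg23_095, hg24_055, hg24_070, hg24_082, hg24_095, hg34_055, hg34_070, hg34_082, hg34_095⟩ := h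
  linarith only [hsum, hpsum, hr1, hr2, hf2, hr3, hf3, hr4, hf4, hi1_050, hg12_082, hg13_082, hg14_082, hg23_082, hg24_082, hg34_082, c2, u2, c3, u3, c4, u4]

lemma leaf4_13 {s1 s2 s3 s4 c12 c13 c14 c23 c24 c34 d12 d13 d14 d23 d24 d34 x1 x2 x3 p1 p2 p3 p4 j1 j2 j3 j4 : ℝ} (h : Base4 s1 s2 s3 s4 c12 c13 c14 c23 c24 c34 d12 d13 d14 d23 d24 d34 x1 x2 x3 p1 p2 p3 p4 j1 j2 j3 j4)
    (c1 : j1 ≤ (-10417 / 50000 : ℝ) + (816 / 625 : ℝ) * p1) (l1 : (30853 / 100000 : ℝ) ≤ p1) (u1 : p1 ≤ (1 / 2 : ℝ))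
    (c2 : j2 ≤ (-10417 / 50000 : ℝ) + (816 / 625 : ℝ) * p2) (l2 : (30853 / 100000 : ℝ) ≤ p2) (u2 : p2 ≤ (1 / 2 : ℝ))
    (c3 : j3 ≤ (-1969 / 50000 : ℝ) + (6777 / 10000 : ℝ) * p3) (l3 : (323 / 4000 : ℝ) ≤ p3) (u3 : p3 ≤ (24197 / 100000 : ℝ))
    (c4 : j4 ≤ (-339 / 12500 : ℝ) + (5259 / 10000 : ℝ) * p4) (l4 : (323 / 4000 : ℝ) ≤ p4) (u4 : p4 ≤ (7933 / 50000 : ℝ))
    : False := by
  obtain ⟨hsum, hpsum, hnc12, hnc13, hnc14, hnc23, hnc24, hnc34, hnd12, hnd13, hnd14, hnd23, hnd24, hnd34, hnj1, hnj2, hnj3, hnj4, hr1, hf1, hr2, hf2, hr3, hf3, hr4, hf4, hxs1, hxs2, hxs3, ho1, ho2, ho3, hd3, hi1_020, hi1_035, hi1_050, hi2_020, hi2_035, hi2_050, hi3_020, hi3_035, hi3_050, hi4_020, hi4_035, hi4_050, hg12_055, hg12_070, hg12_082, hg12_095, hg13_055, hg13_070, hg13_082, hg13_095, hg14_055, hg14_070, hg14_082, hg14_095, hg23_055,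 hg23_070, hg23_082, hg23_095, hg24_055, hg24_070, hg24_082, hg24_095, hg34_055, hg34_070, hg34_082, hg34_095⟩ := h
  linarith only [hsum, hpsum, hnc34, hr1, hf1, hr2, hf2, hr3, hf3, hr4, hf4, hi1_050, hi2_050, hg12_095, hg13_082, hg13_095, hg14_070, hg23_082, hg23_095, hg24_070, hg34_055, c1, c2, c3, c4]

lemma leaf4_14 {s1 s2 s3 s4 c12 c13 c14 c23 c24 c34 d12 d13 d14 d23 d24 d34 x1 x2 x3 p1 p2 p3 p4 j1 j2 j3 j4 : ℝ} (h : Base4 s1 s2 s3 s4 c12 c13 c14 c23 c24 c34 d12 d13 d14 d23 d24 d34 x1 x2 x3 p1 p2 p3 p4 j1 j2 j3 j4)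
    (c1 : j1 ≤ (-6731 / 100000 : ℝ) + (2559 / 2500 : ℝ) * p1) (l1 : (323 / 4000 : ℝ) ≤ p1) (u1 : p1 ≤ (1 / 2 : ℝ))
    (c2 : j2 ≤ (-301 / 6250 : ℝ) + (1573 / 2000 : ℝ) * p2) (l2 : (323 / 4000 : ℝ) ≤ p2) (u2 : p2 ≤ (15427 / 50000 : ℝ))
    (c3 : j3 ≤ (-1969 / 50000 : ℝ) + (6777 / 10000 : ℝ) * p3) (l3 : (323 / 4000 : ℝ) ≤ p3) (u3 : p3 ≤ (24197 / 100000 : ℝ))
    (c4 : j4 ≤ (-339 / 12500 : ℝ) + (5259 / 10000 : ℝ) * p4) (l4 : (323 / 4000 : ℝ) ≤ p4) (u4 : p4 ≤ (7933 / 50000 : ℝ))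
    : False := by
  obtain ⟨hsum, hpsum, hnc12, hnc13, hnc14, hnc23, hnc24, hnc34, hnd12, hnd13, hnd14, hnd23, hnd24, hnd34, hnj1, hnj2, hnj3, hnj4, hr1, hf1, hr2, hf2, hr3, hf3, hr4, hf4, hxs1, hxs2, hxs3, ho1, ho2, ho3, hd3, hi1_020, hi1_035, hi1_050, hi2_020, hi2_035, hi2_050, hi3_020, hi3_035, hi3_050, hi4_020, hi4_035, hi4_050, hg12_055, hg12_070, hg12_082, hg12_095, hg13_055, hg13_070, hg13_082, hg13_095, hg14_055, hg14_070, hg14_082, hg14_095, hg23_055, hg23_070, hg23_082, hg23_095, hg24_055, hg24_070, hg24_082, hg24_095, hg34_055, hg34_070, hg34_082, hg34_095⟩ := h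
  linarith only [hsum, hpsum, hr1, hr2, hf2, hr3, hf3, hr4, hf4, ho1, hi1_050, hg12_095, hg13_082, hg13_095, hg14_070, hg14_082, hg23_082, hg24_070, hg34_055, c2, c3, u3, c4, u4]

lemma leaf4_15 {s1 s2 s3 s4 c12 c13 c14 c23 c24 c34 d12 d13 d14 d23 d24 d34 x1 x2 x3 p1 p2 p3 p4 j1 j2 j3 j4 : ℝ} (h : Base4 s1 s2 s3 s4 c12 c13 c14 c23 c24 c34 d12 d13 d14 d23 d24 d34 x1 x2 x3 p1 p2 p3 p4 j1 j2 j3 j4)
    (c1 : j1 ≤ (8889 / 10000 : ℝ) * p1) (l1 : (0 : ℝ) ≤ p1) (u1 : p1 ≤ (1 / 2 : ℝ))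
    (c2 : j2 ≤ (8889 / 10000 : ℝ) * p2) (l2 : (0 : ℝ) ≤ p2) (u2 : p2 ≤ (1 / 2 : ℝ))
    (c3 : j3 ≤ (103 / 200 : ℝ) * p3) (l3 : (0 : ℝ) ≤ p3) (u3 : p3 ≤ (24197 / 100000 : ℝ))
    (c4 : j4 ≤ (19 / 100 : ℝ) * p4) (l4 : (0 : ℝ) ≤ p4) (u4 : p4 ≤ (2019 / 25000 : ℝ))
    : False := by
  obtain ⟨hsum, hpsum, hnc12, hnc13, hnc14, hnc23, hnc24, hnc34, hnd12, hnd13, hnd14, hnd23, hnd24, hnd34, hnj1, hnj2, hnj3, hnj4, hr1, hf1, hr2, hf2, hr3, hf3, hr4, hf4, hxs1, hxs2, hxs3, ho1, ho2, ho3, hd3, hi1_020, hi1_035, hi1_050, hi2_020, hi2_035, hi2_050, hi3_020, hi3_035, hi3_050, hi4_020, hi4_035, hi4_050, hg12_055, hg12_070, hg12_082, hg12_095, hg13_055, hg13_070, hg13_082, hg13_095, hg14_055, hg14_070, hg14_082, hg14_095, hg23_055, hg23_070, hg23_082, hg23_095, hg24_055, hg24_070, hg24_082, hg24_095, hg34_055, hg34_070, hg34_082, hg34_095⟩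 := h
  have hd0 := heron_lin (x := x1) (y := x2) (z := x3) (99 / 100 : ℝ) (39 / 100 : ℝ) (21 / 50 : ℝ) (383 / 1000 : ℝ) (413 / 1000 : ℝ) (87 / 500 : ℝ) (39 / 200 : ℝ)
    (by linarith only [hsum, hpsum, hnc24, hnc34, hr1, hr2, hr3, hf3, hr4, hf4, hxs1, ho1, hi1_035, hi2_035, hg12_095, hg13_095, hg14_070, hg23_095, hg24_070, c3, u3, c4])
    (by linarith only [hsum, hpsum, hnc14, hnc34, hr1, hr2, hr3, hf3, hr4, hf4, hxs1, hi1_020, hi2_035, hg12_095, hg13_095, hg14_070, hg23_082, hg24_070, c3, u3, c4, l4])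
    (by linarith only [hsum, hpsum, hnc14, hnc34, hr1, hr2, hr3, hf3, hr4, hf4, hxs2, hi1_020, hi1_035, hi2_035, hg12_095, hg13_095, hg14_070, hg23_082, hg24_070, c3, u3, c4])
    (by linarith only [hsum, hpsum, hnc24, hnc34, hr1, hr2, hr3, hf3, hr4, hf4, hxs2, ho1, hi1_035, hi2_035, hg12_095, hg13_082, hg14_070, hg23_082, hg24_070, c3, c4, l4])
    (by linarith only [hsum, hpsum, hnc14, hnc24, hr1, hr2, hr3, hf3, hr4, hf4, hxs3, hi1_035, hi2_035, hg12_095, hg13_082, hg14_070, hg23_082, hg24_070, c3, c4, l4])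
    (by linarith only [hsum, hpsum, hnc34, hr1, hr2, hr3, hf3, hr4, hf4, hxs3, hi1_035, hi2_035, hg12_095, hg13_095, hg14_070, hg23_095, hg24_070, c3, u3, c4])
  linarith only [hsum, hpsum, hnc14, hnc24, hr1, hr2, hr3, hf3, hr4, hf4, hxs1, hxs2, hxs3, hd3, hi1_035, hi2_035, hi2_050, hg12_095, hg13_082, hg14_070, hg23_082, hg24_070, c3, c4, u4, hd0]

theorem lp4 {s1 s2 s3 s4 c12 c13 c14 c23 c24 c34 d12 d13 d14 d23 d24 d34 x1 x2 x3 b1 b2 b3 b4 : ℝ}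
    (h : Base4 s1 s2 s3 s4 c12 c13 c14 c23 c24 c34 d12 d13 d14 d23 d24 d34 x1 x2 x3 (Q b1) (Q b2) (Q b3) (Q b4) (jf b1) (jf b2) (jf b3) (jf b4))
    (h0 : 0 ≤ b1) (h1 : b1 ≤ b2) (h2 : b2 ≤ b3) (h3 : b3 ≤ b4) : False := by
  have h12 := h1
  have h23 := h2
  have h34 := h3
  have h13 := h12.trans h2
  have h24 := h23.trans h3
  have h14 := h13.trans h3
  rcases le_total b3 (7 / 10 : ℝ) with k0 | k0
  · rcases le_total b4 (7 / 10 : ℝ) with k1 | k1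
    · exact leaf4_1 h
        (ch_000_070 h0 (h13.trans k0)) (ql_070 (h13.trans k0)) (qu_000 h0)
        (ch_000_070 (h0.trans h12) (h23.trans k0)) (ql_070 (h23.trans k0)) (qu_000 (h0.trans h12))
        (ch_000_070 (h0.trans h13) k0) (ql_070 k0) (qu_000 (h0.trans h13))
        (ch_000_070 (h0.trans h14) k1) (ql_070 k1) (qu_000 (h0.trans h14))
    · rcases le_total b3 (2 / 5 : ℝ) with k2 | k2
      · exact leaf4_2 h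
          (ch_000_040 h0 (h13.trans k2)) (ql_040 (h13.trans k2)) (qu_000 h0)
          (ch_000_040 (h0.trans h12) (h23.trans k2)) (ql_040 (h23.trans k2)) (qu_000 (h0.trans h12))
          (ch_000_040 (h0.trans h13) k2) (ql_040 k2) (qu_000 (h0.trans h13))
          (ch_070_inf k1) (Q_nonneg _) (qu_070 k1)
      · rcases le_total b4 (4 / 5 : ℝ) with k3 | k3
        · exact leaf4_3 h
            (ch_000_070 h0 (h13.trans k0)) (ql_070 (h13.trans k0)) (qu_000 h0)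
            (ch_000_070 (h0.trans h12) (h23.trans k0)) (ql_070 (h23.trans k0)) (qu_000 (h0.trans h12))
            (ch_040_070 k2 k0) (ql_070 k0) (qu_040 k2)
            (ch_070_080 k1 k3) (ql_080 k3) (qu_070 k1)
        · rcases le_total b1 (3 / 5 : ℝ) with k4 | k4
          · rcases le_total b4 (1 : ℝ) with k5 | k5
            · exact leaf4_4 h
                (ch_000_060 h0 k4) (ql_060 k4) (qu_000 h0)
                (ch_000_070 (h0.trans h12) (h23.trans k0)) (ql_070 (h23.trans k0)) (qu_000 (h0.trans h12))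
                (ch_040_070 k2 k0) (ql_070 k0) (qu_040 k2)
                (ch_080_100 k3 k5) (ql_100 k5) (qu_080 k3)
            · rcases le_total b2 (3 / 5 : ℝ) with k6 | k6
              · rcases le_total b4 (6 / 5 : ℝ) with k7 | k7
                · exact leaf4_5 h
                    (ch_000_060 h0 k4) (ql_060 k4) (qu_000 h0)
                    (ch_000_060 (h0.trans h12) k6) (ql_060 k6) (qu_000 (h0.trans h12))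
                    (ch_040_070 k2 k0) (ql_070 k0) (qu_040 k2)
                    (ch_100_120 k5 k7) (ql_120 k7) (qu_100 k5)
                · rcases le_total b1 (1 / 2 : ℝ) with k8 | k8
                  · exact leaf4_6 h
                      (ch_000_050 h0 k8) (ql_050 k8) (qu_000 h0)
                      (ch_000_060 (h0.trans h12) k6) (ql_060 k6) (qu_000 (h0.trans h12))
                      (ch_040_070 k2 k0) (ql_070 k0) (qu_040 k2)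
                      (ch_120_inf k7) (Q_nonneg _) (qu_120 k7)
                  · exact leaf4_7 h
                      (ch_050_060 k8 k4) (ql_060 k4) (qu_050 k8)
                      (ch_050_060 (k8.trans h12) k6) (ql_060 k6) (qu_050 (k8.trans h12))
                      (ch_050_070 (k8.trans h13) k0) (ql_070 k0) (qu_050 (k8.trans h13))
                      (ch_120_inf k7) (Q_nonneg _) (qu_120 k7)
              · exact leaf4_8 h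
                  (ch_000_060 h0 k4) (ql_060 k4) (qu_000 h0)
                  (ch_060_070 k6 (h23.trans k0)) (ql_070 (h23.trans k0)) (qu_060 k6)
                  (ch_060_070 (k6.trans h23) k0) (ql_070 k0) (qu_060 (k6.trans h23))
                  (ch_100_inf k5) (Q_nonneg _) (qu_100 k5)
          · exact leaf4_9 h
              (ch_060_070 k4 (h13.trans k0)) (ql_070 (h13.trans k0)) (qu_060 k4)
              (ch_060_070 (k4.trans h12) (h23.trans k0)) (ql_070 (h23.trans k0)) (qu_060 (k4.trans h12))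
              (ch_060_070 (k4.trans h13) k0) (ql_070 k0) (qu_060 (k4.trans h13))
              (ch_080_inf k3) (Q_nonneg _) (qu_080 k3)
  · rcases le_total b4 (1 : ℝ) with k1 | k1
    · rcases le_total b2 (7 / 10 : ℝ) with k2 | k2
      · rcases le_total b1 (2 / 5 : ℝ) with k3 | k3
        · exact leaf4_10 h
            (ch_000_040 h0 k3) (ql_040 k3) (qu_000 h0)
            (ch_000_070 (h0.trans h12) k2) (ql_070 k2) (qu_000 (h0.trans h12))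
            (ch_070_100 k0 (h34.trans k1)) (ql_100 (h34.trans k1)) (qu_070 k0)
            (ch_070_100 (k0.trans h34) k1) (ql_100 k1) (qu_070 (k0.trans h34))
        · exact leaf4_11 h
            (ch_040_070 k3 (h12.trans k2)) (ql_070 (h12.trans k2)) (qu_040 k3)
            (ch_040_070 (k3.trans h12) k2) (ql_070 k2) (qu_040 (k3.trans h12))
            (ch_070_100 k0 (h34.trans k1)) (ql_100 (h34.trans k1)) (qu_070 k0)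
            (ch_070_100 (k0.trans h34) k1) (ql_100 k1) (qu_070 (k0.trans h34))
      · exact leaf4_12 h
          (ch_000_100 h0 (h14.trans k1)) (ql_100 (h14.trans k1)) (qu_000 h0)
          (ch_070_100 k2 (h24.trans k1)) (ql_100 (h24.trans k1)) (qu_070 k2)
          (ch_070_100 k0 (h34.trans k1)) (ql_100 (h34.trans k1)) (qu_070 k0)
          (ch_070_100 (k0.trans h34) k1) (ql_100 k1) (qu_070 (k0.trans h34))
    · rcases le_total b4 (7 / 5 : ℝ) with k2 | k2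
      · rcases le_total b2 (1 / 2 : ℝ) with k3 | k3
        · exact leaf4_13 h
            (ch_000_050 h0 (h12.trans k3)) (ql_050 (h12.trans k3)) (qu_000 h0)
            (ch_000_050 (h0.trans h12) k3) (ql_050 k3) (qu_000 (h0.trans h12))
            (ch_070_140 k0 (h34.trans k2)) (ql_140 (h34.trans k2)) (qu_070 k0)
            (ch_100_140 k1 k2) (ql_140 k2) (qu_100 k1)
        · exact leaf4_14 h
            (ch_000_140 h0 (h14.trans k2)) (ql_140 (h14.trans k2)) (qu_000 h0)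
            (ch_050_140 k3 (h24.trans k2)) (ql_140 (h24.trans k2)) (qu_050 k3)
            (ch_070_140 k0 (h34.trans k2)) (ql_140 (h34.trans k2)) (qu_070 k0)
            (ch_100_140 k1 k2) (ql_140 k2) (qu_100 k1)
      · exact leaf4_15 h
          (ch_000_inf h0) (Q_nonneg _) (qu_000 h0)
          (ch_000_inf (h0.trans h12)) (Q_nonneg _) (qu_000 (h0.trans h12))
          (ch_070_inf k0) (Q_nonneg _) (qu_070 k0)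
          (ch_140_inf k2) (Q_nonneg _) (qu_140 k2)

end Vale.Agent.P226
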