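import Vale.Agent.P226.Grid

/-! The final linear programs, five or more cells (generated). -/

open MeasureTheory ProbabilityTheory Set Filter Topology Real

set_option linter.unusedVariables false

namespace Vale.Agent.P226

structure Base5 (s1 s2 s3 s4 e x1 x2 x3 y1 y2 y3 p1 p2 p3 p4 p5 pT j1 j2 j3 j4 : ℝ) : Prop where
  sum : s1 + s2 + s3 + s4 + e = 1
  psum : p1 + p2 + p3 + p4 + pT ≤ 1
  ns1 : 0 ≤ s1
  ns2 : 0 ≤ s2
  ns3 : 0 ≤ s3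
  ns4 : 0 ≤ s4
  ne : 0 ≤ e
  nx1 : 0 ≤ x1
  nx2 : 0 ≤ x2
  nx3 : 0 ≤ x3
  ny1 : 0 ≤ y1
  ny2 : 0 ≤ y2
  ny3 : 0 ≤ y3
  np5 : 0 ≤ p5
  nj1 : 0 ≤ j1
  nj2 : 0 ≤ j2
  nj3 : 0 ≤ j3
  nj4 : 0 ≤ j4
  xs1 : x1 ≤ s1
  ys1 : y1 ≤ s1
  xs2 : x2 ≤ s2
  ys2 : y2 ≤ s2
  xs3 : x3 ≤ s3
  ys3 : y3 ≤ s3
  xsum : s1 + s2 + s3 - (x1 + x2 + x3) ≤ e + s4
  ysum : s1 + s2 + s3 - (y1 + y2 + y3) ≤ e
  o1 : p2 ≤ p1
  o2 : p3 ≤ p2
  o3 : p4 ≤ p3
  o4 : p5 ≤ p4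
  o5 : p5 ≤ pT
  d3 : (5483 / 5000 : ℝ) * heron x1 x2 x3 ≤ e + s4
  d4 : (4391 / 10000 : ℝ) * heron y1 y2 y3 ≤ e
  i1_020 : s1 ≤ (2433 / 10000 : ℝ) + (273 / 625 : ℝ) * p1
  i1_035 : s1 ≤ (1269 / 10000 : ℝ) + (917 / 1250 : ℝ) * p1
  i1_050 : s1 ≤ (107 / 2500 : ℝ) + (1229 / 1250 : ℝ) * p1
  e1_100 : s1 - (1 - (1 : ℝ)) ^ 2 ≤ 2 * (1 : ℝ) * j1
  e1_090 : s1 - (1 - (9 / 10 : ℝ)) ^ 2 ≤ 2 * (9 / 10 : ℝ) * j1
  e1_085 : s1 - (1 - (17 / 20 : ℝ)) ^ 2 ≤ 2 * (17 / 20 : ℝ) * j1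
  e1_080 : s1 - (1 - (4 / 5 : ℝ)) ^ 2 ≤ 2 * (4 / 5 : ℝ) * j1
  i2_020 : s2 ≤ (2433 / 10000 : ℝ) + (273 / 625 : ℝ) * p2
  i2_035 : s2 ≤ (1269 / 10000 : ℝ) + (917 / 1250 : ℝ) * p2
  i2_050 : s2 ≤ (107 / 2500 : ℝ) + (1229 / 1250 : ℝ) * p2
  e2_100 : s2 - (1 - (1 : ℝ)) ^ 2 ≤ 2 * (1 : ℝ) * j2
  e2_090 : s2 - (1 - (9 / 10 : ℝ)) ^ 2 ≤ 2 * (9 / 10 : ℝ) * j2
  e2_085 : s2 - (1 - (17 / 20 : ℝ)) ^ 2 ≤ 2 * (17 / 20 : ℝ) * j2
  e2_080 : s2 - (1 - (4 / 5 : ℝ)) ^ 2 ≤ 2 * (4 / 5 : ℝ) * j2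
  i3_020 : s3 ≤ (2433 / 10000 : ℝ) + (273 / 625 : ℝ) * p3
  i3_035 : s3 ≤ (1269 / 10000 : ℝ) + (917 / 1250 : ℝ) * p3
  i3_050 : s3 ≤ (107 / 2500 : ℝ) + (1229 / 1250 : ℝ) * p3
  e3_100 : s3 - (1 - (1 : ℝ)) ^ 2 ≤ 2 * (1 : ℝ) * j3
  e3_090 : s3 - (1 - (9 / 10 : ℝ)) ^ 2 ≤ 2 * (9 / 10 : ℝ) * j3
  e3_085 : s3 - (1 - (17 / 20 : ℝ)) ^ 2 ≤ 2 * (17 / 20 : ℝ) * j3
  e3_080 : s3 - (1 - (4 / 5 : ℝ)) ^ 2 ≤ 2 * (4 / 5 : ℝ) * j3
  i4_020 : s4 ≤ (2433 / 10000 : ℝ) + (273 / 625 : ℝ) * p4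
  i4_035 : s4 ≤ (1269 / 10000 : ℝ) + (917 / 1250 : ℝ) * p4
  i4_050 : s4 ≤ (107 / 2500 : ℝ) + (1229 / 1250 : ℝ) * p4
  e4_100 : s4 - (1 - (1 : ℝ)) ^ 2 ≤ 2 * (1 : ℝ) * j4
  e4_090 : s4 - (1 - (9 / 10 : ℝ)) ^ 2 ≤ 2 * (9 / 10 : ℝ) * j4
  e4_085 : s4 - (1 - (17 / 20 : ℝ)) ^ 2 ≤ 2 * (17 / 20 : ℝ) * j4
  e4_080 : s4 - (1 - (4 / 5 : ℝ)) ^ 2 ≤ 2 * (4 / 5 : ℝ) * j4

lemma leaf5_1 {s1 s2 s3 s4 e x1 x2 x3 y1 y2 y3 p1 p2 p3 p4 p5 pT j1 j2 j3 j4 : ℝ} (h : Base5 s1 s2 s3 s4 e x1 x2 x3 y1 y2 y3 p1 p2 p3 p4 p5 pT j1 j2 j3 j4)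
    (c1 : j1 ≤ (-11147 / 50000 : ℝ) + (3337 / 2500 : ℝ) * p1) (l1 : (34457 / 100000 : ℝ) ≤ p1) (u1 : p1 ≤ (1 / 2 : ℝ))
    (c2 : j2 ≤ (-7901 / 50000 : ℝ) + (241 / 200 : ℝ) * p2) (l2 : (4237 / 20000 : ℝ) ≤ p2) (u2 : p2 ≤ (1 / 2 : ℝ))
    (c3 : j3 ≤ (-7901 / 50000 : ℝ) + (241 / 200 : ℝ) * p3) (l3 : (4237 / 20000 : ℝ) ≤ p3) (u3 : p3 ≤ (1 / 2 : ℝ))
    (c4 : j4 ≤ (-7901 / 50000 : ℝ) + (241 / 200 : ℝ) * p4) (l4 : (4237 / 20000 : ℝ) ≤ p4) (u4 : p4 ≤ (1 / 2 : ℝ))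
    (c5 : e ≤ 2 * (8889 / 10000 : ℝ) * pT) (l5 : (0 : ℝ) ≤ p5) (u5 : p5 ≤ (1 / 2 : ℝ))
    : False := by
  obtain ⟨hsum, hpsum, hns1, hns2, hns3, hns4, hne, hnx1, hnx2, hnx3, hny1, hny2, hny3, hnp5, hnj1, hnj2, hnj3, hnj4, hxs1, hys1, hxs2, hys2, hxs3, hys3, hxsum, hysum, ho1, ho2, ho3, ho4, ho5, hd3, hd4, hi1_020, hi1_035, hi1_050, he1_100, he1_090, he1_085, he1_080, hi2_020, hi2_035, hi2_050, he2_100, he2_090, he2_085, he2_080, hi3_020, hi3_035, hi3_050, he3_100, he3_090, he3_085, he3_080, hi4_020, hi4_035, hi4_050, he4_100, he4_090, he4_085, he4_080⟩ := h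
  linarith only [hsum, hpsum, hne, hi1_035, he2_090, he3_090, he4_090, l1, c2, c3, c4, c5]

lemma leaf5_2 {s1 s2 s3 s4 e x1 x2 x3 y1 y2 y3 p1 p2 p3 p4 p5 pT j1 j2 j3 j4 : ℝ} (h : Base5 s1 s2 s3 s4 e x1 x2 x3 y1 y2 y3 p1 p2 p3 p4 p5 pT j1 j2 j3 j4)
    (c1 : j1 ≤ (-4239 / 25000 : ℝ) + (11799 / 10000 : ℝ) * p1) (l1 : (30853 / 100000 : ℝ) ≤ p1) (u1 : p1 ≤ (17229 / 50000 : ℝ))
    (c2 : j2 ≤ (-4239 / 25000 : ℝ) + (11799 / 10000 : ℝ) * p2) (l2 : (30853 / 100000 : ℝ) ≤ p2) (u2 : p2 ≤ (17229 / 50000 : ℝ))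
    (c3 : j3 ≤ (-629 / 5000 : ℝ) + (10529 / 10000 : ℝ) * p3) (l3 : (4237 / 20000 : ℝ) ≤ p3) (u3 : p3 ≤ (17229 / 50000 : ℝ))
    (c4 : j4 ≤ (-629 / 5000 : ℝ) + (10529 / 10000 : ℝ) * p4) (l4 : (4237 / 20000 : ℝ) ≤ p4) (u4 : p4 ≤ (17229 / 50000 : ℝ))
    (c5 : e ≤ 2 * (3439 / 5000 : ℝ) * pT) (l5 : (0 : ℝ) ≤ p5) (u5 : p5 ≤ (17229 / 50000 : ℝ))
    : False := by
  obtain ⟨hsum, hpsum, hns1, hns2, hns3, hns4, hne, hnx1, hnx2, hnx3, hny1, hny2, hny3, hnp5, hnj1, hnj2, hnj3, hnj4, hxs1, hys1, hxs2, hys2, hxs3, hys3, hxsum, hysum, ho1, ho2, ho3, ho4, ho5, hd3, hd4, hi1_020, hi1_035, hi1_050, he1_100, he1_090, he1_085, he1_080, hi2_020, hi2_035, hi2_050, he2_100, he2_090, he2_085, he2_080, hi3_020, hi3_035, hi3_050, he3_100, he3_090, he3_085, he3_080, hi4_020, hi4_035, hi4_050, he4_100, he4_090, he4_085, he4_080⟩ := h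
  linarith only [hpsum, hne, l1, l2, l3, l4, c5]

lemma leaf5_3 {s1 s2 s3 s4 e x1 x2 x3 y1 y2 y3 p1 p2 p3 p4 p5 pT j1 j2 j3 j4 : ℝ} (h : Base5 s1 s2 s3 s4 e x1 x2 x3 y1 y2 y3 p1 p2 p3 p4 p5 pT j1 j2 j3 j4)
    (c1 : j1 ≤ (-3879 / 25000 : ℝ) + (11381 / 10000 : ℝ) * p1) (l1 : (1097 / 4000 : ℝ) ≤ p1) (u1 : p1 ≤ (17229 / 50000 : ℝ))
    (c2 : j2 ≤ (-2863 / 20000 : ℝ) + (10943 / 10000 : ℝ) * p2) (l2 : (1097 / 4000 : ℝ) ≤ p2) (u2 : p2 ≤ (15427 / 50000 : ℝ))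
    (c3 : j3 ≤ (-2863 / 20000 : ℝ) + (10943 / 10000 : ℝ) * p3) (l3 : (1097 / 4000 : ℝ) ≤ p3) (u3 : p3 ≤ (15427 / 50000 : ℝ))
    (c4 : j4 ≤ (-5789 / 50000 : ℝ) + (1257 / 1250 : ℝ) * p4) (l4 : (4237 / 20000 : ℝ) ≤ p4) (u4 : p4 ≤ (15427 / 50000 : ℝ))
    (c5 : e ≤ 2 * (394 / 625 : ℝ) * pT) (l5 : (0 : ℝ) ≤ p5) (u5 : p5 ≤ (15427 / 50000 : ℝ))
    : False := by
  obtain ⟨hsum, hpsum, hns1, hns2, hns3, hns4, hne, hnx1, hnx2, hnx3, hny1, hny2, hny3, hnp5, hnj1, hnj2, hnj3, hnj4, hxs1, hys1, hxs2, hys2, hxs3, hys3, hxsum, hysum, ho1, ho2, ho3, ho4, ho5, hd3, hd4, hi1_020, hi1_035, hi1_050, he1_100, he1_090, he1_085, he1_080, hi2_020, hi2_035, hi2_050, he2_100, he2_090, he2_085, he2_080, hi3_020, hi3_035, hi3_050, he3_100, he3_090, he3_085, he3_080, hi4_020, hi4_035, hi4_050, he4_100, he4_090, he4_085, he4_080⟩ := h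
  linarith only [hpsum, hne, l1, l2, l3, l4, c5]

lemma leaf5_4 {s1 s2 s3 s4 e x1 x2 x3 y1 y2 y3 p1 p2 p3 p4 p5 pT j1 j2 j3 j4 : ℝ} (h : Base5 s1 s2 s3 s4 e x1 x2 x3 y1 y2 y3 p1 p2 p3 p4 p5 pT j1 j2 j3 j4)
    (c1 : j1 ≤ (-14047 / 100000 : ℝ) + (2191 / 2000 : ℝ) * p1) (l1 : (6049 / 25000 : ℝ) ≤ p1) (u1 : p1 ≤ (17229 / 50000 : ℝ))
    (c2 : j2 ≤ (-12941 / 100000 : ℝ) + (5249 / 5000 : ℝ) * p2) (l2 : (6049 / 25000 : ℝ) ≤ p2) (u2 : p2 ≤ (15427 / 50000 : ℝ))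
    (c3 : j3 ≤ (-11797 / 100000 : ℝ) + (401 / 400 : ℝ) * p3) (l3 : (6049 / 25000 : ℝ) ≤ p3) (u3 : p3 ≤ (13713 / 50000 : ℝ))
    (c4 : j4 ≤ (-11797 / 100000 : ℝ) + (401 / 400 : ℝ) * p4) (l4 : (6049 / 25000 : ℝ) ≤ p4) (u4 : p4 ≤ (13713 / 50000 : ℝ))
    (c5 : e ≤ 2 * (1431 / 2500 : ℝ) * pT) (l5 : (6049 / 25000 : ℝ) ≤ p5) (u5 : p5 ≤ (13713 / 50000 : ℝ))
    : False := by
  obtain ⟨hsum, hpsum, hns1, hns2, hns3, hns4, hne, hnx1, hnx2, hnx3, hny1, hny2, hny3, hnp5, hnj1, hnj2, hnj3, hnj4, hxs1, hys1, hxs2, hys2, hxs3, hys3, hxsum, hysum, ho1, ho2, ho3, ho4, ho5, hd3, hd4, hi1_020, hi1_035, hi1_050, he1_100, he1_090, he1_085, he1_080, hi2_020, hi2_035, hi2_050, he2_100, he2_090, he2_085, he2_080, hi3_020, hi3_035, hi3_050, he3_100, he3_090, he3_085, he3_080, hi4_020, hi4_035, hi4_050, he4_100, he4_090, he4_085, he4_080⟩ := h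
  linarith only [hpsum, ho5, l1, l2, l3, l4, l5]

lemma leaf5_5 {s1 s2 s3 s4 e x1 x2 x3 y1 y2 y3 p1 p2 p3 p4 p5 pT j1 j2 j3 j4 : ℝ} (h : Base5 s1 s2 s3 s4 e x1 x2 x3 y1 y2 y3 p1 p2 p3 p4 p5 pT j1 j2 j3 j4)
    (c1 : j1 ≤ (-14047 / 100000 : ℝ) + (2191 / 2000 : ℝ) * p1) (l1 : (6049 / 25000 : ℝ) ≤ p1) (u1 : p1 ≤ (17229 / 50000 : ℝ))
    (c2 : j2 ≤ (-5789 / 50000 : ℝ) + (1257 / 1250 : ℝ) * p2) (l2 : (4237 / 20000 : ℝ) ≤ p2) (u2 : p2 ≤ (15427 / 50000 : ℝ))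
    (c3 : j3 ≤ (-5273 / 50000 : ℝ) + (9569 / 10000 : ℝ) * p3) (l3 : (4237 / 20000 : ℝ) ≤ p3) (u3 : p3 ≤ (13713 / 50000 : ℝ))
    (c4 : j4 ≤ (-5273 / 50000 : ℝ) + (9569 / 10000 : ℝ) * p4) (l4 : (4237 / 20000 : ℝ) ≤ p4) (u4 : p4 ≤ (13713 / 50000 : ℝ))
    (c5 : e ≤ 2 * (103 / 200 : ℝ) * pT) (l5 : (0 : ℝ) ≤ p5) (u5 : p5 ≤ (24197 / 100000 : ℝ))
    : False := by
  obtain ⟨hsum, hpsum, hns1, hns2, hns3, hns4, hne, hnx1, hnx2, hnx3, hny1, hny2, hny3, hnp5, hnj1, hnj2, hnj3, hnj4, hxs1, hys1, hxs2, hys2, hxs3, hys3, hxsum, hysum, ho1, ho2, ho3, ho4, ho5, hd3, hd4, hi1_020, hi1_035, hi1_050, he1_100, he1_090, he1_085, he1_080, hi2_020, hi2_035, hi2_050, he2_100, he2_090, he2_085, he2_080, hi3_020, hi3_035, hi3_050, he3_100, he3_090, he3_085, he3_080, hi4_020, hi4_035, hi4_050, he4_100, he4_090, he4_085, he4_080⟩ := h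
  have hd0 := heron_lin (x := y1) (y := y2) (z := y3) (3 / 4 : ℝ) (241 / 1000 : ℝ) (349 / 1000 : ℝ) (101 / 500 : ℝ) (8 / 25 : ℝ) (21 / 125 : ℝ) (34 / 125 : ℝ)
    (by linarith only [hsum, hpsum, hys2, hys3, hysum, ho1, ho2, ho3, he1_085, he2_085, he3_085, he4_085, c1, c2, c3, c4, c5])
    (by linarith only [hsum, hpsum, hne, hys1, hi1_050, he2_090, he2_085, he3_090, he4_090, c2, c3, c4, c5])
    (by linarith only [hsum, hpsum, hys1, hys3, hysum, ho2, ho3, hi1_050, he1_080, he2_090, he3_090, he4_090, c1, c2, c3, c4, c5])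
    (by linarith only [hpsum, hne, hys2, ho1, he2_085, c2, l3, l4, c5])
    (by linarith only [hsum, hpsum, hys1, hys2, hysum, ho3, hi1_050, he1_080, he2_085, he3_090, he4_090, c1, c2, c3, l3, c4, c5])
    (by linarith only [hpsum, hne, hys3, ho1, ho2, he3_085, c3, l4, c5])
  linarith only [hsum, hpsum, hys1, hys2, hysum, ho3, hd4, hi1_050, he1_080, he2_090, he2_085, he3_090, he4_090, c1, c2, c3, c4, c5, hd0]

lemma leaf5_6 {s1 s2 s3 s4 e x1 x2 x3 y1 y2 y3 p1 p2 p3 p4 p5 pT j1 j2 j3 j4 : ℝ} (h : Base5 s1 s2 s3 s4 e x1 x2 x3 y1 y2 y3 p1 p2 p3 p4 p5 pT j1 j2 j3 j4)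
    (c1 : j1 ≤ (-9513 / 100000 : ℝ) + (9081 / 10000 : ℝ) * p1) (l1 : (4237 / 20000 : ℝ) ≤ p1) (u1 : p1 ≤ (24197 / 100000 : ℝ))
    (c2 : j2 ≤ (-9513 / 100000 : ℝ) + (9081 / 10000 : ℝ) * p2) (l2 : (4237 / 20000 : ℝ) ≤ p2) (u2 : p2 ≤ (24197 / 100000 : ℝ))
    (c3 : j3 ≤ (-9513 / 100000 : ℝ) + (9081 / 10000 : ℝ) * p3) (l3 : (4237 / 20000 : ℝ) ≤ p3) (u3 : p3 ≤ (24197 / 100000 : ℝ))
    (c4 : j4 ≤ (-9513 / 100000 : ℝ) + (9081 / 10000 : ℝ) * p4) (l4 : (4237 / 20000 : ℝ) ≤ p4) (u4 : p4 ≤ (24197 / 100000 : ℝ))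
    (c5 : e ≤ 2 * (103 / 200 : ℝ) * pT) (l5 : (0 : ℝ) ≤ p5) (u5 : p5 ≤ (24197 / 100000 : ℝ))
    : False := by
  obtain ⟨hsum, hpsum, hns1, hns2, hns3, hns4, hne, hnx1, hnx2, hnx3, hny1, hny2, hny3, hnp5, hnj1, hnj2, hnj3, hnj4, hxs1, hys1, hxs2, hys2, hxs3, hys3, hxsum, hysum, ho1, ho2, ho3, ho4, ho5, hd3, hd4, hi1_020, hi1_035, hi1_050, he1_100, he1_090, he1_085, he1_080, hi2_020, hi2_035, hi2_050, he2_100, he2_090, he2_085, he2_080, hi3_020, hi3_035, hi3_050, he3_100, he3_090, he3_085, he3_080, hi4_020, hi4_035, hi4_050, he4_100, he4_090, he4_085, he4_080⟩ := h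
  linarith only [hsum, hpsum, he1_085, he2_085, he3_085, he4_085, c1, u1, c2, u2, c3, u3, c4, u4, c5]

lemma leaf5_7 {s1 s2 s3 s4 e x1 x2 x3 y1 y2 y3 p1 p2 p3 p4 p5 pT j1 j2 j3 j4 : ℝ} (h : Base5 s1 s2 s3 s4 e x1 x2 x3 y1 y2 y3 p1 p2 p3 p4 p5 pT j1 j2 j3 j4)
    (c1 : j1 ≤ (-8767 / 50000 : ℝ) + (3099 / 2500 : ℝ) * p1) (l1 : (6049 / 25000 : ℝ) ≤ p1) (u1 : p1 ≤ (1 / 2 : ℝ))
    (c2 : j2 ≤ (-7901 / 50000 : ℝ) + (241 / 200 : ℝ) * p2) (l2 : (4237 / 20000 : ℝ) ≤ p2) (u2 : p2 ≤ (1 / 2 : ℝ))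
    (c3 : j3 ≤ (-12411 / 100000 : ℝ) + (2843 / 2500 : ℝ) * p3) (l3 : (3173 / 20000 : ℝ) ≤ p3) (u3 : p3 ≤ (1 / 2 : ℝ))
    (c4 : j4 ≤ (-3291 / 50000 : ℝ) + (3849 / 5000 : ℝ) * p4) (l4 : (3173 / 20000 : ℝ) ≤ p4) (u4 : p4 ≤ (10593 / 50000 : ℝ))
    (c5 : e ≤ 2 * (4591 / 10000 : ℝ) * pT) (l5 : (3173 / 20000 : ℝ) ≤ p5) (u5 : p5 ≤ (10593 / 50000 : ℝ))
    : False := by
  obtain ⟨hsum, hpsum, hns1, hns2, hns3, hns4, hne, hnx1, hnx2, hnx3, hny1, hny2, hny3, hnp5, hnj1, hnj2, hnj3, hnj4, hxs1, hys1, hxs2, hys2, hxs3, hys3, hxsum, hysum, ho1, ho2, ho3, ho4, ho5, hd3, hd4, hi1_020, hi1_035, hi1_050, he1_100, he1_090, he1_085, he1_080, hi2_020, hi2_035, hi2_050, he2_100, he2_090, he2_085, he2_080, hi3_020, hi3_035, hi3_050, he3_100, he3_090, he3_085, he3_080, hi4_020, hi4_035, hi4_050, he4_100, he4_090, he4_085, he4_080⟩ := h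
  linarith only [hsum, hpsum, ho5, hi1_050, he1_085, he2_085, he3_090, he4_090, c1, c2, c3, l3, c4, l4, c5, l5]

lemma leaf5_8 {s1 s2 s3 s4 e x1 x2 x3 y1 y2 y3 p1 p2 p3 p4 p5 pT j1 j2 j3 j4 : ℝ} (h : Base5 s1 s2 s3 s4 e x1 x2 x3 y1 y2 y3 p1 p2 p3 p4 p5 pT j1 j2 j3 j4)
    (c1 : j1 ≤ (-11147 / 50000 : ℝ) + (3337 / 2500 : ℝ) * p1) (l1 : (34457 / 100000 : ℝ) ≤ p1) (u1 : p1 ≤ (1 / 2 : ℝ))
    (c2 : j2 ≤ (-11147 / 50000 : ℝ) + (3337 / 2500 : ℝ) * p2) (l2 : (34457 / 100000 : ℝ) ≤ p2) (u2 : p2 ≤ (1 / 2 : ℝ))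
    (c3 : j3 ≤ (-11147 / 50000 : ℝ) + (3337 / 2500 : ℝ) * p3) (l3 : (34457 / 100000 : ℝ) ≤ p3) (u3 : p3 ≤ (1 / 2 : ℝ))
    (c4 : j4 ≤ (4591 / 10000 : ℝ) * p4) (l4 : (0 : ℝ) ≤ p4) (u4 : p4 ≤ (10593 / 50000 : ℝ))
    (c5 : e ≤ 2 * (3549 / 10000 : ℝ) * pT) (l5 : (0 : ℝ) ≤ p5) (u5 : p5 ≤ (7933 / 50000 : ℝ))
    : False := by
  obtain ⟨hsum, hpsum, hns1, hns2, hns3, hns4, hne, hnx1, hnx2, hnx3, hny1, hny2, hny3, hnp5, hnj1, hnj2, hnj3, hnj4, hxs1, hys1, hxs2, hys2, hxs3, hys3, hxsum, hysum, ho1, ho2, ho3, ho4, ho5, hd3, hd4, hi1_020, hi1_035, hi1_050, he1_100, he1_090, he1_085, he1_080, hi2_020, hi2_035, hi2_050, he2_100, he2_090, he2_085, he2_080, hi3_020, hi3_035, hi3_050, he3_100, he3_090, he3_085, he3_080, hi4_020, hi4_035, hi4_050, he4_100, he4_090, he4_085, he4_080⟩ := h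
  linarith only [hpsum, hnp5, ho5, l1, l2, l3, l4]

lemma leaf5_9 {s1 s2 s3 s4 e x1 x2 x3 y1 y2 y3 p1 p2 p3 p4 p5 pT j1 j2 j3 j4 : ℝ} (h : Base5 s1 s2 s3 s4 e x1 x2 x3 y1 y2 y3 p1 p2 p3 p4 p5 pT j1 j2 j3 j4)
    (c1 : j1 ≤ (-8767 / 50000 : ℝ) + (3099 / 2500 : ℝ) * p1) (l1 : (6049 / 25000 : ℝ) ≤ p1) (u1 : p1 ≤ (1 / 2 : ℝ))
    (c2 : j2 ≤ (-7901 / 50000 : ℝ) + (241 / 200 : ℝ) * p2) (l2 : (4237 / 20000 : ℝ) ≤ p2) (u2 : p2 ≤ (1 / 2 : ℝ))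
    (c3 : j3 ≤ (-9789 / 100000 : ℝ) + (9719 / 10000 : ℝ) * p3) (l3 : (3173 / 20000 : ℝ) ≤ p3) (u3 : p3 ≤ (17229 / 50000 : ℝ))
    (c4 : j4 ≤ (-49 / 1000 : ℝ) + (863 / 1250 : ℝ) * p4) (l4 : (5753 / 50000 : ℝ) ≤ p4) (u4 : p4 ≤ (10593 / 50000 : ℝ))
    (c5 : e ≤ 2 * (3549 / 10000 : ℝ) * pT) (l5 : (5753 / 50000 : ℝ) ≤ p5) (u5 : p5 ≤ (7933 / 50000 : ℝ))
    : False := by
  obtain ⟨hsum, hpsum, hns1, hns2, hns3, hns4, hne, hnx1, hnx2, hnx3, hny1, hny2, hny3, hnp5, hnj1, hnj2, hnj3, hnj4, hxs1, hys1, hxs2, hys2, hxs3, hys3, hxsum, hysum, ho1, ho2, ho3, ho4, ho5, hd3, hd4, hi1_020, hi1_035, hi1_050, he1_100, he1_090, he1_085, he1_080, hi2_020, hi2_035, hi2_050, he2_100, he2_090, he2_085, he2_080, hi3_020, hi3_035, hi3_050, he3_100, he3_090, he3_085, he3_080, hi4_020, hi4_035, hi4_050, he4_100, he4_090, he4_085, he4_080⟩ := h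
  linarith only [hsum, hpsum, ho5, hi1_050, he1_085, hi2_050, he2_085, he3_090, he4_100, c1, c2, c3, c4, l4, c5, l5]

lemma leaf5_10 {s1 s2 s3 s4 e x1 x2 x3 y1 y2 y3 p1 p2 p3 p4 p5 pT j1 j2 j3 j4 : ℝ} (h : Base5 s1 s2 s3 s4 e x1 x2 x3 y1 y2 y3 p1 p2 p3 p4 p5 pT j1 j2 j3 j4)
    (c1 : j1 ≤ (-10417 / 50000 : ℝ) + (816 / 625 : ℝ) * p1) (l1 : (30853 / 100000 : ℝ) ≤ p1) (u1 : p1 ≤ (1 / 2 : ℝ))
    (c2 : j2 ≤ (-10417 / 50000 : ℝ) + (816 / 625 : ℝ) * p2) (l2 : (30853 / 100000 : ℝ) ≤ p2) (u2 : p2 ≤ (1 / 2 : ℝ))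
    (c3 : j3 ≤ (-9789 / 100000 : ℝ) + (9719 / 10000 : ℝ) * p3) (l3 : (3173 / 20000 : ℝ) ≤ p3) (u3 : p3 ≤ (17229 / 50000 : ℝ))
    (c4 : j4 ≤ (-3511 / 100000 : ℝ) + (781 / 1250 : ℝ) * p4) (l4 : (323 / 4000 : ℝ) ≤ p4) (u4 : p4 ≤ (10593 / 50000 : ℝ))
    (c5 : e ≤ 2 * (529 / 2000 : ℝ) * pT) (l5 : (323 / 4000 : ℝ) ≤ p5) (u5 : p5 ≤ (11507 / 100000 : ℝ))
    : False := by
  obtain ⟨hsum, hpsum, hns1, hns2, hns3, hns4, hne, hnx1, hnx2, hnx3, hny1, hny2, hny3, hnp5, hnj1, hnj2, hnj3, hnj4, hxs1, hys1, hxs2, hys2, hxs3, hys3, hxsum, hysum, ho1, ho2, ho3, ho4, ho5, hd3, hd4, hi1_020, hi1_035, hi1_050, he1_100, he1_090, he1_085, he1_080, hi2_020, hi2_035, hi2_050, he2_100, he2_090, he2_085, he2_080, hi3_020, hi3_035, hi3_050, he3_100, he3_090, he3_085, he3_080, hi4_020, hi4_035, hi4_050, he4_100, he4_090, he4_085, he4_080⟩ := h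
  linarith only [hsum, hpsum, ho5, hi1_050, hi2_050, he3_090, he4_100, l1, l2, c3, c4, l4, c5, l5]

lemma leaf5_11 {s1 s2 s3 s4 e x1 x2 x3 y1 y2 y3 p1 p2 p3 p4 p5 pT j1 j2 j3 j4 : ℝ} (h : Base5 s1 s2 s3 s4 e x1 x2 x3 y1 y2 y3 p1 p2 p3 p4 p5 pT j1 j2 j3 j4)
    (c1 : j1 ≤ (-8767 / 50000 : ℝ) + (3099 / 2500 : ℝ) * p1) (l1 : (6049 / 25000 : ℝ) ≤ p1) (u1 : p1 ≤ (1 / 2 : ℝ))
    (c2 : j2 ≤ (-12941 / 100000 : ℝ) + (5249 / 5000 : ℝ) * p2) (l2 : (6049 / 25000 : ℝ) ≤ p2) (u2 : p2 ≤ (15427 / 50000 : ℝ))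
    (c3 : j3 ≤ (-1799 / 20000 : ℝ) + (9219 / 10000 : ℝ) * p3) (l3 : (3173 / 20000 : ℝ) ≤ p3) (u3 : p3 ≤ (15427 / 50000 : ℝ))
    (c4 : j4 ≤ (-3511 / 100000 : ℝ) + (781 / 1250 : ℝ) * p4) (l4 : (323 / 4000 : ℝ) ≤ p4) (u4 : p4 ≤ (10593 / 50000 : ℝ))
    (c5 : e ≤ 2 * (529 / 2000 : ℝ) * pT) (l5 : (323 / 4000 : ℝ) ≤ p5) (u5 : p5 ≤ (11507 / 100000 : ℝ))
    : False := by
  obtain ⟨hsum, hpsum, hns1, hns2, hns3, hns4, hne, hnx1, hnx2, hnx3, hny1, hny2, hny3, hnp5, hnj1, hnj2, hnj3, hnj4, hxs1, hys1, hxs2, hys2, hxs3, hys3, hxsum, hysum, ho1, ho2, ho3, ho4, ho5, hd3, hd4, hi1_020, hi1_035, hi1_050, he1_100, he1_090, he1_085, he1_080, hi2_020, hi2_035, hi2_050, he2_100, he2_090, he2_085, he2_080, hi3_020, hi3_035, hi3_050, he3_100, he3_090, he3_085, he3_080, hi4_020, hi4_035, hi4_050, he4_100, he4_090, he4_085, he4_080⟩ := h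
  linarith only [hsum, hpsum, ho1, ho5, hi1_050, he1_080, he2_085, he3_085, he4_100, c1, c2, c3, c4, l4, c5, l5]

lemma leaf5_12 {s1 s2 s3 s4 e x1 x2 x3 y1 y2 y3 p1 p2 p3 p4 p5 pT j1 j2 j3 j4 : ℝ} (h : Base5 s1 s2 s3 s4 e x1 x2 x3 y1 y2 y3 p1 p2 p3 p4 p5 pT j1 j2 j3 j4)
    (c1 : j1 ≤ (-19229 / 100000 : ℝ) + (2547 / 2000 : ℝ) * p1) (l1 : (1097 / 4000 : ℝ) ≤ p1) (u1 : p1 ≤ (1 / 2 : ℝ))
    (c2 : j2 ≤ (-8767 / 50000 : ℝ) + (3099 / 2500 : ℝ) * p2) (l2 : (6049 / 25000 : ℝ) ≤ p2) (u2 : p2 ≤ (1 / 2 : ℝ))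
    (c3 : j3 ≤ (-9789 / 100000 : ℝ) + (9719 / 10000 : ℝ) * p3) (l3 : (3173 / 20000 : ℝ) ≤ p3) (u3 : p3 ≤ (17229 / 50000 : ℝ))
    (c4 : j4 ≤ (-3291 / 50000 : ℝ) + (3849 / 5000 : ℝ) * p4) (l4 : (3173 / 20000 : ℝ) ≤ p4) (u4 : p4 ≤ (10593 / 50000 : ℝ))
    (c5 : e ≤ 2 * (19 / 100 : ℝ) * pT) (l5 : (0 : ℝ) ≤ p5) (u5 : p5 ≤ (2019 / 25000 : ℝ))
    : False := by
  obtain ⟨hsum, hpsum, hns1, hns2, hns3, hns4, hne, hnx1, hnx2, hnx3, hny1, hny2, hny3, hnp5, hnj1, hnj2, hnj3, hnj4, hxs1, hys1, hxs2, hys2, hxs3, hys3, hxsum, hysum, ho1, ho2, ho3, ho4, ho5, hd3, hd4, hi1_020, hi1_035, hi1_050, he1_100, he1_090, he1_085, he1_080, hi2_020, hi2_035, hi2_050, he2_100, he2_090, he2_085, he2_080, hi3_020, hi3_035, hi3_050, he3_100, he3_090, he3_085, he3_080, hi4_020, hi4_035, hi4_050, he4_100, he4_090, he4_085, he4_080⟩ := h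
  have hd0 := heron_lin (x := y1) (y := y2) (z := y3) (21 / 25 : ℝ) (249 / 1000 : ℝ) (99 / 250 : ℝ) (43 / 200 : ℝ) (367 / 1000 : ℝ) (7 / 50 : ℝ) (8 / 25 : ℝ)
    (by linarith only [hsum, hpsum, hnp5, hys2, hys3, hysum, ho1, ho2, ho5, he2_085, he3_085, he4_090, l1, c2, c3, c4, c5])
    (by linarith only [hsum, hpsum, hnp5, hys1, ho5, hi1_035, hi2_050, he2_080, he3_090, he4_090, c2, c3, c4, l4, c5])
    (by linarith only [hsum, hpsum, hnp5, hys1, hys3, hysum, ho2, ho5, hi1_050, he3_085, he4_090, l2, c3, c4, u4, c5])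
    (by linarith only [hsum, hpsum, hnp5, hys2, ho1, ho5, hi1_050, hi2_050, he3_090, he4_090, c3, c4, l4, c5])
    (by linarith only [hsum, hpsum, hnp5, hys1, hys2, hysum, ho3, ho5, hi1_050, hi2_050, he3_090, he4_090, c3, c4, c5])
    (by linarith only [hpsum, hnp5, hys3, ho1, ho2, ho5, hi3_050, l4])
  linarith only [hsum, hpsum, hys1, hys2, hysum, hd4, hi1_050, he1_080, hi2_050, he2_080, he3_090, he4_090, c1, c2, c3, c4, l4, c5, hd0]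

lemma leaf5_13 {s1 s2 s3 s4 e x1 x2 x3 y1 y2 y3 p1 p2 p3 p4 p5 pT j1 j2 j3 j4 : ℝ} (h : Base5 s1 s2 s3 s4 e x1 x2 x3 y1 y2 y3 p1 p2 p3 p4 p5 pT j1 j2 j3 j4)
    (c1 : j1 ≤ (-19229 / 100000 : ℝ) + (2547 / 2000 : ℝ) * p1) (l1 : (1097 / 4000 : ℝ) ≤ p1) (u1 : p1 ≤ (1 / 2 : ℝ))
    (c2 : j2 ≤ (-8767 / 50000 : ℝ) + (3099 / 2500 : ℝ) * p2) (l2 : (6049 / 25000 : ℝ) ≤ p2) (u2 : p2 ≤ (1 / 2 : ℝ))
    (c3 : j3 ≤ (-629 / 5000 : ℝ) + (10529 / 10000 : ℝ) * p3) (l3 : (4237 / 20000 : ℝ) ≤ p3) (u3 : p3 ≤ (17229 / 50000 : ℝ))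
    (c4 : j4 ≤ (-757 / 20000 : ℝ) + (1187 / 2000 : ℝ) * p4) (l4 : (5753 / 50000 : ℝ) ≤ p4) (u4 : p4 ≤ (7933 / 50000 : ℝ))
    (c5 : e ≤ 2 * (19 / 100 : ℝ) * pT) (l5 : (0 : ℝ) ≤ p5) (u5 : p5 ≤ (2019 / 25000 : ℝ))
    : False := by
  obtain ⟨hsum, hpsum, hns1, hns2, hns3, hns4, hne, hnx1, hnx2, hnx3, hny1, hny2, hny3, hnp5, hnj1, hnj2, hnj3, hnj4, hxs1, hys1, hxs2, hys2, hxs3, hys3, hxsum, hysum, ho1, ho2, ho3, ho4, ho5, hd3, hd4, hi1_020, hi1_035, hi1_050, he1_100, he1_090, he1_085, he1_080, hi2_020, hi2_035, hi2_050, he2_100, he2_090, he2_085, he2_080, hi3_020, hi3_035, hi3_050, he3_100, he3_090, he3_085, he3_080, hi4_020, hi4_035, hi4_050, he4_100, he4_090, he4_085, he4_080⟩ := h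
  have hd0 := heron_lin (x := y1) (y := y2) (z := y3) (9 / 10 : ℝ) (259 / 1000 : ℝ) (201 / 500 : ℝ) (253 / 1000 : ℝ) (93 / 250 : ℝ) (91 / 500 : ℝ) (167 / 500 : ℝ)
    (by linarith only [hsum, hpsum, hnp5, hys2, hys3, hysum, ho1, ho2, ho5, hi2_050, he2_080, he3_085, he4_090, c2, c3, c4, c5])
    (by linarith only [hsum, hpsum, hnp5, hys1, ho5, hi1_035, hi2_050, he2_080, he3_090, he4_100, c2, c3, c4, l4, c5])
    (by linarith only [hsum, hpsum, hnp5, hys1, hys3, hysum, ho2, ho5, hi1_035, hi1_050, he3_085, he4_090, c3, c4, u4, c5])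
    (by linarith only [hsum, hpsum, hnp5, hys2, ho1, ho5, hi1_050, hi2_050, he3_090, he4_100, c3, c4, l4, c5])
    (by linarith only [hsum, hpsum, hnp5, hys1, hys2, hysum, ho5, hi1_050, hi2_050, he4_090, l3, c4, u4, c5])
    (by linarith only [hpsum, hnp5, hys3, ho1, ho2, ho5, hi3_050, l4])
  linarith only [hsum, hpsum, hys1, hys2, hysum, hd4, hi1_050, he1_080, hi2_050, he2_080, he3_085, he4_100, c1, c2, c3, c4, l4, c5, hd0]

lemma leaf5_14 {s1 s2 s3 s4 e x1 x2 x3 y1 y2 y3 p1 p2 p3 p4 p5 pT j1 j2 j3 j4 : ℝ} (h : Base5 s1 s2 s3 s4 e x1 x2 x3 y1 y2 y3 p1 p2 p3 p4 p5 pT j1 j2 j3 j4)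
    (c1 : j1 ≤ (-10417 / 50000 : ℝ) + (816 / 625 : ℝ) * p1) (l1 : (30853 / 100000 : ℝ) ≤ p1) (u1 : p1 ≤ (1 / 2 : ℝ))
    (c2 : j2 ≤ (-10417 / 50000 : ℝ) + (816 / 625 : ℝ) * p2) (l2 : (30853 / 100000 : ℝ) ≤ p2) (u2 : p2 ≤ (1 / 2 : ℝ))
    (c3 : j3 ≤ (-4239 / 25000 : ℝ) + (11799 / 10000 : ℝ) * p3) (l3 : (30853 / 100000 : ℝ) ≤ p3) (u3 : p3 ≤ (17229 / 50000 : ℝ))
    (c4 : j4 ≤ (-569 / 50000 : ℝ) + (727 / 2000 : ℝ) * p4) (l4 : (557 / 12500 : ℝ) ≤ p4) (u4 : p4 ≤ (11507 / 100000 : ℝ))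
    (c5 : e ≤ 2 * (19 / 100 : ℝ) * pT) (l5 : (557 / 12500 : ℝ) ≤ p5) (u5 : p5 ≤ (2019 / 25000 : ℝ))
    : False := by
  obtain ⟨hsum, hpsum, hns1, hns2, hns3, hns4, hne, hnx1, hnx2, hnx3, hny1, hny2, hny3, hnp5, hnj1, hnj2, hnj3, hnj4, hxs1, hys1, hxs2, hys2, hxs3, hys3, hxsum, hysum, ho1, ho2, ho3, ho4, ho5, hd3, hd4, hi1_020, hi1_035, hi1_050, he1_100, he1_090, he1_085, he1_080, hi2_020, hi2_035, hi2_050, he2_100, he2_090, he2_085, he2_080, hi3_020, hi3_035, hi3_050, he3_100, he3_090, he3_085, he3_080, hi4_020, hi4_035, hi4_050, he4_100, he4_090, he4_085, he4_080⟩ := h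
  linarith only [hpsum, ho5, l1, l2, l3, l4, l5]

lemma leaf5_15 {s1 s2 s3 s4 e x1 x2 x3 y1 y2 y3 p1 p2 p3 p4 p5 pT j1 j2 j3 j4 : ℝ} (h : Base5 s1 s2 s3 s4 e x1 x2 x3 y1 y2 y3 p1 p2 p3 p4 p5 pT j1 j2 j3 j4)
    (c1 : j1 ≤ (-11147 / 50000 : ℝ) + (3337 / 2500 : ℝ) * p1) (l1 : (34457 / 100000 : ℝ) ≤ p1) (u1 : p1 ≤ (1 / 2 : ℝ))
    (c2 : j2 ≤ (-11147 / 50000 : ℝ) + (3337 / 2500 : ℝ) * p2) (l2 : (34457 / 100000 : ℝ) ≤ p2) (u2 : p2 ≤ (1 / 2 : ℝ))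
    (c3 : j3 ≤ (-5789 / 50000 : ℝ) + (1257 / 1250 : ℝ) * p3) (l3 : (4237 / 20000 : ℝ) ≤ p3) (u3 : p3 ≤ (15427 / 50000 : ℝ))
    (c4 : j4 ≤ (-569 / 50000 : ℝ) + (727 / 2000 : ℝ) * p4) (l4 : (557 / 12500 : ℝ) ≤ p4) (u4 : p4 ≤ (11507 / 100000 : ℝ))
    (c5 : e ≤ 2 * (19 / 100 : ℝ) * pT) (l5 : (557 / 12500 : ℝ) ≤ p5) (u5 : p5 ≤ (2019 / 25000 : ℝ))
    : False := by
  obtain ⟨hsum, hpsum, hns1, hns2, hns3, hns4, hne, hnx1, hnx2, hnx3, hny1, hny2, hny3, hnp5, hnj1, hnj2, hnj3, hnj4, hxs1, hys1, hxs2, hys2, hxs3, hys3, hxsum, hysum, ho1, ho2, ho3, ho4, ho5, hd3, hd4, hi1_020, hi1_035, hi1_050, he1_100, he1_090, he1_085, he1_080, hi2_020, hi2_035, hi2_050, he2_100, he2_090, he2_085, he2_080, hi3_020, hi3_035, hi3_050, he3_100, he3_090, he3_085, he3_080, hi4_020, hi4_035, hi4_050, he4_100, he4_090, he4_085, he4_080⟩ := h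
  linarith only [hsum, hpsum, ho5, hi1_035, hi2_035, he3_090, he4_100, l1, l2, c3, c4, l4, c5, l5]

lemma leaf5_16 {s1 s2 s3 s4 e x1 x2 x3 y1 y2 y3 p1 p2 p3 p4 p5 pT j1 j2 j3 j4 : ℝ} (h : Base5 s1 s2 s3 s4 e x1 x2 x3 y1 y2 y3 p1 p2 p3 p4 p5 pT j1 j2 j3 j4)
    (c1 : j1 ≤ (-19229 / 100000 : ℝ) + (2547 / 2000 : ℝ) * p1) (l1 : (1097 / 4000 : ℝ) ≤ p1) (u1 : p1 ≤ (1 / 2 : ℝ))
    (c2 : j2 ≤ (-3879 / 25000 : ℝ) + (11381 / 10000 : ℝ) * p2) (l2 : (1097 / 4000 : ℝ) ≤ p2) (u2 : p2 ≤ (17229 / 50000 : ℝ))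
    (c3 : j3 ≤ (-5789 / 50000 : ℝ) + (1257 / 1250 : ℝ) * p3) (l3 : (4237 / 20000 : ℝ) ≤ p3) (u3 : p3 ≤ (15427 / 50000 : ℝ))
    (c4 : j4 ≤ (-569 / 50000 : ℝ) + (727 / 2000 : ℝ) * p4) (l4 : (557 / 12500 : ℝ) ≤ p4) (u4 : p4 ≤ (11507 / 100000 : ℝ))
    (c5 : e ≤ 2 * (19 / 100 : ℝ) * pT) (l5 : (557 / 12500 : ℝ) ≤ p5) (u5 : p5 ≤ (2019 / 25000 : ℝ))
    : False := by
  obtain ⟨hsum, hpsum, hns1, hns2, hns3, hns4, hne, hnx1, hnx2, hnx3, hny1, hny2, hny3, hnp5, hnj1, hnj2, hnj3, hnj4, hxs1, hys1, hxs2, hys2, hxs3, hys3, hxsum, hysum, ho1, ho2, ho3, ho4, ho5, hd3, hd4, hi1_020, hi1_035, hi1_050, he1_100, he1_090, he1_085, he1_080, hi2_020, hi2_035, hi2_050, he2_100, he2_090, he2_085, he2_080, hi3_020, hi3_035, hi3_050, he3_100, he3_090, he3_085, he3_080, hi4_020, hi4_035, hi4_050, he4_100, he4_090, he4_085, he4_080⟩ := h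
  have hd0 := heron_lin (x := x1) (y := x2) (z := x3) (89 / 100 : ℝ) (6 / 25 : ℝ) (401 / 1000 : ℝ) (223 / 1000 : ℝ) (377 / 1000 : ℝ) (9 / 50 : ℝ) (171 / 500 : ℝ)
    (by linarith only [hsum, hpsum, hxs2, hxs3, hxsum, ho1, ho2, ho5, he1_085, he2_085, he3_085, he4_100, c1, c2, c3, c4, c5, l5])
    (by linarith only [hsum, hpsum, hxs1, ho4, ho5, hi1_035, hi2_050, he2_080, he3_085, he4_100, c2, c3, c4, c5, l5])
    (by linarith only [hsum, hpsum, hxs1, hxs3, hxsum, ho2, ho5, hi1_050, he1_080, he2_085, he3_085, he4_100, c1, c2, c3, c4, c5, l5])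
    (by linarith only [hsum, hpsum, hxs2, ho1, ho5, hi1_035, hi2_035, he3_090, he4_100, c3, c4, l4, c5, l5])
    (by linarith only [hsum, hpsum, hxs1, hxs2, hxsum, ho1, ho5, hi1_050, hi2_050, he2_080, he3_085, he4_100, c2, c3, c4, c5, l5])
    (by linarith only [hpsum, hxs3, ho1, ho2, ho5, hi3_050, l4, l5])
  have hd1 := heron_lin (x := y1) (y := y2) (z := y3) (91 / 100 : ℝ) (143 / 500 : ℝ) (367 / 1000 : ℝ) (34 / 125 : ℝ) (44 / 125 : ℝ) (111 / 500 : ℝ) (8 / 25 : ℝ)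
    (by linarith only [hsum, hpsum, hxs1, hxs2, hys2, hys3, hxsum, hysum, ho1, ho2, ho5, hd3, he2_085, he3_085, he4_100, c2, c3, c4, c5, l5, hd0])
    (by linarith only [hsum, hpsum, hxs1, hys1, hxs2, hxsum, ho5, hd3, hi1_050, hi2_050, he2_080, he3_085, he4_100, c2, c3, c4, c5, l5, hd0])
    (by linarith only [hsum, hpsum, hxs1, hys1, hxs2, hys3, hxsum, hysum, ho2, ho5, hd3, hi1_050, he2_085, he3_085, he4_100, c2, c3, c4, c5, l5, hd0])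
    (by linarith only [hsum, hpsum, hxs1, hxs2, hys2, hxsum, ho1, ho5, hd3, hi1_050, hi2_050, he3_085, he4_100, c3, c4, c5, l5, hd0])
    (by linarith only [hsum, hpsum, hxs1, hys1, hxs2, hys2, hxsum, hysum, ho5, hd3, hi1_050, hi2_050, he2_080, he3_085, he4_100, c2, c3, c4, c5, l5, hd0])
    (by linarith only [hsum, hpsum, hxs1, hxs2, hys3, hxsum, ho1, ho2, ho5, hd3, he1_080, he3_085, he4_100, c1, c3, c4, c5, l5, hd0])
  linarith only [hsum, hpsum, hxs1, hys1, hxs2, hys2, hxsum, hysum, ho1, hd3, hd4, hi1_050, he1_080, he2_080, he3_085, he4_100, c1, c2, c3, c4, c5, hd0, hd1]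

lemma leaf5_17 {s1 s2 s3 s4 e x1 x2 x3 y1 y2 y3 p1 p2 p3 p4 p5 pT j1 j2 j3 j4 : ℝ} (h : Base5 s1 s2 s3 s4 e x1 x2 x3 y1 y2 y3 p1 p2 p3 p4 p5 pT j1 j2 j3 j4)
    (c1 : j1 ≤ (-19229 / 100000 : ℝ) + (2547 / 2000 : ℝ) * p1) (l1 : (1097 / 4000 : ℝ) ≤ p1) (u1 : p1 ≤ (1 / 2 : ℝ))
    (c2 : j2 ≤ (-19229 / 100000 : ℝ) + (2547 / 2000 : ℝ) * p2) (l2 : (1097 / 4000 : ℝ) ≤ p2) (u2 : p2 ≤ (1 / 2 : ℝ))
    (c3 : j3 ≤ (-629 / 5000 : ℝ) + (10529 / 10000 : ℝ) * p3) (l3 : (4237 / 20000 : ℝ) ≤ p3) (u3 : p3 ≤ (17229 / 50000 : ℝ))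
    (c4 : j4 ≤ (529 / 2000 : ℝ) * p4) (l4 : (0 : ℝ) ≤ p4) (u4 : p4 ≤ (11507 / 100000 : ℝ))
    (c5 : e ≤ 2 * (27 / 250 : ℝ) * pT) (l5 : (0 : ℝ) ≤ p5) (u5 : p5 ≤ (4457 / 100000 : ℝ))
    : False := by
  obtain ⟨hsum, hpsum, hns1, hns2, hns3, hns4, hne, hnx1, hnx2, hnx3, hny1, hny2, hny3, hnp5, hnj1, hnj2, hnj3, hnj4, hxs1, hys1, hxs2, hys2, hxs3, hys3, hxsum, hysum, ho1, ho2, ho3, ho4, ho5, hd3, hd4, hi1_020, hi1_035, hi1_050, he1_100, he1_090, he1_085, he1_080, hi2_020, hi2_035, hi2_050, he2_100, he2_090, he2_085, he2_080, hi3_020, hi3_035, hi3_050, he3_100, he3_090, he3_085, he3_080, hi4_020, hi4_035, hi4_050, he4_100, he4_090, he4_085, he4_080⟩ := h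
  have hd0 := heron_lin (x := x1) (y := x2) (z := x3) (9 / 10 : ℝ) (211 / 1000 : ℝ) (453 / 1000 : ℝ) (51 / 250 : ℝ) (52 / 125 : ℝ) (67 / 500 : ℝ) (93 / 250 : ℝ)
    (by linarith only [hsum, hpsum, hnp5, hxs2, hxs3, hxsum, ho1, ho2, ho5, hi2_050, hi3_050, he4_100, c4, u4, c5])
    (by linarith only [hsum, hpsum, hnp5, hxs1, ho4, ho5, hi1_020, hi2_050, he2_080, he3_090, he4_100, c2, c3, c4, c5])
    (by linarith only [hsum, hpsum, hnp5, hxs1, hxs3, hxsum, ho2, ho5, hi1_050, he3_085, he4_100, l2, c3, c4, u4, c5])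
    (by linarith only [hpsum, hnp5, hxs2, ho1, ho4, ho5, hi2_020, l3])
    (by linarith only [hsum, hpsum, hnp5, hxs1, hxs2, hxsum, ho1, ho5, hi1_035, hi2_035, hi2_050, he3_090, he4_100, c3, c4, c5])
    (by linarith only [hpsum, hnp5, hxs3, ho1, ho2, ho4, ho5, hi3_050])
  have hd1 := heron_lin (x := y1) (y := y2) (z := y3) (93 / 100 : ℝ) (27 / 100 : ℝ) (419 / 1000 : ℝ) (257 / 1000 : ℝ) (387 / 1000 : ℝ) (183 / 1000 : ℝ) (17 / 50 : ℝ)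
    (by linarith only [hsum, hpsum, hnp5, hxs1, hxs2, hys2, hys3, hxsum, hysum, ho1, ho2, ho5, hd3, hi2_050, hi3_050, he4_100, c4, c5, hd0])
    (by linarith only [hsum, hpsum, hnp5, hxs1, hys1, hxs2, hxsum, ho5, hd3, hi1_020, hi2_050, he2_080, he3_090, he4_100, c2, c3, c4, c5, hd0])
    (by linarith only [hsum, hpsum, hnp5, hxs1, hys1, hxs2, hys3, hxsum, hysum, ho2, ho5, hd3, hi1_035, hi1_050, he3_085, he4_100, c3, c4, c5, hd0])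
    (by linarith only [hsum, hpsum, hnp5, hxs1, hxs2, hys2, hxsum, ho1, ho5, hd3, hi1_035, hi2_035, he4_100, l3, c4, c5, hd0])
    (by linarith only [hsum, hpsum, hnp5, hxs1, hys1, hxs2, hys2, hxsum, hysum, ho5, hd3, hi1_035, hi2_035, hi2_050, he4_100, l3, c4, c5, hd0])
    (by linarith only [hsum, hpsum, hnp5, hxs1, hxs2, hys3, hxsum, ho1, ho2, ho5, hd3, hi1_050, hi3_050, he4_100, c4, c5, hd0])
  linarith only [hsum, hpsum, hxs1, hys1, hxs2, hys2, hxsum, hysum, hd3, hd4, hi1_050, he1_080, hi2_050, he2_080, he3_085, he4_100, c1, c2, c3, c4, c5, hd0, hd1]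

lemma leaf5_18 {s1 s2 s3 s4 e x1 x2 x3 y1 y2 y3 p1 p2 p3 p4 p5 pT j1 j2 j3 j4 : ℝ} (h : Base5 s1 s2 s3 s4 e x1 x2 x3 y1 y2 y3 p1 p2 p3 p4 p5 pT j1 j2 j3 j4)
    (c1 : j1 ≤ (-19229 / 100000 : ℝ) + (2547 / 2000 : ℝ) * p1) (l1 : (1097 / 4000 : ℝ) ≤ p1) (u1 : p1 ≤ (1 / 2 : ℝ))
    (c2 : j2 ≤ (-11797 / 100000 : ℝ) + (401 / 400 : ℝ) * p2) (l2 : (6049 / 25000 : ℝ) ≤ p2) (u2 : p2 ≤ (13713 / 50000 : ℝ))
    (c3 : j3 ≤ (-5273 / 50000 : ℝ) + (9569 / 10000 : ℝ) * p3) (l3 : (4237 / 20000 : ℝ) ≤ p3) (u3 : p3 ≤ (13713 / 50000 : ℝ))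
    (c4 : j4 ≤ (529 / 2000 : ℝ) * p4) (l4 : (0 : ℝ) ≤ p4) (u4 : p4 ≤ (11507 / 100000 : ℝ))
    (c5 : e ≤ 2 * (19 / 100 : ℝ) * pT) (l5 : (0 : ℝ) ≤ p5) (u5 : p5 ≤ (2019 / 25000 : ℝ))
    : False := by
  obtain ⟨hsum, hpsum, hns1, hns2, hns3, hns4, hne, hnx1, hnx2, hnx3, hny1, hny2, hny3, hnp5, hnj1, hnj2, hnj3, hnj4, hxs1, hys1, hxs2, hys2, hxs3, hys3, hxsum, hysum, ho1, ho2, ho3, ho4, ho5, hd3, hd4, hi1_020, hi1_035, hi1_050, he1_100, he1_090, he1_085, he1_080, hi2_020, hi2_035, hi2_050, he2_100, he2_090, he2_085, he2_080, hi3_020, hi3_035, hi3_050, he3_100, he3_090, he3_085, he3_080, hi4_020, hi4_035, hi4_050, he4_100, he4_090, he4_085, he4_080⟩ := h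
  have hd0 := heron_lin (x := x1) (y := x2) (z := x3) (87 / 100 : ℝ) (281 / 1000 : ℝ) (449 / 1000 : ℝ) (107 / 500 : ℝ) (29 / 100 : ℝ) (101 / 500 : ℝ) (29 / 100 : ℝ)
    (by linarith only [hsum, hpsum, hxs2, hxs3, hxsum, ho2, hi1_050, he2_085, he3_085, he4_100, c2, u2, c3, c4, u4, c5])
    (by linarith only [hsum, hpsum, hnp5, hxs1, ho4, ho5, hi1_020, he2_085, he3_085, he4_100, c2, u2, c3, c4, c5])
    (by linarith only [hsum, hpsum, hnp5, hxs1, hxs3, hxsum, ho2, ho5, hi1_035, hi1_050, he3_085, he4_100, c3, c4, u4, c5])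
    (by linarith only [hxs2, he2_085, c2, u2])
    (by linarith only [hsum, hpsum, hnp5, hxs1, hxs2, hxsum, ho5, hi1_035, he2_085, he3_085, he4_100, c2, u2, c3, c4, u4, c5])
    (by linarith only [hxs3, ho2, he3_085, u2, c3])
  have hd1 := heron_lin (x := y1) (y := y2) (z := y3) (23 / 25 : ℝ) (17 / 50 : ℝ) (391 / 1000 : ℝ) (67 / 250 : ℝ) (29 / 100 : ℝ) (261 / 1000 : ℝ) (29 / 100 : ℝ)
    (by linarith only [hsum, hpsum, hxs1, hxs2, hys2, hys3, hxsum, hysum, hd3, hi1_050, he2_085, he3_085, he4_100, c2, u2, c3, u3, c4, c5, hd0])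
    (by linarith only [hsum, hpsum, hnp5, hxs1, hys1, hxs2, hxsum, ho5, hd3, hi1_035, he2_085, he3_085, he4_100, c2, u2, c3, c4, c5, hd0])
    (by linarith only [hsum, hpsum, hxs1, hys1, hxs2, hys3, hxsum, hysum, ho2, hd3, hi1_035, hi1_050, he2_085, he3_085, he4_100, c2, c3, c4, c5, hd0])
    (by linarith only [hys2, he2_085, c2, u2])
    (by linarith only [hsum, hpsum, hnp5, hxs1, hys1, hxs2, hys2, hxsum, hysum, ho5, hd3, hi1_035, he2_085, he3_085, he4_100, c2, u2, c3, c4, c5, hd0])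
    (by linarith only [hys3, ho2, he3_085, u2, c3])
  linarith only [hsum, hpsum, hxs1, hys1, hxs2, hys2, hxsum, hysum, hd3, hd4, hi1_050, he2_085, he3_085, he4_100, c2, u2, c3, u3, c4, c5, hd0, hd1]

lemma leaf5_19 {s1 s2 s3 s4 e x1 x2 x3 y1 y2 y3 p1 p2 p3 p4 p5 pT j1 j2 j3 j4 : ℝ} (h : Base5 s1 s2 s3 s4 e x1 x2 x3 y1 y2 y3 p1 p2 p3 p4 p5 pT j1 j2 j3 j4)
    (c1 : j1 ≤ (-19229 / 100000 : ℝ) + (2547 / 2000 : ℝ) * p1) (l1 : (1097 / 4000 : ℝ) ≤ p1) (u1 : p1 ≤ (1 / 2 : ℝ))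
    (c2 : j2 ≤ (-8767 / 50000 : ℝ) + (3099 / 2500 : ℝ) * p2) (l2 : (6049 / 25000 : ℝ) ≤ p2) (u2 : p2 ≤ (1 / 2 : ℝ))
    (c3 : j3 ≤ (-3291 / 50000 : ℝ) + (3849 / 5000 : ℝ) * p3) (l3 : (3173 / 20000 : ℝ) ≤ p3) (u3 : p3 ≤ (10593 / 50000 : ℝ))
    (c4 : j4 ≤ (3549 / 10000 : ℝ) * p4) (l4 : (0 : ℝ) ≤ p4) (u4 : p4 ≤ (7933 / 50000 : ℝ))
    (c5 : e ≤ 2 * (19 / 100 : ℝ) * pT) (l5 : (0 : ℝ) ≤ p5) (u5 : p5 ≤ (2019 / 25000 : ℝ))
    : False := by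
  obtain ⟨hsum, hpsum, hns1, hns2, hns3, hns4, hne, hnx1, hnx2, hnx3, hny1, hny2, hny3, hnp5, hnj1, hnj2, hnj3, hnj4, hxs1, hys1, hxs2, hys2, hxs3, hys3, hxsum, hysum, ho1, ho2, ho3, ho4, ho5, hd3, hd4, hi1_020, hi1_035, hi1_050, he1_100, he1_090, he1_085, he1_080, hi2_020, hi2_035, hi2_050, he2_100, he2_090, he2_085, he2_080, hi3_020, hi3_035, hi3_050, he3_100, he3_090, he3_085, he3_080, hi4_020, hi4_035, hi4_050, he4_100, he4_090, he4_085, he4_080⟩ := h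
  have hd0 := heron_lin (x := y1) (y := y2) (z := y3) (19 / 20 : ℝ) (349 / 1000 : ℝ) (221 / 500 : ℝ) (159 / 500 : ℝ) (21 / 50 : ℝ) (37 / 250 : ℝ) (93 / 500 : ℝ)
    (by linarith only [hsum, hpsum, hys2, hys3, hysum, ho1, hi1_050, hi2_050, he3_090, he4_100, he4_090, c3, u3, c4, c5])
    (by linarith only [hsum, hpsum, hnp5, hys1, ho4, ho5, hi1_020, hi2_035, he3_090, he4_100, c3, u3, c4, c5])
    (by linarith only [hsum, hpsum, hnp5, hys1, hys3, hysum, ho5, hi1_020, hi1_035, he2_085, he3_090, he4_100, c2, c3, u3, c4, c5])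
    (by linarith only [hsum, hpsum, hnp5, hys2, ho1, ho4, ho5, hi1_020, hi2_020, he3_090, he4_100, c3, c4, c5])
    (by linarith only [hsum, hpsum, hnp5, hys1, hys2, hysum, ho1, ho5, hi1_020, hi1_035, hi2_035, he3_090, he4_100, c3, c4, c5])
    (by linarith only [hys3, he3_090, c3, u3])
  linarith only [hsum, hpsum, hys1, hys2, hysum, hd4, hi1_035, hi2_035, hi2_050, he3_090, he4_100, c3, u3, c4, l4, c5, hd0]

lemma leaf5_20 {s1 s2 s3 s4 e x1 x2 x3 y1 y2 y3 p1 p2 p3 p4 p5 pT j1 j2 j3 j4 : ℝ} (h : Base5 s1 s2 s3 s4 e x1 x2 x3 y1 y2 y3 p1 p2 p3 p4 p5 pT j1 j2 j3 j4)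
    (c1 : j1 ≤ (-11797 / 100000 : ℝ) + (401 / 400 : ℝ) * p1) (l1 : (6049 / 25000 : ℝ) ≤ p1) (u1 : p1 ≤ (13713 / 50000 : ℝ))
    (c2 : j2 ≤ (-11797 / 100000 : ℝ) + (401 / 400 : ℝ) * p2) (l2 : (6049 / 25000 : ℝ) ≤ p2) (u2 : p2 ≤ (13713 / 50000 : ℝ))
    (c3 : j3 ≤ (-1637 / 20000 : ℝ) + (2177 / 2500 : ℝ) * p3) (l3 : (3173 / 20000 : ℝ) ≤ p3) (u3 : p3 ≤ (13713 / 50000 : ℝ))
    (c4 : j4 ≤ (4591 / 10000 : ℝ) * p4) (l4 : (0 : ℝ) ≤ p4) (u4 : p4 ≤ (10593 / 50000 : ℝ))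
    (c5 : e ≤ 2 * (19 / 100 : ℝ) * pT) (l5 : (0 : ℝ) ≤ p5) (u5 : p5 ≤ (2019 / 25000 : ℝ))
    : False := by
  obtain ⟨hsum, hpsum, hns1, hns2, hns3, hns4, hne, hnx1, hnx2, hnx3, hny1, hny2, hny3, hnp5, hnj1, hnj2, hnj3, hnj4, hxs1, hys1, hxs2, hys2, hxs3, hys3, hxsum, hysum, ho1, ho2, ho3, ho4, ho5, hd3, hd4, hi1_020, hi1_035, hi1_050, he1_100, he1_090, he1_085, he1_080, hi2_020, hi2_035, hi2_050, he2_100, he2_090, he2_085, he2_080, hi3_020, hi3_035, hi3_050, he3_100, he3_090, he3_085, he3_080, hi4_020, hi4_035, hi4_050, he4_100, he4_090, he4_085, he4_080⟩ := h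
  have hd0 := heron_lin (x := y1) (y := y2) (z := y3) (17 / 20 : ℝ) (263 / 1000 : ℝ) (29 / 100 : ℝ) (13 / 50 : ℝ) (29 / 100 : ℝ) (233 / 1000 : ℝ) (29 / 100 : ℝ)
    (by linarith only [hsum, hpsum, hnp5, hys2, hys3, hysum, ho1, ho5, he2_085, he3_085, he4_090, u1, c2, c3, u3, c4, c5])
    (by linarith only [hys1, he1_085, c1, u1])
    (by linarith only [hsum, hpsum, hnp5, hys1, hys3, hysum, ho2, ho5, he1_085, he2_085, he3_085, he4_090, c1, u1, c2, c3, c4, c5])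
    (by linarith only [hys2, ho1, he2_085, u1, c2])
    (by linarith only [hsum, hpsum, hys1, hys2, hysum, ho1, he1_085, he2_085, he3_085, he4_090, c1, u1, c2, c3, c4, u4, c5])
    (by linarith only [hys3, ho1, ho2, he3_085, u1, c3])
  linarith only [hsum, hpsum, hys1, hys2, hysum, hd4, he1_085, he2_085, he3_085, he4_090, c1, u1, c2, u2, c3, u3, c4, c5, hd0]

lemma leaf5_21 {s1 s2 s3 s4 e x1 x2 x3 y1 y2 y3 p1 p2 p3 p4 p5 pT j1 j2 j3 j4 : ℝ} (h : Base5 s1 s2 s3 s4 e x1 x2 x3 y1 y2 y3 p1 p2 p3 p4 p5 pT j1 j2 j3 j4)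
    (c1 : j1 ≤ (-8767 / 50000 : ℝ) + (3099 / 2500 : ℝ) * p1) (l1 : (6049 / 25000 : ℝ) ≤ p1) (u1 : p1 ≤ (1 / 2 : ℝ))
    (c2 : j2 ≤ (-9513 / 100000 : ℝ) + (9081 / 10000 : ℝ) * p2) (l2 : (4237 / 20000 : ℝ) ≤ p2) (u2 : p2 ≤ (24197 / 100000 : ℝ))
    (c3 : j3 ≤ (-461 / 6250 : ℝ) + (4099 / 5000 : ℝ) * p3) (l3 : (3173 / 20000 : ℝ) ≤ p3) (u3 : p3 ≤ (24197 / 100000 : ℝ))
    (c4 : j4 ≤ (4591 / 10000 : ℝ) * p4) (l4 : (0 : ℝ) ≤ p4) (u4 : p4 ≤ (10593 / 50000 : ℝ))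
    (c5 : e ≤ 2 * (529 / 2000 : ℝ) * pT) (l5 : (0 : ℝ) ≤ p5) (u5 : p5 ≤ (11507 / 100000 : ℝ))
    : False := by
  obtain ⟨hsum, hpsum, hns1, hns2, hns3, hns4, hne, hnx1, hnx2, hnx3, hny1, hny2, hny3, hnp5, hnj1, hnj2, hnj3, hnj4, hxs1, hys1, hxs2, hys2, hxs3, hys3, hxsum, hysum, ho1, ho2, ho3, ho4, ho5, hd3, hd4, hi1_020, hi1_035, hi1_050, he1_100, he1_090, he1_085, he1_080, hi2_020, hi2_035, hi2_050, he2_100, he2_090, he2_085, he2_080, hi3_020, hi3_035, hi3_050, he3_100, he3_090, he3_085, he3_080, hi4_020, hi4_035, hi4_050, he4_100, he4_090, he4_085, he4_080⟩ := h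
  have hd0 := heron_lin (x := y1) (y := y2) (z := y3) (21 / 25 : ℝ) (91 / 250 : ℝ) (387 / 1000 : ℝ) (231 / 1000 : ℝ) (47 / 200 : ℝ) (23 / 100 : ℝ) (47 / 200 : ℝ)
    (by linarith only [hsum, hpsum, hnp5, hys2, hys3, hysum, ho2, ho5, hi1_050, he2_090, he3_090, he4_090, c2, u2, c3, c4, c5])
    (by linarith only [hsum, hpsum, hnp5, hys1, ho5, hi1_035, he2_090, he3_090, he4_090, c2, u2, c3, u3, c4, c5])
    (by linarith only [hsum, hpsum, hys1, hys3, hysum, ho2, hi1_035, hi1_050, he2_090, he3_090, he4_090, c2, u2, c3, c4, c5])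
    (by linarith only [hys2, he2_090, c2, u2])
    (by linarith only [hsum, hpsum, hnp5, hys1, hys2, hysum, ho5, hi1_035, hi1_050, he2_090, he3_090, he4_090, c2, u2, c3, c4, c5])
    (by linarith only [hys3, ho2, he3_090, u2, c3])
  linarith only [hsum, hpsum, hys1, hys2, hysum, hd4, hi1_035, hi1_050, he2_085, he3_085, he4_090, c2, u2, c3, u3, c4, c5, hd0]

lemma leaf5_22 {s1 s2 s3 s4 e x1 x2 x3 y1 y2 y3 p1 p2 p3 p4 p5 pT j1 j2 j3 j4 : ℝ} (h : Base5 s1 s2 s3 s4 e x1 x2 x3 y1 y2 y3 p1 p2 p3 p4 p5 pT j1 j2 j3 j4)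
    (c1 : j1 ≤ (-8767 / 50000 : ℝ) + (3099 / 2500 : ℝ) * p1) (l1 : (6049 / 25000 : ℝ) ≤ p1) (u1 : p1 ≤ (1 / 2 : ℝ))
    (c2 : j2 ≤ (-7901 / 50000 : ℝ) + (241 / 200 : ℝ) * p2) (l2 : (4237 / 20000 : ℝ) ≤ p2) (u2 : p2 ≤ (1 / 2 : ℝ))
    (c3 : j3 ≤ (3549 / 10000 : ℝ) * p3) (l3 : (0 : ℝ) ≤ p3) (u3 : p3 ≤ (7933 / 50000 : ℝ))
    (c4 : j4 ≤ (3549 / 10000 : ℝ) * p4) (l4 : (0 : ℝ) ≤ p4) (u4 : p4 ≤ (7933 / 50000 : ℝ))
    (c5 : e ≤ 2 * (3549 / 10000 : ℝ) * pT) (l5 : (0 : ℝ) ≤ p5) (u5 : p5 ≤ (7933 / 50000 : ℝ))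
    : False := by
  obtain ⟨hsum, hpsum, hns1, hns2, hns3, hns4, hne, hnx1, hnx2, hnx3, hny1, hny2, hny3, hnp5, hnj1, hnj2, hnj3, hnj4, hxs1, hys1, hxs2, hys2, hxs3, hys3, hxsum, hysum, ho1, ho2, ho3, ho4, ho5, hd3, hd4, hi1_020, hi1_035, hi1_050, he1_100, he1_090, he1_085, he1_080, hi2_020, hi2_035, hi2_050, he2_100, he2_090, he2_085, he2_080, hi3_020, hi3_035, hi3_050, he3_100, he3_090, he3_085, he3_080, hi4_020, hi4_035, hi4_050, he4_100, he4_090, he4_085, he4_080⟩ := h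
  linarith only [hsum, hpsum, hi1_020, hi1_035, hi2_020, hi2_035, he3_100, he4_100, c3, c4, c5]

lemma leaf5_23 {s1 s2 s3 s4 e x1 x2 x3 y1 y2 y3 p1 p2 p3 p4 p5 pT j1 j2 j3 j4 : ℝ} (h : Base5 s1 s2 s3 s4 e x1 x2 x3 y1 y2 y3 p1 p2 p3 p4 p5 pT j1 j2 j3 j4)
    (c1 : j1 ≤ (-8767 / 50000 : ℝ) + (3099 / 2500 : ℝ) * p1) (l1 : (6049 / 25000 : ℝ) ≤ p1) (u1 : p1 ≤ (1 / 2 : ℝ))
    (c2 : j2 ≤ (-1981 / 100000 : ℝ) + (2763 / 5000 : ℝ) * p2) (l2 : (557 / 12500 : ℝ) ≤ p2) (u2 : p2 ≤ (10593 / 50000 : ℝ))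
    (c3 : j3 ≤ (4591 / 10000 : ℝ) * p3) (l3 : (0 : ℝ) ≤ p3) (u3 : p3 ≤ (10593 / 50000 : ℝ))
    (c4 : j4 ≤ (4591 / 10000 : ℝ) * p4) (l4 : (0 : ℝ) ≤ p4) (u4 : p4 ≤ (10593 / 50000 : ℝ))
    (c5 : e ≤ 2 * (4591 / 10000 : ℝ) * pT) (l5 : (0 : ℝ) ≤ p5) (u5 : p5 ≤ (10593 / 50000 : ℝ))
    : False := by
  obtain ⟨hsum, hpsum, hns1, hns2, hns3, hns4, hne, hnx1, hnx2, hnx3, hny1, hny2, hny3, hnp5, hnj1, hnj2, hnj3, hnj4, hxs1, hys1, hxs2, hys2, hxs3, hys3, hxsum, hysum, ho1, ho2, ho3, ho4, ho5, hd3, hd4, hi1_020, hi1_035, hi1_050, he1_100, he1_090, he1_085, he1_080, hi2_020, hi2_035, hi2_050, he2_100, he2_090, he2_085, he2_080, hi3_020, hi3_035, hi3_050, he3_100, he3_090, he3_085, he3_080, hi4_020, hi4_035, hi4_050, he4_100, he4_090, he4_085, he4_080⟩ := h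
  linarith only [hsum, hpsum, hi1_035, hi1_050, he2_090, he3_100, he4_100, c2, u2, c3, c4, c5]

lemma leaf5_24 {s1 s2 s3 s4 e x1 x2 x3 y1 y2 y3 p1 p2 p3 p4 p5 pT j1 j2 j3 j4 : ℝ} (h : Base5 s1 s2 s3 s4 e x1 x2 x3 y1 y2 y3 p1 p2 p3 p4 p5 pT j1 j2 j3 j4)
    (c1 : j1 ≤ (-1099 / 20000 : ℝ) + (7421 / 10000 : ℝ) * p1) (l1 : (5753 / 50000 : ℝ) ≤ p1) (u1 : p1 ≤ (24197 / 100000 : ℝ))
    (c2 : j2 ≤ (-1111 / 50000 : ℝ) + (1517 / 2500 : ℝ) * p2) (l2 : (557 / 12500 : ℝ) ≤ p2) (u2 : p2 ≤ (24197 / 100000 : ℝ))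
    (c3 : j3 ≤ (103 / 200 : ℝ) * p3) (l3 : (0 : ℝ) ≤ p3) (u3 : p3 ≤ (24197 / 100000 : ℝ))
    (c4 : j4 ≤ (4591 / 10000 : ℝ) * p4) (l4 : (0 : ℝ) ≤ p4) (u4 : p4 ≤ (10593 / 50000 : ℝ))
    (c5 : e ≤ 2 * (4591 / 10000 : ℝ) * pT) (l5 : (0 : ℝ) ≤ p5) (u5 : p5 ≤ (10593 / 50000 : ℝ))
    : False := by
  obtain ⟨hsum, hpsum, hns1, hns2, hns3, hns4, hne, hnx1, hnx2, hnx3, hny1, hny2, hny3, hnp5, hnj1, hnj2, hnj3, hnj4, hxs1, hys1, hxs2, hys2, hxs3, hys3, hxsum, hysum, ho1, ho2, ho3, ho4, ho5, hd3, hd4, hi1_020, hi1_035, hi1_050, he1_100, he1_090, he1_085, he1_080, hi2_020, hi2_035, hi2_050, he2_100, he2_090, he2_085, he2_080, hi3_020, hi3_035, hi3_050, he3_100, he3_090, he3_085, he3_080, hi4_020, hi4_035, hi4_050, he4_100, he4_090, he4_085, he4_080⟩ := h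
  linarith only [hsum, hpsum, he1_085, he2_085, he3_090, he3_085, he4_100, c1, u1, c2, u2, c3, c4, c5]

lemma leaf5_25 {s1 s2 s3 s4 e x1 x2 x3 y1 y2 y3 p1 p2 p3 p4 p5 pT j1 j2 j3 j4 : ℝ} (h : Base5 s1 s2 s3 s4 e x1 x2 x3 y1 y2 y3 p1 p2 p3 p4 p5 pT j1 j2 j3 j4)
    (c1 : j1 ≤ (-2333 / 25000 : ℝ) + (2689 / 2500 : ℝ) * p1) (l1 : (5753 / 50000 : ℝ) ≤ p1) (u1 : p1 ≤ (1 / 2 : ℝ))
    (c2 : j2 ≤ (27 / 250 : ℝ) * p2) (l2 : (0 : ℝ) ≤ p2) (u2 : p2 ≤ (4457 / 100000 : ℝ))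
    (c3 : j3 ≤ (27 / 250 : ℝ) * p3) (l3 : (0 : ℝ) ≤ p3) (u3 : p3 ≤ (4457 / 100000 : ℝ))
    (c4 : j4 ≤ (27 / 250 : ℝ) * p4) (l4 : (0 : ℝ) ≤ p4) (u4 : p4 ≤ (4457 / 100000 : ℝ))
    (c5 : e ≤ 2 * (27 / 250 : ℝ) * pT) (l5 : (0 : ℝ) ≤ p5) (u5 : p5 ≤ (4457 / 100000 : ℝ))
    : False := by
  obtain ⟨hsum, hpsum, hns1, hns2, hns3, hns4, hne, hnx1, hnx2, hnx3, hny1, hny2, hny3, hnp5, hnj1, hnj2, hnj3, hnj4, hxs1, hys1, hxs2, hys2, hxs3, hys3, hxsum, hysum, ho1, ho2, ho3, ho4, ho5, hd3, hd4, hi1_020, hi1_035, hi1_050, he1_100, he1_090, he1_085, he1_080, hi2_020, hi2_035, hi2_050, he2_100, he2_090, he2_085, he2_080, hi3_020, hi3_035, hi3_050, he3_100, he3_090, he3_085, he3_080, hi4_020, hi4_035, hi4_050, he4_100, he4_090, he4_085, he4_080⟩ := h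
  linarith only [hsum, hpsum, hi1_020, he2_100, he3_100, he4_100, u1, c2, c3, c4, c5]

lemma leaf5_26 {s1 s2 s3 s4 e x1 x2 x3 y1 y2 y3 p1 p2 p3 p4 p5 pT j1 j2 j3 j4 : ℝ} (h : Base5 s1 s2 s3 s4 e x1 x2 x3 y1 y2 y3 p1 p2 p3 p4 p5 pT j1 j2 j3 j4)
    (c1 : j1 ≤ (529 / 2000 : ℝ) * p1) (l1 : (0 : ℝ) ≤ p1) (u1 : p1 ≤ (11507 / 100000 : ℝ))
    (c2 : j2 ≤ (529 / 2000 : ℝ) * p2) (l2 : (0 : ℝ) ≤ p2) (u2 : p2 ≤ (11507 / 100000 : ℝ))
    (c3 : j3 ≤ (529 / 2000 : ℝ) * p3) (l3 : (0 : ℝ) ≤ p3) (u3 : p3 ≤ (11507 / 100000 : ℝ))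
    (c4 : j4 ≤ (529 / 2000 : ℝ) * p4) (l4 : (0 : ℝ) ≤ p4) (u4 : p4 ≤ (11507 / 100000 : ℝ))
    (c5 : e ≤ 2 * (529 / 2000 : ℝ) * pT) (l5 : (0 : ℝ) ≤ p5) (u5 : p5 ≤ (11507 / 100000 : ℝ))
    : False := by
  obtain ⟨hsum, hpsum, hns1, hns2, hns3, hns4, hne, hnx1, hnx2, hnx3, hny1, hny2, hny3, hnp5, hnj1, hnj2, hnj3, hnj4, hxs1, hys1, hxs2, hys2, hxs3, hys3, hxsum, hysum, ho1, ho2, ho3, ho4, ho5, hd3, hd4, hi1_020, hi1_035, hi1_050, he1_100, he1_090, he1_085, he1_080, hi2_020, hi2_035, hi2_050, he2_100, he2_090, he2_085, he2_080, hi3_020, hi3_035, hi3_050, he3_100, he3_090, he3_085, he3_080, hi4_020, hi4_035, hi4_050, he4_100, he4_090, he4_085, he4_080⟩ := h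
  linarith only [hsum, hpsum, he1_100, he2_100, he3_100, he4_100, c1, c2, c3, c4, c5]

theorem lp5 {s1 s2 s3 s4 e x1 x2 x3 y1 y2 y3 pT b1 b2 b3 b4 b5 : ℝ}
    (h : Base5 s1 s2 s3 s4 e x1 x2 x3 y1 y2 y3 (Q b1) (Q b2) (Q b3) (Q b4) (Q b5) pT
      (jf b1) (jf b2) (jf b3) (jf b4))
    (h0 : 0 ≤ b1) (h1 : b1 ≤ b2) (h2 : b2 ≤ b3) (h3 : b3 ≤ b4) (h4 : b4 ≤ b5)
    (ht : ∀ B : ℝ, (∀ b, b5 ≤ b → jf b ≤ B * Q b) → e ≤ 2 * B * pT) : False := by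
  have h12 := h1
  have h23 := h2
  have h34 := h3
  have h45 := h4
  have h13 := h12.trans h2
  have h24 := h23.trans h3
  have h35 := h34.trans h4
  have h14 := h13.trans h3
  have h25 := h24.trans h4
  have h15 := h14.trans h4
  rcases le_total b4 (4 / 5 : ℝ) with k0 | k0
  · rcases le_total b1 (2 / 5 : ℝ) with k1 | k1
    · exact leaf5_1 h
        (ch_000_040 h0 k1) (ql_040 k1) (qu_000 h0)
        (ch_000_080 (h0.trans h12) (h24.trans k0)) (ql_080 (h24.trans k0)) (qu_000 (h0.trans h12))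
        (ch_000_080 (h0.trans h13) (h34.trans k0)) (ql_080 (h34.trans k0)) (qu_000 (h0.trans h13))
        (ch_000_080 (h0.trans h14) k0) (ql_080 k0) (qu_000 (h0.trans h14))
        (ht _ fun b hb => ch_000_inf (le_trans (h0.trans h15) hb)) (Q_nonneg _) (qu_000 (h0.trans h15))
    · rcases le_total b2 (1 / 2 : ℝ) with k2 | k2
      · exact leaf5_2 h
          (ch_040_050 k1 (h12.trans k2)) (ql_050 (h12.trans k2)) (qu_040 k1)
          (ch_040_050 (k1.trans h12) k2) (ql_050 k2) (qu_040 (k1.trans h12))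
          (ch_040_080 (k1.trans h13) (h34.trans k0)) (ql_080 (h34.trans k0)) (qu_040 (k1.trans h13))
          (ch_040_080 (k1.trans h14) k0) (ql_080 k0) (qu_040 (k1.trans h14))
          (ht _ fun b hb => ch_040_inf (le_trans (k1.trans h15) hb)) (Q_nonneg _) (qu_040 (k1.trans h15))
      · rcases le_total b1 (7 / 10 : ℝ) with k3 | k3
        · rcases le_total b3 (3 / 5 : ℝ) with k4 | k4
          · exact leaf5_3 h
              (ch_040_060 k1 (h13.trans k4)) (ql_060 (h13.trans k4)) (qu_040 k1)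
              (ch_050_060 k2 (h23.trans k4)) (ql_060 (h23.trans k4)) (qu_050 k2)
              (ch_050_060 (k2.trans h23) k4) (ql_060 k4) (qu_050 (k2.trans h23))
              (ch_050_080 (k2.trans h24) k0) (ql_080 k0) (qu_050 (k2.trans h24))
              (ht _ fun b hb => ch_050_inf (le_trans (k2.trans h25) hb)) (Q_nonneg _) (qu_050 (k2.trans h25))
          · rcases le_total b5 (7 / 10 : ℝ) with k5 | k5
            · exact leaf5_4 h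
                (ch_040_070 k1 k3) (ql_070 k3) (qu_040 k1)
                (ch_050_070 k2 (h25.trans k5)) (ql_070 (h25.trans k5)) (qu_050 k2)
                (ch_060_070 k4 (h35.trans k5)) (ql_070 (h35.trans k5)) (qu_060 k4)
                (ch_060_070 (k4.trans h34) (h45.trans k5)) (ql_070 (h45.trans k5)) (qu_060 (k4.trans h34))
                (ht _ fun b hb => ch_060_inf (le_trans (k4.trans h35) hb)) (ql_070 k5) (qu_060 (k4.trans h35))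
            · exact leaf5_5 h
                (ch_040_070 k1 k3) (ql_070 k3) (qu_040 k1)
                (ch_050_080 k2 (h24.trans k0)) (ql_080 (h24.trans k0)) (qu_050 k2)
                (ch_060_080 k4 (h34.trans k0)) (ql_080 (h34.trans k0)) (qu_060 k4)
                (ch_060_080 (k4.trans h34) k0) (ql_080 k0) (qu_060 (k4.trans h34))
                (ht _ fun b hb => ch_070_inf (le_trans k5 hb)) (Q_nonneg _) (qu_070 k5)
        · exact leaf5_6 h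
            (ch_070_080 k3 (h14.trans k0)) (ql_080 (h14.trans k0)) (qu_070 k3)
            (ch_070_080 (k3.trans h12) (h24.trans k0)) (ql_080 (h24.trans k0)) (qu_070 (k3.trans h12))
            (ch_070_080 (k3.trans h13) (h34.trans k0)) (ql_080 (h34.trans k0)) (qu_070 (k3.trans h13))
            (ch_070_080 (k3.trans h14) k0) (ql_080 k0) (qu_070 (k3.trans h14))
            (ht _ fun b hb => ch_070_inf (le_trans (k3.trans h15) hb)) (Q_nonneg _) (qu_070 (k3.trans h15))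
  · rcases le_total b1 (6 / 5 : ℝ) with k1 | k1
    · rcases le_total b2 (17 / 10 : ℝ) with k2 | k2
      · rcases le_total b1 (7 / 10 : ℝ) with k3 | k3
        · rcases le_total b2 (4 / 5 : ℝ) with k4 | k4
          · rcases le_total b5 (1 : ℝ) with k5 | k5
            · exact leaf5_7 h
                (ch_000_070 h0 k3) (ql_070 k3) (qu_000 h0)
                (ch_000_080 (h0.trans h12) k4) (ql_080 k4) (qu_000 (h0.trans h12))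
                (ch_000_100 (h0.trans h13) (h35.trans k5)) (ql_100 (h35.trans k5)) (qu_000 (h0.trans h13))
                (ch_080_100 k0 (h45.trans k5)) (ql_100 (h45.trans k5)) (qu_080 k0)
                (ht _ fun b hb => ch_080_inf (le_trans (k0.trans h45) hb)) (ql_100 k5) (qu_080 (k0.trans h45))
            · rcases le_total b3 (2 / 5 : ℝ) with k6 | k6
              · exact leaf5_8 h
                  (ch_000_040 h0 (h13.trans k6)) (ql_040 (h13.trans k6)) (qu_000 h0)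
                  (ch_000_040 (h0.trans h12) (h23.trans k6)) (ql_040 (h23.trans k6)) (qu_000 (h0.trans h12))
                  (ch_000_040 (h0.trans h13) k6) (ql_040 k6) (qu_000 (h0.trans h13))
                  (ch_080_inf k0) (Q_nonneg _) (qu_080 k0)
                  (ht _ fun b hb => ch_100_inf (le_trans k5 hb)) (Q_nonneg _) (qu_100 k5)
              · rcases le_total b3 (1 : ℝ) with k7 | k7
                · rcases le_total b5 (6 / 5 : ℝ) with k8 | k8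
                  · exact leaf5_9 h
                      (ch_000_070 h0 k3) (ql_070 k3) (qu_000 h0)
                      (ch_000_080 (h0.trans h12) k4) (ql_080 k4) (qu_000 (h0.trans h12))
                      (ch_040_100 k6 k7) (ql_100 k7) (qu_040 k6)
                      (ch_080_120 k0 (h45.trans k8)) (ql_120 (h45.trans k8)) (qu_080 k0)
                      (ht _ fun b hb => ch_100_inf (le_trans k5 hb)) (ql_120 k8) (qu_100 k5)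
                  · rcases le_total b2 (7 / 10 : ℝ) with k9 | k9
                    · rcases le_total b5 (7 / 5 : ℝ) with k10 | k10
                      · rcases le_total b2 (1 / 2 : ℝ) with k11 | k11
                        · exact leaf5_10 h
                            (ch_000_050 h0 (h12.trans k11)) (ql_050 (h12.trans k11)) (qu_000 h0)
                            (ch_000_050 (h0.trans h12) k11) (ql_050 k11) (qu_000 (h0.trans h12))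
                            (ch_040_100 k6 k7) (ql_100 k7) (qu_040 k6)
                            (ch_080_140 k0 (h45.trans k10)) (ql_140 (h45.trans k10)) (qu_080 k0)
                            (ht _ fun b hb => ch_120_inf (le_trans k8 hb)) (ql_140 k10) (qu_120 k8)
                        · exact leaf5_11 h
                            (ch_000_070 h0 k3) (ql_070 k3) (qu_000 h0)
                            (ch_050_070 k11 k9) (ql_070 k9) (qu_050 k11)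
                            (ch_050_100 (k11.trans h23) k7) (ql_100 k7) (qu_050 (k11.trans h23))
                            (ch_080_140 k0 (h45.trans k10)) (ql_140 (h45.trans k10)) (qu_080 k0)
                            (ht _ fun b hb => ch_120_inf (le_trans k8 hb)) (ql_140 k10) (qu_120 k8)
                      · rcases le_total b1 (3 / 5 : ℝ) with k11 | k11
                        · rcases le_total b4 (1 : ℝ) with k12 | k12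
                          · exact leaf5_12 h
                              (ch_000_060 h0 k11) (ql_060 k11) (qu_000 h0)
                              (ch_000_070 (h0.trans h12) k9) (ql_070 k9) (qu_000 (h0.trans h12))
                              (ch_040_100 k6 k7) (ql_100 k7) (qu_040 k6)
                              (ch_080_100 k0 k12) (ql_100 k12) (qu_080 k0)
                              (ht _ fun b hb => ch_140_inf (le_trans k10 hb)) (Q_nonneg _) (qu_140 k10)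
                          · rcases le_total b3 (4 / 5 : ℝ) with k13 | k13
                            · rcases le_total b4 (6 / 5 : ℝ) with k14 | k14
                              · exact leaf5_13 h
                                  (ch_000_060 h0 k11) (ql_060 k11) (qu_000 h0)
                                  (ch_000_070 (h0.trans h12) k9) (ql_070 k9) (qu_000 (h0.trans h12))
                                  (ch_040_080 k6 k13) (ql_080 k13) (qu_040 k6)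
                                  (ch_100_120 k12 k14) (ql_120 k14) (qu_100 k12)
                                  (ht _ fun b hb => ch_140_inf (le_trans k10 hb)) (Q_nonneg _) (qu_140 k10)
                              · rcases le_total b2 (3 / 5 : ℝ) with k15 | k15
                                · rcases le_total b5 (17 / 10 : ℝ) with k16 | k16
                                  · rcases le_total b3 (1 / 2 : ℝ) with k17 | k17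
                                    · exact leaf5_14 h
                                        (ch_000_050 h0 (h13.trans k17)) (ql_050 (h13.trans k17)) (qu_000 h0)
                                        (ch_000_050 (h0.trans h12) (h23.trans k17)) (ql_050 (h23.trans k17)) (qu_000 (h0.trans h12))
                                        (ch_040_050 k6 k17) (ql_050 k17) (qu_040 k6)
                                        (ch_120_170 k14 (h45.trans k16)) (ql_170 (h45.trans k16)) (qu_120 k14)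
                                        (ht _ fun b hb => ch_140_inf (le_trans k10 hb)) (ql_170 k16) (qu_140 k10)
                                    · rcases le_total b2 (2 / 5 : ℝ) with k18 | k18
                                      · exact leaf5_15 h
                                          (ch_000_040 h0 (h12.trans k18)) (ql_040 (h12.trans k18)) (qu_000 h0)
                                          (ch_000_040 (h0.trans h12) k18) (ql_040 k18) (qu_000 (h0.trans h12))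
                                          (ch_050_080 k17 k13) (ql_080 k13) (qu_050 k17)
                                          (ch_120_170 k14 (h45.trans k16)) (ql_170 (h45.trans k16)) (qu_120 k14)
                                          (ht _ fun b hb => ch_140_inf (le_trans k10 hb)) (ql_170 k16) (qu_140 k10)
                                      · exact leaf5_16 h
                                          (ch_000_060 h0 k11) (ql_060 k11) (qu_000 h0)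
                                          (ch_040_060 k18 k15) (ql_060 k15) (qu_040 k18)
                                          (ch_050_080 k17 k13) (ql_080 k13) (qu_050 k17)
                                          (ch_120_170 k14 (h45.trans k16)) (ql_170 (h45.trans k16)) (qu_120 k14)
                                          (ht _ fun b hb => ch_140_inf (le_trans k10 hb)) (ql_170 k16) (qu_140 k10)
                                  · exact leaf5_17 h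
                                      (ch_000_060 h0 k11) (ql_060 k11) (qu_000 h0)
                                      (ch_000_060 (h0.trans h12) k15) (ql_060 k15) (qu_000 (h0.trans h12))
                                      (ch_040_080 k6 k13) (ql_080 k13) (qu_040 k6)
                                      (ch_120_inf k14) (Q_nonneg _) (qu_120 k14)
                                      (ht _ fun b hb => ch_170_inf (le_trans k16 hb)) (Q_nonneg _) (qu_170 k16)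
                                · exact leaf5_18 h
                                    (ch_000_060 h0 k11) (ql_060 k11) (qu_000 h0)
                                    (ch_060_070 k15 k9) (ql_070 k9) (qu_060 k15)
                                    (ch_060_080 (k15.trans h23) k13) (ql_080 k13) (qu_060 (k15.trans h23))
                                    (ch_120_inf k14) (Q_nonneg _) (qu_120 k14)
                                    (ht _ fun b hb => ch_140_inf (le_trans k10 hb)) (Q_nonneg _) (qu_140 k10)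
                            · exact leaf5_19 h
                                (ch_000_060 h0 k11) (ql_060 k11) (qu_000 h0)
                                (ch_000_070 (h0.trans h12) k9) (ql_070 k9) (qu_000 (h0.trans h12))
                                (ch_080_100 k13 k7) (ql_100 k7) (qu_080 k13)
                                (ch_100_inf k12) (Q_nonneg _) (qu_100 k12)
                                (ht _ fun b hb => ch_140_inf (le_trans k10 hb)) (Q_nonneg _) (qu_140 k10)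
                        · exact leaf5_20 h
                            (ch_060_070 k11 k3) (ql_070 k3) (qu_060 k11)
                            (ch_060_070 (k11.trans h12) k9) (ql_070 k9) (qu_060 (k11.trans h12))
                            (ch_060_100 (k11.trans h13) k7) (ql_100 k7) (qu_060 (k11.trans h13))
                            (ch_080_inf k0) (Q_nonneg _) (qu_080 k0)
                            (ht _ fun b hb => ch_140_inf (le_trans k10 hb)) (Q_nonneg _) (qu_140 k10)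
                    · exact leaf5_21 h
                        (ch_000_070 h0 k3) (ql_070 k3) (qu_000 h0)
                        (ch_070_080 k9 k4) (ql_080 k4) (qu_070 k9)
                        (ch_070_100 (k9.trans h23) k7) (ql_100 k7) (qu_070 (k9.trans h23))
                        (ch_080_inf k0) (Q_nonneg _) (qu_080 k0)
                        (ht _ fun b hb => ch_120_inf (le_trans k8 hb)) (Q_nonneg _) (qu_120 k8)
                · exact leaf5_22 h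
                    (ch_000_070 h0 k3) (ql_070 k3) (qu_000 h0)
                    (ch_000_080 (h0.trans h12) k4) (ql_080 k4) (qu_000 (h0.trans h12))
                    (ch_100_inf k7) (Q_nonneg _) (qu_100 k7)
                    (ch_100_inf (k7.trans h34)) (Q_nonneg _) (qu_100 (k7.trans h34))
                    (ht _ fun b hb => ch_100_inf (le_trans k5 hb)) (Q_nonneg _) (qu_100 k5)
          · exact leaf5_23 h
              (ch_000_070 h0 k3) (ql_070 k3) (qu_000 h0)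
              (ch_080_170 k4 k2) (ql_170 k2) (qu_080 k4)
              (ch_080_inf (k4.trans h23)) (Q_nonneg _) (qu_080 (k4.trans h23))
              (ch_080_inf k0) (Q_nonneg _) (qu_080 k0)
              (ht _ fun b hb => ch_080_inf (le_trans (k0.trans h45) hb)) (Q_nonneg _) (qu_080 (k0.trans h45))
        · exact leaf5_24 h
            (ch_070_120 k3 k1) (ql_120 k1) (qu_070 k3)
            (ch_070_170 (k3.trans h12) k2) (ql_170 k2) (qu_070 (k3.trans h12))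
            (ch_070_inf (k3.trans h13)) (Q_nonneg _) (qu_070 (k3.trans h13))
            (ch_080_inf k0) (Q_nonneg _) (qu_080 k0)
            (ht _ fun b hb => ch_080_inf (le_trans (k0.trans h45) hb)) (Q_nonneg _) (qu_080 (k0.trans h45))
      · exact leaf5_25 h
          (ch_000_120 h0 k1) (ql_120 k1) (qu_000 h0)
          (ch_170_inf k2) (Q_nonneg _) (qu_170 k2)
          (ch_170_inf (k2.trans h23)) (Q_nonneg _) (qu_170 (k2.trans h23))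
          (ch_170_inf (k2.trans h24)) (Q_nonneg _) (qu_170 (k2.trans h24))
          (ht _ fun b hb => ch_170_inf (le_trans (k2.trans h25) hb)) (Q_nonneg _) (qu_170 (k2.trans h25))
    · exact leaf5_26 h
        (ch_120_inf k1) (Q_nonneg _) (qu_120 k1)
        (ch_120_inf (k1.trans h12)) (Q_nonneg _) (qu_120 (k1.trans h12))
        (ch_120_inf (k1.trans h13)) (Q_nonneg _) (qu_120 (k1.trans h13))
        (ch_120_inf (k1.trans h14)) (Q_nonneg _) (qu_120 (k1.trans h14))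
        (ht _ fun b hb => ch_120_inf (le_trans (k1.trans h15) hb)) (Q_nonneg _) (qu_120 (k1.trans h15))

end Vale.Agent.P226
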