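import Vale.Agent.P226.Crit

/-! Numerical tools: Taylor enclosures, chord and tangent bounds. -/

open MeasureTheory ProbabilityTheory Set Filter Topology Real

namespace Vale.Agent.P226

/-- Taylor polynomial of the decreasing exponential -/
noncomputable def tay (n : ℕ) (u : ℝ) : ℝ := ∑ i ∈ Finset.range n, (-u) ^ i / (i.factorial : ℝ)

/-- Taylor polynomial of the Gaussian integral -/
noncomputable def tg (n : ℕ) (b : ℝ) : ℝ :=
  ∑ i ∈ Finset.range n, (-1 / 2) ^ i * b ^ (2 * i + 1) / ((i.factorial : ℝ) * (2 * i + 1))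

lemma hasDerivAt_tay (n : ℕ) (u : ℝ) : HasDerivAt (tay (n + 1)) (-tay n u) u := by
  induction n with
  | zero =>
    have : tay 1 = fun _ => 1 := by funext u; simp [tay]
    rw [this]; simpa [tay] using hasDerivAt_const u (1 : ℝ)
  | succ n ih =>
    have e : tay (n + 1 + 1) = fun u => tay (n + 1) u + (-u) ^ (n + 1) / ((n + 1).factorial : ℝ) := by
      funext u; simp [tay, Finset.sum_range_succ]
    rw [e]
    have h1 := (((hasDerivAt_id' u).fun_neg).fun_pow (n + 1)).div_const ((n + 1).factorial : ℝ)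
    refine (ih.fun_add h1).congr_deriv ?_
    have : (n.factorial : ℝ) ≠ 0 := by positivity
    simp only [tay, Finset.sum_range_succ, Nat.factorial_succ, Nat.add_sub_cancel]
    push_cast
    field_simp
    ring

lemma tay_sign (n : ℕ) : ∀ u : ℝ, 0 ≤ u → 0 ≤ (-1) ^ n * (Real.exp (-u) - tay n u) := by
  induction n with
  | zero => intro u _; simpa [tay] using (Real.exp_pos _).le
  | succ n ih =>
    intro u hu
    have := le_of_deriv_nonneg (F := fun u => (-1) ^ (n + 1) * (Real.exp (-u) - tay (n + 1) u))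
      (F' := fun u => (-1) ^ n * (Real.exp (-u) - tay n u)) hu
      (fun x _ _ => ((((hasDerivAt_id' x).fun_neg.exp).fun_sub (hasDerivAt_tay n x)).const_mul
        ((-1) ^ (n + 1))).congr_deriv (by ring))
      (fun x hx _ => ih x hx)
    have e : tay (n + 1) 0 = 1 := by simp [tay, Finset.sum_range_succ']
    simpa [e] using this

lemma hasDerivAt_tg (n : ℕ) (b : ℝ) : HasDerivAt (tg n) (tay n (b ^ 2 / 2)) b := by
  unfold tg tay
  refine HasDerivAt.fun_sum fun i _ => ?_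
  have h1 := ((hasDerivAt_pow (2 * i + 1) b).const_mul ((-1 / 2 : ℝ) ^ i)).div_const
    ((i.factorial : ℝ) * (2 * i + 1))
  refine h1.congr_deriv ?_
  have : (i.factorial : ℝ) ≠ 0 := by positivity
  have e : (-(b ^ 2 / 2)) ^ i = (-1 / 2) ^ i * b ^ (2 * i) := by
    rw [pow_mul, ← mul_pow]; congr 1; ring
  rw [e, Nat.add_sub_cancel]
  push_cast
  field_simp

lemma tg_sign (n : ℕ) {b : ℝ} (hb : 0 ≤ b) :
    0 ≤ (-1) ^ n * (1 / 2 - Q b - (√(2 * π))⁻¹ * tg n b) := by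
  have := le_of_deriv_nonneg (F := fun b => (-1) ^ n * (1 / 2 - Q b - (√(2 * π))⁻¹ * tg n b))
    (F' := fun b => (√(2 * π))⁻¹ * ((-1) ^ n * (Real.exp (-(b ^ 2 / 2)) - tay n (b ^ 2 / 2)))) hb
    (fun x _ _ => ((((hasDerivAt_Q x).const_sub (1 / 2)).fun_sub
      ((hasDerivAt_tg n x).const_mul _)).const_mul ((-1) ^ n)).congr_deriv
        (by unfold phi; rw [neg_div]; ring))
    (fun x _ _ => mul_nonneg (inv_nonneg.2 sqrt_two_pi_pos.le) (tay_sign n _ (by positivity)))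
  have e : tg n 0 = 0 := by simp [tg]
  simpa [e, Q_zero] using this

lemma rho_sq : ((√(2 * π))⁻¹) ^ 2 = (2 * π)⁻¹ := by
  rw [inv_pow, Real.sq_sqrt (by positivity)]

lemma rho_pos : 0 < (√(2 * π))⁻¹ := inv_pos.2 sqrt_two_pi_pos

lemma rho_lb : (0.3989422 : ℝ) ≤ (√(2 * π))⁻¹ := by
  refine le_of_sq_le_sq ?_ rho_pos.le
  rw [rho_sq, le_inv_comm₀ (by norm_num) (by positivity)]
  have := Real.pi_lt_d6
  norm_num at this ⊢
  linarith

lemma rho_ub : (√(2 * π))⁻¹ ≤ (0.3989424 : ℝ) := by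
  refine le_of_sq_le_sq ?_ (by norm_num)
  rw [rho_sq, inv_le_comm₀ (by positivity) (by norm_num)]
  have := Real.pi_gt_d6
  norm_num at this ⊢
  linarith

lemma cc_sq' : cc ^ 2 = 9 / 4 * ((√(2 * π))⁻¹) ^ 2 := by
  rw [cc_sq, rho_sq]; field_simp; ring

lemma isf_eq (b : ℝ) : isf b = 4 / 9 * Real.exp (-(b ^ 2 / 2)) ^ 2 := by
  have := rho_pos.ne'
  rw [isf, cc_sq', phi, neg_div]; field_simp

lemma isf_le (b : ℝ) : isf b ≤ 4 / 9 := by
  rw [isf_eq]
  have h1 : Real.exp (-(b ^ 2 / 2)) ≤ 1 := Real.exp_le_one_iff.2 (by nlinarith [sq_nonneg b])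
  have h2 := Real.exp_pos (-(b ^ 2 / 2))
  nlinarith

lemma exp_ub {b eu : ℝ} (h : tay 13 (b ^ 2 / 2) ≤ eu) : Real.exp (-(b ^ 2 / 2)) ≤ eu := by
  have := tay_sign 13 (b ^ 2 / 2) (by positivity)
  norm_num at this
  linarith

lemma Q_lb {b ql : ℝ} (hb : 0 ≤ b) (h0 : 0 ≤ tg 13 b) (h : ql ≤ 1 / 2 - 0.3989424 * tg 13 b) :
    ql ≤ Q b := by
  have h1 := tg_sign 13 hb
  have h2 := mul_le_mul_of_nonneg_right rho_ub h0
  rw [show ((-1 : ℝ)) ^ 13 = -1 by norm_num] at h1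
  linarith

lemma Q_ub {b qu : ℝ} (hb : 0 ≤ b) (h0 : 0 ≤ tg 12 b) (h : 1 / 2 - 0.3989422 * tg 12 b ≤ qu) :
    Q b ≤ qu := by
  have h1 := tg_sign 12 hb
  have h2 := mul_le_mul_of_nonneg_right rho_lb h0
  rw [show ((-1 : ℝ)) ^ 12 = 1 by norm_num] at h1
  linarith

lemma jf_ub {b ql eu ju : ℝ} (hb : 0 ≤ b) (hq0 : 0 ≤ ql) (hq : ql ≤ Q b)
    (he : Real.exp (-(b ^ 2 / 2)) ≤ eu) (h : 4 / 9 * eu * (eu - b * ql / 0.3989424) ≤ ju) :
    jf b ≤ ju := by
  have hr := rho_pos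
  set ρ := (√(2 * π))⁻¹ with hρ
  set X := Real.exp (-(b ^ 2 / 2)) with hX
  have hX0 : 0 < X := Real.exp_pos _
  have e0 : phi b = ρ * X := by rw [phi, neg_div]
  have e1 : jf b = 4 / 9 * X * (X - b * Q b / ρ) := by
    rw [jf, cc_sq', e0, ← hρ]; field_simp
  have k1 : 0 ≤ X - b * Q b / ρ := by
    have := mul_Q_le_phi b
    rw [e0] at this
    rw [sub_nonneg, div_le_iff₀ hr]; linarith
  have k2 : b * ql / 0.3989424 ≤ b * Q b / ρ :=
    div_le_div₀ (mul_nonneg hb (Q_nonneg b)) (mul_le_mul_of_nonneg_left hq hb) hr rho_ub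
  rw [e1]
  refine le_trans ?_ h
  exact mul_le_mul (by linarith) (by linarith) k1 (by linarith)

/-- slope function of the profile -/
noncomputable def Kf (b : ℝ) : ℝ := (b * (phi b - b * Q b) + Q b) / cc ^ 2

lemma hasDerivAt_jf (b : ℝ) : HasDerivAt jf (-(phi b * Kf b)) b := by
  have := ((hasDerivAt_phi b).fun_mul ((hasDerivAt_phi b).fun_sub
    ((hasDerivAt_id' b).fun_mul (hasDerivAt_Q b)))).div_const (cc ^ 2)
  exact this.congr_deriv (by unfold Kf; ring)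

lemma Kf_anti {a b : ℝ} (ha : 0 ≤ a) (hab : a ≤ b) : Kf b ≤ Kf a :=
  le_of_deriv_nonpos (F' := fun x => -(2 * x * Q x) / cc ^ 2) hab
    (fun x _ _ => ((((hasDerivAt_id' x).fun_mul ((hasDerivAt_phi x).fun_sub
      ((hasDerivAt_id' x).fun_mul (hasDerivAt_Q x)))).fun_add (hasDerivAt_Q x)).div_const
        (cc ^ 2)).congr_deriv (by ring))
    (fun x hx _ => div_nonpos_of_nonpos_of_nonneg
      (by nlinarith [mul_nonneg (ha.trans hx) (Q_nonneg x)]) (sq_nonneg _))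

lemma hasDerivAt_gapf (A B b : ℝ) :
    HasDerivAt (fun b => jf b - (A + B * Q b)) (phi b * (B - Kf b)) b :=
  ((hasDerivAt_jf b).fun_sub (((hasDerivAt_Q b).const_mul B).const_add A)).congr_deriv (by ring)

lemma chord {b0 b1 A B b : ℝ} (h00 : 0 ≤ b0) (h0 : jf b0 ≤ A + B * Q b0) (h1 : jf b1 ≤ A + B * Q b1)
    (hb0 : b0 ≤ b) (hb1 : b ≤ b1) : jf b ≤ A + B * Q b := by
  rcases le_total B (Kf b) with h | h
  · have := le_of_deriv_nonpos hb0 (fun x _ _ => hasDerivAt_gapf A B x)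
      (fun x hx hxb => mul_nonpos_of_nonneg_of_nonpos (phi_pos x).le
        (by linarith [Kf_anti (h00.trans hx) hxb]))
    linarith
  · have := le_of_deriv_nonneg hb1 (fun x _ _ => hasDerivAt_gapf A B x)
      (fun x hx _ => mul_nonneg (phi_pos x).le (by linarith [Kf_anti (h00.trans hb0) hx]))
    linarith

lemma tendsto_jf : Tendsto jf atTop (𝓝 0) := by
  have h1 := ((tendsto_phi.mul tendsto_phi).sub
    ((tendsto_pow_mul_phi 1).mul tendsto_Q_atTop)).div_const (cc ^ 2)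
  simp only [mul_zero, sub_zero, zero_div] at h1
  refine h1.congr fun x => ?_
  unfold jf; ring

lemma chord_inf {b0 B b : ℝ} (h00 : 0 ≤ b0) (h0 : jf b0 ≤ B * Q b0) (hb0 : b0 ≤ b) :
    jf b ≤ B * Q b := by
  rcases le_total B (Kf b) with h | h
  · have := le_of_deriv_nonpos hb0 (fun x _ _ => hasDerivAt_gapf 0 B x)
      (fun x hx hxb => mul_nonpos_of_nonneg_of_nonpos (phi_pos x).le
        (by linarith [Kf_anti (h00.trans hx) hxb]))
    linarith
  · have := le_of_deriv_nonpos_tendsto (a := b) (L := 0)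
      (fun x _ => (hasDerivAt_gapf 0 B x).fun_neg)
      (fun x hx => neg_nonpos.2 (mul_nonneg (phi_pos x).le
        (by linarith [Kf_anti (h00.trans hb0) hx])))
      (by simpa using (tendsto_jf.sub ((tendsto_Q_atTop.const_mul B).const_add 0)).neg)
    linarith

lemma hasDerivAt_mul_phi (x : ℝ) : HasDerivAt (fun x => x * phi x) (phi x * (1 - x ^ 2)) x :=
  ((hasDerivAt_id' x).fun_mul (hasDerivAt_phi x)).congr_deriv (by ring)

lemma mul_phi_mono {a b : ℝ} (ha : 0 ≤ a) (hab : a ≤ b) (hb : b ≤ 1) : a * phi a ≤ b * phi b :=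
  le_of_deriv_nonneg hab (fun x _ _ => hasDerivAt_mul_phi x)
    (fun x h1 h2 => mul_nonneg (phi_pos x).le (by nlinarith))

lemma mul_phi_anti {a b : ℝ} (ha : 1 ≤ a) (hab : a ≤ b) : b * phi b ≤ a * phi a :=
  le_of_deriv_nonpos hab (fun x _ _ => hasDerivAt_mul_phi x)
    (fun x h1 h2 => mul_nonpos_of_nonneg_of_nonpos (phi_pos x).le (by nlinarith))

lemma itan_exact {b0 A b : ℝ} (h00 : 0 ≤ b0) (h01 : b0 ≤ 1) (hA : 0 ≤ A)
    (h0 : isf b0 ≤ A + 2 * (b0 * phi b0) / cc ^ 2 * Q b0) (hb : 0 ≤ b) :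
    isf b ≤ A + 2 * (b0 * phi b0) / cc ^ 2 * Q b := by
  have hc : 0 < cc ^ 2 := pow_pos cc_pos 2
  have hd : ∀ x, HasDerivAt (fun b => A + 2 * (b0 * phi b0) / cc ^ 2 * Q b - isf b)
      (2 * phi x / cc ^ 2 * (x * phi x - b0 * phi b0)) x := fun x =>
    ((((hasDerivAt_Q x).const_mul _).const_add A).fun_sub
      (((hasDerivAt_phi x).fun_pow 2).div_const (cc ^ 2))).congr_deriv (by simp; ring)
  have hp : ∀ x, 0 ≤ 2 * phi x / cc ^ 2 := fun x => by have := phi_pos x; positivity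
  rcases le_total b b0 with h | h
  · have := le_of_deriv_nonpos h (fun x _ _ => hd x) (fun x h1 h2 =>
      mul_nonpos_of_nonneg_of_nonpos (hp x) (by linarith [mul_phi_mono (hb.trans h1) h2 h01]))
    linarith
  rcases le_or_gt (b0 * phi b0) (b * phi b) with h' | h'
  · have := le_of_deriv_nonneg h (fun x _ _ => hd x) (fun x h1 h2 => mul_nonneg (hp x) (by
      rcases le_total x 1 with h3 | h3
      · linarith [mul_phi_mono h00 h1 h3]
      · linarith [mul_phi_anti h3 h2]))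
    linarith
  · have hb1 : 1 ≤ b := by
      by_contra hcon
      linarith [mul_phi_mono h00 h (not_le.1 hcon).le]
    have hl : Tendsto (fun b => A + 2 * (b0 * phi b0) / cc ^ 2 * Q b - isf b) atTop (𝓝 A) := by
      have := ((tendsto_Q_atTop.const_mul (2 * (b0 * phi b0) / cc ^ 2)).const_add A).sub
        ((tendsto_phi.pow 2).div_const (cc ^ 2))
      simpa [isf] using this
    have := le_of_deriv_nonpos_tendsto (a := b) (fun x _ => hd x) (fun x hx =>
      mul_nonpos_of_nonneg_of_nonpos (hp x) (by linarith [mul_phi_anti hb1 hx])) hl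
    linarith

lemma exp_lb {b el : ℝ} (h : el ≤ tay 12 (b ^ 2 / 2)) : el ≤ Real.exp (-(b ^ 2 / 2)) := by
  have := tay_sign 12 (b ^ 2 / 2) (by positivity)
  norm_num at this
  linarith

lemma itan {b0 A B el eu ql b : ℝ} (h00 : 0 ≤ b0) (h01 : b0 ≤ 1) (hA : 0 ≤ A) (hel0 : 0 ≤ el)
    (hel : el ≤ Real.exp (-(b0 ^ 2 / 2))) (heu : Real.exp (-(b0 ^ 2 / 2)) ≤ eu) (hq0 : 0 ≤ ql)
    (hq : ql ≤ Q b0) (hB : 8 / 9 * b0 * eu / 0.3989422 ≤ B)
    (h : 4 / 9 * eu ^ 2 ≤ A + 8 / 9 * b0 * el / 0.3989424 * ql) (hb : 0 ≤ b) :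
    isf b ≤ A + B * Q b := by
  have hr := rho_pos
  set X := Real.exp (-(b0 ^ 2 / 2)) with hX
  have hX0 : 0 < X := Real.exp_pos _
  have e : 2 * (b0 * phi b0) / cc ^ 2 = 8 / 9 * b0 * X / (√(2 * π))⁻¹ := by
    rw [cc_sq', phi, neg_div, ← hX]; field_simp; ring
  have k1 : 8 / 9 * b0 * X / (√(2 * π))⁻¹ ≤ 8 / 9 * b0 * eu / 0.3989422 :=
    div_le_div₀ (by nlinarith) (by nlinarith) (by norm_num) rho_lb
  have k2 : 8 / 9 * b0 * el / 0.3989424 ≤ 8 / 9 * b0 * X / (√(2 * π))⁻¹ :=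
    div_le_div₀ (by positivity) (by nlinarith) hr rho_ub
  have h1 := itan_exact h00 h01 hA (by
    rw [e, isf_eq, ← hX]
    have k3 := mul_le_mul k2 hq hq0 (by positivity)
    nlinarith) hb
  rw [e] at h1
  nlinarith [mul_le_mul_of_nonneg_right (k1.trans hB) (Q_nonneg b)]

/-- the Heron form -/
noncomputable def heron (x y z : ℝ) : ℝ := (2 * (x * y + y * z + x * z) - x ^ 2 - y ^ 2 - z ^ 2) / 4

lemma heron_lin {x y z : ℝ} (s lx hx ly hy lz hz : ℝ) (h1 : lx ≤ x) (h2 : x ≤ hx) (h3 : ly ≤ y)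
    (h4 : y ≤ hy) (h5 : lz ≤ z) (h6 : z ≤ hz) :
    (2 * s * (x + y + z) - s ^ 2 - 2 * ((lx + hx) * x - lx * hx) - 2 * ((ly + hy) * y - ly * hy)
      - 2 * ((lz + hz) * z - lz * hz)) / 4 ≤ heron x y z := by
  unfold heron
  nlinarith [sq_nonneg (x + y + z - s), mul_nonneg (sub_nonneg.2 h1) (sub_nonneg.2 h2),
    mul_nonneg (sub_nonneg.2 h3) (sub_nonneg.2 h4), mul_nonneg (sub_nonneg.2 h5) (sub_nonneg.2 h6)]

lemma heron_of_pairs {x y z a b c K e : ℝ} (hK : 0 ≤ K) (ha : 0 ≤ a) (hb : 0 ≤ b) (hc : 0 ≤ c)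
    (hx : a + b ≤ x) (hy : a + c ≤ y) (hz : b + c ≤ z) (h1 : K * (x * y - a ^ 2) ≤ e)
    (h2 : K * (x * z - b ^ 2) ≤ e) (h3 : K * (y * z - c ^ 2) ≤ e) : K * heron x y z ≤ e := by
  unfold heron
  by_cases k1 : a ≤ (x + y - z) / 2
  · refine le_trans (mul_le_mul_of_nonneg_left ?_ hK) h1
    nlinarith [pow_le_pow_left₀ ha k1 2]
  by_cases k2 : b ≤ (x + z - y) / 2
  · refine le_trans (mul_le_mul_of_nonneg_left ?_ hK) h2
    nlinarith [pow_le_pow_left₀ hb k2 2]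
  · have k3 : c ≤ (y + z - x) / 2 := by linarith
    refine le_trans (mul_le_mul_of_nonneg_left ?_ hK) h3
    nlinarith [pow_le_pow_left₀ hc k3 2]

end Vale.Agent.P226
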