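import Vale.Agent.P226.Ehr2

/-! Linear functionals, resampling, shifts and the tangent bound. -/

open MeasureTheory ProbabilityTheory Set Filter Topology Real
open scoped RealInnerProductSpace ENNReal

set_option linter.unusedSectionVars false

namespace Vale.Agent.P226

variable {E : Type*} [NormedAddCommGroup E] [InnerProductSpace ℝ E] [FiniteDimensional ℝ E]
  [MeasurableSpace E] [BorelSpace E]

lemma map_inner (u : E) :
    (stdGaussian E).map (fun x => ⟪u, x⟫) = gam.map (fun g => ‖u‖ * g) := by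
  have h := IsGaussian.map_eq_gaussianReal (μ := stdGaussian E) (innerSL ℝ u)
  rw [integral_strongDual_stdGaussian, variance_dual_stdGaussian, innerSL_apply_norm] at h
  rw [gaussianReal_map_const_mul]
  have e : (fun x => ⟪u, x⟫) = ⇑(innerSL ℝ u) := by funext x; simp
  rw [e, h]
  congr 1
  · simp
  · ext; simp

lemma integral_comp_inner (u : E) {F : ℝ → ℝ} (hF : Measurable F) :
    ∫ x, F ⟪u, x⟫ ∂(stdGaussian E) = ∫ g, F (‖u‖ * g) ∂gam := by
  rw [← integral_map (φ := fun x => ⟪u, x⟫) (by fun_prop) hF.aestronglyMeasurable, map_inner,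
    integral_map (by fun_prop) hF.aestronglyMeasurable]

lemma integrable_comp_inner (u : E) {F : ℝ → ℝ} (hF : Measurable F)
    (h : Integrable (fun g => F (‖u‖ * g)) gam) :
    Integrable (fun x => F ⟪u, x⟫) (stdGaussian E) := by
  have h1 : Integrable F (gam.map (fun g => ‖u‖ * g)) :=
    (integrable_map_measure hF.aestronglyMeasurable (by fun_prop)).2 h
  rw [← map_inner] at h1
  exact (integrable_map_measure hF.aestronglyMeasurable (by fun_prop)).1 h1

lemma integrable_inner (u : E) : Integrable (fun x => ⟪u, x⟫) (stdGaussian E) := by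
  have := IsGaussian.integrable_dual (stdGaussian E) (innerSL ℝ u)
  simpa using this

lemma integral_inner_zero (u : E) : ∫ x, ⟪u, x⟫ ∂(stdGaussian E) = 0 := by
  have := integral_strongDual_stdGaussian (innerSL ℝ u)
  simpa using this

lemma integrable_idE : Integrable (fun x : E => x) (stdGaussian E) := IsGaussian.integrable_id

lemma inner_setIntegral (u : E) (A : Set E) :
    ⟪u, ∫ x in A, x ∂(stdGaussian E)⟫ = ∫ x in A, ⟪u, x⟫ ∂(stdGaussian E) :=
  (integral_inner integrable_idE.integrableOn u).symm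

lemma measure_inner_eq_zero {u : E} (hu : u ≠ 0) : stdGaussian E {x | ⟪u, x⟫ = 0} = 0 := by
  have h1 : {x : E | ⟪u, x⟫ = 0} = (fun x => ⟪u, x⟫) ⁻¹' {0} := rfl
  rw [h1, ← Measure.map_apply (by fun_prop) (measurableSet_singleton _), map_inner,
    Measure.map_apply (by fun_prop) (measurableSet_singleton _)]
  have h2 : (fun g : ℝ => ‖u‖ * g) ⁻¹' {0} = {0} := by
    ext g; simp [hu]
  rw [h2]; simp

lemma measure_inner_pos {u : E} (hu : u ≠ 0) : (stdGaussian E).real {x | 0 < ⟪u, x⟫} = 1 / 2 := by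
  have h1 : {x : E | 0 < ⟪u, x⟫} = (fun x => ⟪u, x⟫) ⁻¹' Ioi 0 := rfl
  rw [h1, ← map_measureReal_apply (by fun_prop) measurableSet_Ioi, map_inner,
    map_measureReal_apply (by fun_prop) measurableSet_Ioi]
  have h2 : (fun g : ℝ => ‖u‖ * g) ⁻¹' Ioi 0 = Ioi 0 := by
    ext g; simp [hu]
  rw [h2, gam_Ioi, Q_zero]

/-- replace the coordinate along `e` by a fresh value -/
def resamp (e : E) (p : E × ℝ) : E := p.1 + (p.2 - ⟪e, p.1⟫) • e

@[fun_prop]
lemma continuous_resamp (e : E) : Continuous (resamp e) := by unfold resamp; fun_prop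

lemma inner_resamp (e u : E) (p : E × ℝ) :
    ⟪u, resamp e p⟫ = ⟪u, p.1⟫ + (p.2 - ⟪e, p.1⟫) * ⟪u, e⟫ := by
  simp [resamp, inner_add_right, inner_smul_right]

lemma measurePreserving_resamp {e : E} (he : ‖e‖ = 1) :
    MeasurePreserving (resamp e) ((stdGaussian E).prod gam) (stdGaussian E) := by
  refine ⟨(continuous_resamp e).measurable, Measure.ext_of_charFun ?_⟩
  ext t
  rw [charFun_apply, integral_map (continuous_resamp e).measurable.aemeasurable (by fun_prop)]
  have h1 : ∀ p : E × ℝ, Complex.exp (⟪resamp e p, t⟫ * Complex.I) =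
      Complex.exp (⟪p.1, t - ⟪t, e⟫ • e⟫ * Complex.I) *
        Complex.exp (⟪t, e⟫ * p.2 * Complex.I) := by
    intro p
    rw [← Complex.exp_add, ← add_mul, real_inner_comm, inner_resamp, inner_sub_right,
      inner_smul_right, real_inner_comm p.1 t, real_inner_comm p.1 e]
    push_cast
    congr 2
    ring
  simp_rw [h1]
  rw [integral_prod_mul (f := fun x : E => Complex.exp (⟪x, t - ⟪t, e⟫ • e⟫ * Complex.I))
    (g := fun g : ℝ => Complex.exp (⟪t, e⟫ * g * Complex.I)), ← charFun_apply,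
    ← charFun_apply_real, charFun_stdGaussian, charFun_gaussianReal, charFun_stdGaussian,
    ← Complex.exp_add]
  congr 1
  have h2 : ‖t - ⟪t, e⟫ • e‖ ^ 2 = ‖t‖ ^ 2 - ⟪t, e⟫ ^ 2 := by
    rw [norm_sub_sq_real, inner_smul_right, norm_smul, he, Real.norm_eq_abs, mul_one, sq_abs]
    ring
  have h3 : ((‖t - ⟪t, e⟫ • e‖ : ℝ) : ℂ) ^ 2 = (‖t‖ : ℂ) ^ 2 - (⟪t, e⟫ : ℝ) ^ 2 := by
    exact_mod_cast h2
  rw [h3]
  push_cast
  ring

lemma lintegral_resamp {e : E} (he : ‖e‖ = 1) {F : E → ℝ≥0∞} (hF : Measurable F) :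
    ∫⁻ x, F x ∂(stdGaussian E) = ∫⁻ x, ∫⁻ g, F (resamp e (x, g)) ∂gam ∂(stdGaussian E) := by
  rw [← (measurePreserving_resamp he).lintegral_comp hF, lintegral_prod]
  exact (hF.comp (continuous_resamp e).measurable).aemeasurable

lemma lintegral_gam {G : ℝ → ℝ≥0∞} (hG : Measurable G) :
    ∫⁻ g, G g ∂gam = ∫⁻ g, ENNReal.ofReal (phi g) * G g := by
  rw [gam, gaussianReal_of_var_ne_zero 0 one_ne_zero,
    lintegral_withDensity_eq_lintegral_mul _ (measurable_gaussianPDF _ _) hG]
  simp [gaussianPDF, phi_eq]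

lemma lintegral_gam_shift {G : ℝ → ℝ≥0∞} (hG : Measurable G) (h : ℝ) :
    ∫⁻ g, G (g + h) ∂gam = ∫⁻ g, G g * ENNReal.ofReal (Real.exp (h * g - h ^ 2 / 2)) ∂gam := by
  rw [lintegral_gam (by fun_prop), lintegral_gam (by fun_prop),
    ← lintegral_add_right_eq_self (μ := volume) (fun g => ENNReal.ofReal (phi g) *
      (G g * ENNReal.ofReal (Real.exp (h * g - h ^ 2 / 2)))) h]
  congr 1
  funext g
  rw [mul_comm (G _), ← mul_assoc, ← ENNReal.ofReal_mul (phi_pos _).le]
  congr 2
  unfold phi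
  rw [mul_assoc, ← Real.exp_add]
  congr 2
  ring

lemma lintegral_shift (y : E) {F : E → ℝ≥0∞} (hF : Measurable F) :
    ∫⁻ x, F (x + y) ∂(stdGaussian E) =
      ∫⁻ x, F x * ENNReal.ofReal (Real.exp (⟪y, x⟫ - ‖y‖ ^ 2 / 2)) ∂(stdGaussian E) := by
  rcases eq_or_ne y 0 with rfl | hy
  · simp
  have hn : ‖y‖ ≠ 0 := norm_ne_zero_iff.2 hy
  set e : E := ‖y‖⁻¹ • y with he
  have he1 : ‖e‖ = 1 := by rw [he, norm_smul, norm_inv, norm_norm, inv_mul_cancel₀ hn]
  have hye : y = ‖y‖ • e := by rw [he, smul_smul, mul_inv_cancel₀ hn, one_smul]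
  rw [lintegral_resamp he1 (F := fun x => F (x + y)) (by fun_prop), lintegral_resamp he1
    (F := fun x => F x * ENNReal.ofReal (Real.exp (⟪y, x⟫ - ‖y‖ ^ 2 / 2))) (by fun_prop)]
  congr 1
  funext x
  have h1 : ∀ g, resamp e (x, g) + y = resamp e (x, g + ‖y‖) := by
    intro g
    simp only [resamp]
    rw [show g + ‖y‖ - ⟪e, x⟫ = (g - ⟪e, x⟫) + ‖y‖ by ring, add_smul, ← hye, add_assoc]
  have h2 : ∀ g, ⟪y, resamp e (x, g)⟫ = ‖y‖ * g := by
    intro g
    have k1 : ⟪y, x⟫ = ‖y‖ * ⟪e, x⟫ := by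
      conv_lhs => rw [hye, real_inner_smul_left]
    have k2 : ⟪y, e⟫ = ‖y‖ := by
      conv_lhs => rw [hye, real_inner_smul_left, real_inner_self_eq_norm_sq, he1]
      ring
    rw [inner_resamp, k1, k2]; ring
  simp only [h1, h2]
  exact lintegral_gam_shift (G := fun g => F (resamp e (x, g))) (by fun_prop) ‖y‖

lemma ofReal_integral_le {α : Type*} [MeasurableSpace α] {μ : Measure α} {f : α → ℝ}
    (hf : Integrable f μ) : ENNReal.ofReal (∫ x, f x ∂μ) ≤ ∫⁻ x, ENNReal.ofReal (f x) ∂μ := by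
  have h1 : ∫ x, f x ∂μ ≤ ∫ x, max (f x) 0 ∂μ :=
    integral_mono hf hf.pos_part fun x => le_max_left _ _
  refine (ENNReal.ofReal_le_ofReal h1).trans (le_of_eq ?_)
  rw [ofReal_integral_eq_lintegral_ofReal hf.pos_part
    (Eventually.of_forall fun x => le_max_right _ _)]
  congr 1
  funext x
  rcases le_total (f x) 0 with h | h
  · rw [max_eq_right h, ENNReal.ofReal_of_nonpos h, ENNReal.ofReal_zero]
  · rw [max_eq_left h]

lemma shift_lower (y : E) {A : Set E} (hA : MeasurableSet A) :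
    Real.exp (-(‖y‖ ^ 2 / 2)) * ((stdGaussian E).real A + ⟪y, ∫ x in A, x ∂(stdGaussian E)⟫) ≤
      (stdGaussian E).real {x | x + y ∈ A} := by
  have h1 := lintegral_shift y (F := A.indicator 1) (measurable_one.indicator hA)
  have h2 : (fun x => A.indicator (1 : E → ℝ≥0∞) (x + y)) = {x | x + y ∈ A}.indicator 1 := by
    funext x
    by_cases hx : x + y ∈ A
    · rw [indicator_of_mem hx, indicator_of_mem (show x ∈ {x | x + y ∈ A} from hx)]; rfl
    · rw [indicator_of_notMem hx, indicator_of_notMem (show x ∉ {x | x + y ∈ A} from hx)]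
  have hm : MeasurableSet {x | x + y ∈ A} := (measurable_add_const y) hA
  rw [h2, lintegral_indicator_one hm] at h1
  have h3 : (fun x => A.indicator (1 : E → ℝ≥0∞) x *
      ENNReal.ofReal (Real.exp (⟪y, x⟫ - ‖y‖ ^ 2 / 2))) =
      A.indicator fun x => ENNReal.ofReal (Real.exp (⟪y, x⟫ - ‖y‖ ^ 2 / 2)) := by
    funext x
    by_cases hx : x ∈ A
    · simp [indicator_of_mem hx]
    · simp [indicator_of_notMem hx]
  rw [h3, lintegral_indicator hA] at h1
  have hint : IntegrableOn (fun x => Real.exp (-(‖y‖ ^ 2 / 2)) * (1 + ⟪y, x⟫)) A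
      (stdGaussian E) :=
    (((integrable_const 1).add (integrable_inner y)).const_mul _).integrableOn
  have h4 := ofReal_integral_le hint
  have h5 : ∫⁻ x in A, ENNReal.ofReal (Real.exp (-(‖y‖ ^ 2 / 2)) * (1 + ⟪y, x⟫)) ∂(stdGaussian E) ≤
      ∫⁻ x in A, ENNReal.ofReal (Real.exp (⟪y, x⟫ - ‖y‖ ^ 2 / 2)) ∂(stdGaussian E) := by
    refine lintegral_mono fun x => ENNReal.ofReal_le_ofReal ?_
    rw [sub_eq_add_neg, Real.exp_add, mul_comm]
    gcongr
    linarith [Real.add_one_le_exp ⟪y, x⟫]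
  have h6 := h4.trans h5
  rw [← h1, integral_const_mul, integral_add (integrable_const 1)
    (integrable_inner y).integrableOn, ← inner_setIntegral] at h6
  simp only [integral_const, MeasurableSet.univ, measureReal_restrict_apply, univ_inter,
    smul_eq_mul, mul_one] at h6
  exact (ENNReal.ofReal_le_iff_le_toReal (measure_ne_top _ _)).1 h6

lemma OC.shift {A : Set E} (h : OC A) (y : E) : OC {x | x + y ∈ A} := by
  refine ⟨h.1.preimage (continuous_add_const y), fun x hx z hz a b ha hb hab => ?_⟩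
  have := h.2 hx hz ha hb hab
  show a • x + b • z + y ∈ A
  convert this using 1
  rw [smul_add, smul_add, add_add_add_comm, ← add_smul, hab, one_smul]

/-- tangent line bound for translates of an open convex set -/
lemma tangent_bound {A : Set E} (hA : OC A) {b : ℝ} (hb : (stdGaussian E).real A = Q b) (y : E)
    {t : ℝ} (ht : 0 < t) :
    (stdGaussian E).real {x | x + (-t) • y ∈ A} ≤
      Q (b + t * (⟪y, ∫ x in A, x ∂(stdGaussian E)⟫ / phi b)) := by
  set η := ⟪y, ∫ x in A, x ∂(stdGaussian E)⟫ with hη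
  set s := η / phi b with hs
  by_contra hcon
  rw [not_le] at hcon
  obtain ⟨r, hr1, hr2⟩ : ∃ r < b + t * s, Q r < (stdGaussian E).real {x | x + (-t) • y ∈ A} := by
    have h1 : ∀ᶠ r in 𝓝 (b + t * s), Q r < (stdGaussian E).real {x | x + (-t) • y ∈ A} :=
      continuous_Q.continuousAt.eventually (gt_mem_nhds hcon)
    obtain ⟨r, h2, h3⟩ := ((h1.filter_mono nhdsWithin_le_nhds).and
      (self_mem_nhdsWithin (s := Iio (b + t * s)) (a := b + t * s))).exists
    exact ⟨r, h3, h2⟩
  set d := (b + t * s - r) / t with hd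
  have hd0 : 0 < d := div_pos (by linarith) ht
  have hk : HasDerivAt (fun ε : ℝ => Real.exp (-(ε ^ 2 * ‖y‖ ^ 2 / 2)) * (Q b + ε * η) -
      Q (b + ε * (d - s))) (phi b * d) 0 := by
    have h1 : HasDerivAt (fun ε : ℝ => -(ε ^ 2 * ‖y‖ ^ 2 / 2)) 0 0 := by
      have := (((hasDerivAt_pow 2 (0:ℝ)).mul_const (‖y‖ ^ 2)).div_const 2).fun_neg
      exact this.congr_deriv (by simp)
    have h2 := (h1.exp.fun_mul (hasDerivAt_lin (Q b) η 0)).sub
      ((hasDerivAt_Q (b + 0 * (d - s))).comp 0 (hasDerivAt_lin b (d - s) 0))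
    refine h2.congr_deriv ?_
    have := (phi_pos b).ne'
    simp only [zero_mul, add_zero, mul_zero, zero_add, hs]
    field_simp
    simp
  have hpd : (0 : ℝ) < phi b * d := mul_pos (phi_pos b) hd0
  have hsl := hk.tendsto_slope_zero_right.eventually (lt_mem_nhds hpd)
  obtain ⟨ε, hε1, hε⟩ := (hsl.and self_mem_nhdsWithin).exists
  have hε0 : 0 < ε := hε
  simp only [zero_add, smul_eq_mul] at hε1
  have h3 := (mul_pos_iff_of_pos_left (inv_pos.2 hε0)).1 hε1
  simp only [ne_eq, OfNat.ofNat_ne_zero, not_false_eq_true, zero_pow, zero_mul, zero_div,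
    neg_zero, Real.exp_zero, add_zero, one_mul, sub_self, sub_zero] at h3
  have h4 := shift_lower (ε • y) hA.1.measurableSet
  rw [norm_smul, mul_pow, Real.norm_eq_abs, sq_abs, real_inner_smul_left, hb, ← hη] at h4
  have h5 : Q (b + ε * (d - s)) < (stdGaussian E).real {x | x + ε • y ∈ A} := by linarith
  have hte : 0 < t + ε := by linarith
  have h6 := ehr_stdGaussian E (t / (t + ε)) (ε / (t + ε)) _ _ A (by positivity) (by positivity)
    (by field_simp) (hA.shift (ε • y)) (hA.shift ((-t) • y)) hA ?_ _ _ h5 hr2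
  · have e : t / (t + ε) * (b + ε * (d - s)) + ε / (t + ε) * r = b := by
      rw [hd]; field_simp; ring
    rw [e, hb] at h6
    exact lt_irrefl _ h6
  · intro x hx z hz
    have := hA.2 hx hz (by positivity : 0 ≤ t / (t + ε)) (by positivity : 0 ≤ ε / (t + ε))
      (by field_simp)
    convert this using 1
    rw [smul_add, smul_add, smul_smul, smul_smul, add_add_add_comm, ← add_smul]
    have : t / (t + ε) * ε + ε / (t + ε) * -t = 0 := by field_simp; ring
    rw [this, zero_smul, add_zero]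

lemma integral_le_of_tails {α β : Type*} [MeasurableSpace α] [MeasurableSpace β] {μ : Measure α}
    {ν : Measure β} {f : α → ℝ} {g : β → ℝ} (hf : Integrable f μ) (hg : Integrable g ν)
    (hf0 : ∀ x, 0 ≤ f x) (hg0 : ∀ x, 0 ≤ g x)
    (h : ∀ t, 0 < t → μ {x | t < f x} ≤ ν {x | t < g x}) : ∫ x, f x ∂μ ≤ ∫ x, g x ∂ν := by
  rw [← ENNReal.ofReal_le_ofReal_iff (integral_nonneg hg0),
    ofReal_integral_eq_lintegral_ofReal hf (Eventually.of_forall hf0),
    ofReal_integral_eq_lintegral_ofReal hg (Eventually.of_forall hg0),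
    lintegral_eq_lintegral_meas_lt μ (Eventually.of_forall hf0) hf.aemeasurable,
    lintegral_eq_lintegral_meas_lt ν (Eventually.of_forall hg0) hg.aemeasurable]
  exact setLIntegral_mono' measurableSet_Ioi fun t ht => h t ht

/-- the integrated tangent bound -/
lemma gap_bound {A : Set E} (hA : OC A) {b : ℝ} (hb : (stdGaussian E).real A = Q b) (y : E)
    {η : ℝ} (hη : ⟪y, ∫ x in A, x ∂(stdGaussian E)⟫ = η) (hη0 : 0 < η) {G : E → ℝ}
    (hG : Integrable G (stdGaussian E)) (hGA : ∀ t x, 0 < t → t < G x → x + (-t) • y ∈ A) :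
    η * ∫ x, max (G x) 0 ∂(stdGaussian E) ≤ phi b * (phi b - b * Q b) := by
  have hp := phi_pos b
  have h1 : ∫ x, max (G x) 0 ∂(stdGaussian E) ≤ ∫ x, phi b / η * max (x - b) 0 ∂gam := by
    refine integral_le_of_tails hG.pos_part ((integrable_posPart_sub b).const_mul _)
      (fun x => le_max_right _ _) (fun x => mul_nonneg (by positivity) (le_max_right _ _)) ?_
    intro t ht
    have h2 := tangent_bound hA hb y ht
    rw [hη, ← gam_Ioi] at h2
    have h3 : {x | t < max (G x) 0} ⊆ {x | x + (-t) • y ∈ A} := by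
      intro x hx
      rcases lt_max_iff.1 (show t < max (G x) 0 from hx) with h | h
      · exact hGA t x ht h
      · linarith
    have h4 : Ioi (b + t * (η / phi b)) ⊆ {x | t < phi b / η * max (x - b) 0} := by
      intro x hx
      have hx' : b + t * (η / phi b) < x := hx
      have k : t * (η / phi b) < max (x - b) 0 := lt_max_of_lt_left (by linarith)
      have k2 := mul_lt_mul_of_pos_left k (div_pos hp hη0)
      have e : phi b / η * (t * (η / phi b)) = t := by field_simp
      rwa [e] at k2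
    refine (measure_mono h3).trans (le_trans ?_ (measure_mono h4))
    rwa [← ofReal_measureReal, ← ofReal_measureReal,
      ENNReal.ofReal_le_ofReal_iff measureReal_nonneg]
  rw [integral_const_mul, integral_posPart_sub] at h1
  have := mul_le_mul_of_nonneg_left h1 hη0.le
  rwa [← mul_assoc, mul_div_cancel₀ _ hη0.ne'] at this

/-- the half space bound for first moments -/
lemma moment_bound {A : Set E} {b : ℝ} (hb : (stdGaussian E).real A = Q b)
    {e : E} (he : ‖e‖ = 1) : ⟪e, ∫ x in A, x ∂(stdGaussian E)⟫ ≤ phi b := by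
  have hi : Integrable (fun x => ⟪e, x⟫ - b) (stdGaussian E) :=
    (integrable_inner e).sub (integrable_const b)
  have h1 : ∫ x in A, (⟪e, x⟫ - b) ∂(stdGaussian E) ≤ ∫ x, max (⟪e, x⟫ - b) 0 ∂(stdGaussian E) :=
    (setIntegral_mono hi.integrableOn hi.pos_part.integrableOn fun x => le_max_left _ _).trans
      (setIntegral_le_integral hi.pos_part (Eventually.of_forall fun x => le_max_right _ _))
  rw [integral_comp_inner e (F := fun r => max (r - b) 0) (by fun_prop), he,
    integral_sub (integrable_inner e).integrableOn (integrable_const b), ← inner_setIntegral] at h1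
  simp only [one_mul, integral_posPart_sub, integral_const, MeasurableSet.univ,
    measureReal_restrict_apply, univ_inter, smul_eq_mul, hb] at h1
  linarith

end Vale.Agent.P226
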